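import Vale.Agent.P092.H370.Po3
import Vale.Agent.P092.H714.Cl3

/-!
P092 (helper370), block [P-GEO], part 4: topology. The singular Grassmannian `SGr σ J j` is
compact, Hausdorff, second countable, metrizable; incidence and orthogonality are closed; the
isometry group acts continuously.
-/

set_option linter.all false

open Matrix Module Set Topology TopologicalSpace

namespace Vale.Agent.P092.H370.Po

open Vale.Agent.P092.H303 (FormGroup)
open Vale.Agent.P092.H714.Cl
open Vale.Agent.P092.H100.Gr (Gr Fr sp sp_oq fr_val_cont incG incG_closed)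

variable {n : Type} [Fintype n] [DecidableEq n] {k : Type} [NontriviallyNormedField k]
  {σ : k →+* k} {ε : k} {J : Matrix n n k}

/-- orthogonality of the spans of two frames -/
theorem ort_sp {i j : ℕ} (v : Fr k n i) (w : Fr k n j) :
    Ort σ J (sp v).1 (sp w).1 ↔ ∀ a b, hf σ J (v.1 a) (w.1 b) = 0 := by
  constructor
  · intro h a b
    exact h _ (Submodule.subset_span ⟨a, rfl⟩) _ (Submodule.subset_span ⟨b, rfl⟩)
  · intro h x hx y hy
    change x ∈ Submodule.span k (range v.1) at hx
    change y ∈ Submodule.span k (range w.1) at hy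
    induction hx using Submodule.span_induction with
    | mem x hx =>
      obtain ⟨a, rfl⟩ := hx
      induction hy using Submodule.span_induction with
      | mem y hy => obtain ⟨b, rfl⟩ := hy; exact h a b
      | zero => exact hf_zero_right σ J _
      | add y y' _ _ h1 h2 => rw [hf_add_right, h1, h2, add_zero]
      | smul c y _ h1 => rw [hf_smul_right, h1, mul_zero]
    | zero => exact hf_zero_left σ J _
    | add x x' _ _ h1 h2 => rw [hf_add_left, h1, h2, add_zero]
    | smul c x _ h1 => rw [hf_smul_left, h1, mul_zero]

theorem frort_closed (hσ : Continuous σ) {i j : ℕ} :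
    IsClosed {p : Fr k n i × Fr k n j | Ort σ J (sp p.1).1 (sp p.2).1} := by
  have e : {p : Fr k n i × Fr k n j | Ort σ J (sp p.1).1 (sp p.2).1} =
      ⋂ (a : Fin i), ⋂ (b : Fin j),
        {p : Fr k n i × Fr k n j | hf σ J (p.1.1 a) (p.2.1 b) = 0} := by
    ext p
    simp only [mem_iInter, mem_setOf_eq]
    exact ort_sp p.1 p.2
  rw [e]
  refine isClosed_iInter fun a => isClosed_iInter fun b => isClosed_eq ?_ continuous_const
  exact (continuous_hf hσ).comp
    (((continuous_apply a).comp (fr_val_cont.comp continuous_fst)).prodMk
      ((continuous_apply b).comp (fr_val_cont.comp continuous_snd)))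

/-- orthogonality is closed in `Gr × Gr` -/
theorem ortG_closed (hσ : Continuous σ) {i j : ℕ} :
    IsClosed {p : Gr k n i × Gr k n j | Ort σ J p.1.1 p.2.1} := by
  have h := (sp_oq (k := k) (ι := n) (j := i)).prodMap (sp_oq (k := k) (ι := n) (j := j))
  rw [← h.isQuotientMap.isClosed_preimage]
  exact frort_closed hσ

/-- the singular subspaces form a closed subset -/
theorem singG_closed (hσ : Continuous σ) {j : ℕ} : IsClosed {X : Gr k n j | Sing σ J X.1} :=
  (ortG_closed (J := J) hσ (i := j) (j := j)).preimage (continuous_id.prodMk continuous_id)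

section inst

instance {j : ℕ} : TopologicalSpace (SGr σ J j) :=
  inferInstanceAs (TopologicalSpace {X : Gr k n j // Sing σ J X.1})

instance {j : ℕ} : T2Space (SGr σ J j) :=
  inferInstanceAs (T2Space {X : Gr k n j // Sing σ J X.1})

theorem SGr.val_cont {j : ℕ} : Continuous (fun X : SGr σ J j => X.1) := continuous_subtype_val

/-- incidence is closed -/
theorem inc_closed {i j : ℕ} : IsClosed {p : SGr σ J i × SGr σ J j | Inc p.1 p.2} :=
  (incG_closed (k := k) (ι := n) (i := i) (j := j)).preimage
    ((SGr.val_cont.comp continuous_fst).prodMk (SGr.val_cont.comp continuous_snd))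

/-- orthogonality (collinearity) is closed -/
theorem col_closed (hσ : Continuous σ) {i j : ℕ} :
    IsClosed {p : SGr σ J i × SGr σ J j | Col p.1 p.2} :=
  (ortG_closed (J := J) hσ).preimage
    ((SGr.val_cont.comp continuous_fst).prodMk (SGr.val_cont.comp continuous_snd))

variable [ProperSpace k]

instance {j : ℕ} : SecondCountableTopology (SGr σ J j) :=
  TopologicalSpace.Subtype.secondCountableTopology {X : Gr k n j | Sing σ J X.1}

instance [Fact (Continuous σ)] {j : ℕ} : CompactSpace (SGr σ J j) :=
  isCompact_iff_compactSpace.1 (singG_closed (J := J) Fact.out).isCompact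

instance {j : ℕ} : MetrizableSpace (SGr σ J j) :=
  (IsEmbedding.subtypeVal (p := fun X : Gr k n j => Sing σ J X.1)).metrizableSpace

end inst

section action

/-- the action of `SL` on the frames, rows -/
def actF {j : ℕ} (g : SpecialLinearGroup n k) (v : Fr k n j) : Fr k n j :=
  ⟨fun b => v.1 b ᵥ* g.1, by
    have h := v.2.map' g.1.vecMulLinear (LinearMap.ker_eq_bot.2 (vecMul_inj g))
    exact h⟩

theorem sp_actF {j : ℕ} (g : SpecialLinearGroup n k) (v : Fr k n j) :
    (sp (actF g v)).1 = act g (sp v).1 := by
  change Submodule.span k (range fun b => v.1 b ᵥ* g.1) =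
    (Submodule.span k (range v.1)).map g.1.vecMulLinear
  rw [Submodule.map_span, ← range_comp]
  rfl

/-- the action on the Grassmannian, rows -/
def actG {j : ℕ} (g : SpecialLinearGroup n k) (X : Gr k n j) : Gr k n j :=
  ⟨act g X.1, (finrank_act g X.1).trans X.2⟩

theorem actG_cont {j : ℕ} :
    Continuous fun p : SpecialLinearGroup n k × Gr k n j => actG p.1 p.2 := by
  have hq : IsOpenQuotientMap (Prod.map (id : SpecialLinearGroup n k → _)
      (sp : Fr k n j → Gr k n j)) := IsOpenQuotientMap.id.prodMap sp_oq
  rw [← hq.continuous_comp_iff]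
  have : ((fun p : SpecialLinearGroup n k × Gr k n j => actG p.1 p.2) ∘ Prod.map id sp) =
      sp ∘ fun p : SpecialLinearGroup n k × Fr k n j => actF p.1 p.2 := by
    funext p
    exact Subtype.ext (sp_actF _ _).symm
  rw [this]
  refine H100.Gr.sp_cont.comp (Continuous.subtype_mk ?_ _)
  refine continuous_pi fun b => ?_
  have h1 : Continuous fun p : SpecialLinearGroup n k × Fr k n j => p.2.1 b :=
    (continuous_apply b).comp (fr_val_cont.comp continuous_snd)
  have h2 : Continuous fun p : SpecialLinearGroup n k × Fr k n j => p.1.1 :=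
    isInducing_val.continuous.comp continuous_fst
  refine continuous_pi fun i => ?_
  change Continuous fun p : SpecialLinearGroup n k × Fr k n j => ∑ l, p.2.1 b l * p.1.1 l i
  refine continuous_finset_sum _ fun l _ => ?_
  exact ((continuous_apply l).comp h1).mul ((continuous_apply_apply l i).comp h2)

instance {j : ℕ} : ContinuousSMul (FormGroup σ J) (SGr σ J j) where
  continuous_smul := by
    refine Continuous.subtype_mk ?_ _
    have h : Continuous fun p : FormGroup σ J × SGr σ J j => ((p.1.1)⁻¹, p.2.1) :=
      ((continuous_subtype_val.comp continuous_fst).inv).prodMk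
        (SGr.val_cont.comp continuous_snd)
    exact actG_cont.comp h

end action

end Vale.Agent.P092.H370.Po
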