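import Vale.Agent.P092.H370.Po2

/-!
P092 (helper370), block [P-GEO], part 3: the source geometry. `SGr σ J j` = the singular
`j`-spaces, with the action `g • X = X g⁻¹` of the isometry group; transitivity, connectedness
(both ways), transitivity on the adjacent pairs (two orbits), on flags, on frames.
-/

set_option linter.all false

open Matrix Module Set

namespace Vale.Agent.P092.H370.Po

open Vale.Agent.P092.H303 (FormGroup)
open Vale.Agent.P092.H714.Cl
open Vale.Agent.P092.H100.Gr (Gr)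

variable {n : Type} [Fintype n] [DecidableEq n] {k : Type} [Field k]
  {σ : k →+* k} {ε : k} {J : Matrix n n k}

/-- the singular `j`-spaces -/
def SGr (σ : k →+* k) (J : Matrix n n k) (j : ℕ) : Type := {X : Gr k n j // Sing σ J X.1}

/-- the subspace -/
def SGr.S {j : ℕ} (X : SGr σ J j) : Submodule k (n → k) := X.1.1

theorem SGr.sing {j : ℕ} (X : SGr σ J j) : Sing σ J X.S := X.2

theorem SGr.dim {j : ℕ} (X : SGr σ J j) : finrank k X.S = j := X.1.2

theorem SGr.ext {j : ℕ} {X Y : SGr σ J j} (h : X.S = Y.S) : X = Y := Subtype.ext (Subtype.ext h)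

/-- constructor -/
def SGr.mk' {j : ℕ} (X : Submodule k (n → k)) (h : Sing σ J X) (hd : finrank k X = j) :
    SGr σ J j := ⟨⟨X, hd⟩, h⟩

@[simp] theorem SGr.mk'_S {j : ℕ} (X : Submodule k (n → k)) (h : Sing σ J X)
    (hd : finrank k X = j) : (SGr.mk' X h hd).S = X := rfl

/-- incidence -/
def Inc {i j : ℕ} (X : SGr σ J i) (Y : SGr σ J j) : Prop := X.S ≤ Y.S

/-- orthogonality (collinearity) -/
def Col {i j : ℕ} (X : SGr σ J i) (Y : SGr σ J j) : Prop := Ort σ J X.S Y.S

theorem SGr.eq_of_le {j : ℕ} {X Y : SGr σ J j} (h : X.S ≤ Y.S) : X = Y :=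
  SGr.ext (Submodule.eq_of_le_of_finrank_eq h (X.dim.trans Y.dim.symm))

theorem Inc.refl {j : ℕ} (X : SGr σ J j) : Inc X X := le_rfl

theorem Inc.trans {i j l : ℕ} {X : SGr σ J i} {Y : SGr σ J j} {Z : SGr σ J l} (h : Inc X Y)
    (h' : Inc Y Z) : Inc X Z := le_trans h h'

theorem inc_iff_eq {j : ℕ} {X Y : SGr σ J j} : Inc X Y ↔ X = Y :=
  ⟨SGr.eq_of_le, fun h => h ▸ le_rfl⟩

theorem Inc.col {i j : ℕ} {X : SGr σ J i} {Y : SGr σ J j} (h : Inc X Y) : Col X Y :=
  fun x hx y hy => Y.sing x (h hx) y hy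

theorem Inc.le {i j : ℕ} {X : SGr σ J i} {Y : SGr σ J j} (h : Inc X Y) : i ≤ j := by
  have := Submodule.finrank_mono h
  rwa [X.dim, Y.dim] at this

section action

instance {j : ℕ} : MulAction (FormGroup σ J) (SGr σ J j) where
  smul g X := SGr.mk' (act g.1⁻¹ X.S) (X.sing.act (inv_mem g.2)) ((finrank_act _ _).trans X.dim)
  one_smul X := SGr.ext (by
    change act (1 : SpecialLinearGroup n k)⁻¹ X.S = X.S
    rw [inv_one, act_one])
  mul_smul g h X := SGr.ext (by
    change act (g.1 * h.1)⁻¹ X.S = act g.1⁻¹ (act h.1⁻¹ X.S)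
    rw [_root_.mul_inv_rev, act_mul])

theorem smul_S {j : ℕ} (g : FormGroup σ J) (X : SGr σ J j) : (g • X).S = act g.1⁻¹ X.S := rfl

theorem inc_smul {i j : ℕ} (g : FormGroup σ J) {X : SGr σ J i} {Y : SGr σ J j} :
    Inc (g • X) (g • Y) ↔ Inc X Y := act_le

theorem col_smul {i j : ℕ} (g : FormGroup σ J) {X : SGr σ J i} {Y : SGr σ J j} :
    Col (g • X) (g • Y) ↔ Col X Y := ort_act (inv_mem g.2)

/-- the transvection group inside the isometry group -/
def GTF (hF : Frm σ ε J) : Subgroup (FormGroup σ J) := (GT σ ε J).subgroupOf (FormGroup σ J)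

/-- transitivity, pointwise stabiliser form -/
theorem trans_SGr (hF : Frm σ ε J) {j : ℕ} (X Y : SGr σ J j) :
    ∃ g : FormGroup σ J, g.1 ∈ GT σ ε J ∧ g • X = Y ∧ ∀ x ∈ X.S ⊓ Y.S, x ᵥ* g.1.1 = x := by
  obtain ⟨g, hg, h1, h2⟩ := trans_sing hF Y.sing X.sing (Y.dim.trans X.dim.symm)
  have hgF := GT_le hF hg
  refine ⟨⟨g, hgF⟩, hg, SGr.ext ?_, fun x hx => h2 x ⟨hx.2, hx.1⟩⟩
  rw [smul_S, ← h1, act_inv_act]

end action

section chains

/-- every singular `j`-space contains a singular `i`-space -/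
theorem exists_inc_le {i j : ℕ} (h : i ≤ j) (X : SGr σ J j) : ∃ Y : SGr σ J i, Inc Y X := by
  obtain ⟨Z, hZ, hd⟩ := exists_sub (Y := X.S) (h.trans_eq X.dim.symm)
  exact ⟨SGr.mk' Z (X.sing.mono hZ) hd, hZ⟩

/-- between two singular spaces -/
theorem exists_inc_between {i j l : ℕ} (h1 : i ≤ l) (h2 : l ≤ j) {X : SGr σ J i} {Y : SGr σ J j}
    (h : Inc X Y) : ∃ Z : SGr σ J l, Inc X Z ∧ Inc Z Y := by
  obtain ⟨Z, hZ1, hZ2, hd⟩ := exists_between (show X.S ≤ Y.S from h) (X.dim.trans_le h1)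
    (h2.trans_eq Y.dim.symm)
  exact ⟨SGr.mk' Z (Y.sing.mono hZ2) hd, hZ1, hZ2⟩

/-- every singular space lies in one of dimension `l ≤ j` if there is one of dimension `j` -/
theorem exists_inc_ge (hF : Frm σ ε J) {i l j : ℕ} (h1 : i ≤ l) (h2 : l ≤ j) (X : SGr σ J i)
    (Y : SGr σ J j) : ∃ Z : SGr σ J l, Inc X Z := by
  obtain ⟨Z, hZ1, hZ2, hd⟩ := exists_above hF X.sing Y.sing (X.dim.trans_le h1)
    (h2.trans_eq Y.dim.symm)
  exact ⟨SGr.mk' Z hZ2 hd, hZ1⟩

/-- the elementary step towards `P'` -/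
theorem exists_step (hF : Frm σ ε J) {j : ℕ} {P P' : SGr σ J (j + 1)} (hne : P ≠ P') :
    ∃ (H : SGr σ J j) (Q : SGr σ J (j + 1)) (u y : n → k), Inc H P ∧ Inc H Q ∧
      P.S = H.S ⊔ Submodule.span k {u} ∧ Q.S = H.S ⊔ Submodule.span k {y} ∧ u ∉ H.S ∧
      y ∉ P.S ∧ hf σ J u u = 0 ∧ hf σ J y y = 0 ∧ (∀ x ∈ H.S, hf σ J x u = 0) ∧
      (∀ x ∈ H.S, hf σ J x y = 0) ∧
      finrank k ↥(P.S ⊓ P'.S) < finrank k ↥(Q.S ⊓ P'.S) := by
  obtain ⟨H, u, y, hHX, huX, huH, hXe, hyY, hyX, hIH, hp, hlt⟩ :=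
    exists_split P.sing P'.sing (P.dim.trans P'.dim.symm) (fun h => hne (SGr.ext h))
  have hd : finrank k H = j := by
    have h1 := finrank_sup_span huH
    rw [← hXe, P.dim] at h1
    omega
  have hyH : y ∉ H := fun h => hyX (hHX h)
  have hs : Sing σ J (H ⊔ Submodule.span k {y}) :=
    sing_sup_span hF (P.sing.mono hHX) (P'.sing.zero hyY) hp
  exact ⟨SGr.mk' H (P.sing.mono hHX) hd, SGr.mk' (H ⊔ Submodule.span k {y}) hs
    (by rw [finrank_sup_span hyH, hd]), u, y, hHX, le_sup_left, hXe, rfl, huH, hyX,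
    P.sing.zero huX, P'.sing.zero hyY, fun x hx => P.sing x (hHX hx) u huX, hp, hlt⟩

/-- **connectedness**: singular `(j+1)`-spaces, steps with a common `j`-space -/
theorem con2 (hF : Frm σ ε J) {j : ℕ} (P P' : SGr σ J (j + 1)) :
    Relation.ReflTransGen (fun A B : SGr σ J (j + 1) => ∃ X : SGr σ J j, Inc X A ∧ Inc X B)
      P P' := by
  obtain ⟨m, hm⟩ : ∃ m, j + 1 - finrank k ↥(P.S ⊓ P'.S) = m := ⟨_, rfl⟩
  induction m using Nat.strong_induction_on generalizing P with
  | _ m ih =>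
    by_cases hne : P = P'
    · rw [hne]
    · obtain ⟨H, Q, u, y, h1, h2, -, -, -, -, -, -, -, -, hlt⟩ := exists_step hF hne
      have h3 : finrank k ↥(Q.S ⊓ P'.S) ≤ j + 1 :=
        (Submodule.finrank_mono inf_le_right).trans_eq P'.dim
      exact Relation.ReflTransGen.head ⟨H, h1, h2⟩ (ih _ (by omega) Q rfl)

/-- **connectedness**: singular `j`-spaces, steps inside a common `(j+1)`-space, for `j`
smaller than the Witt index -/
theorem con (hF : Frm σ ε J) {j : ℕ} (Y : SGr σ J (j + 1)) (P P' : SGr σ J j) :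
    Relation.ReflTransGen (fun A B : SGr σ J j => ∃ Z : SGr σ J (j + 1), Inc A Z ∧ Inc B Z)
      P P' := by
  cases j with
  | zero =>
    have : P = P' := SGr.ext (by
      rw [Submodule.finrank_eq_zero.1 P.dim, Submodule.finrank_eq_zero.1 P'.dim])
    rw [this]
  | succ j =>
    obtain ⟨m, hm⟩ : ∃ m, j + 1 - finrank k ↥(P.S ⊓ P'.S) = m := ⟨_, rfl⟩
    induction m using Nat.strong_induction_on generalizing P with
    | _ m ih =>
      by_cases hne : P = P'
      · rw [hne]
      · obtain ⟨H, Q, u, y, h1, h2, hPe, hQe, huH, hyP, huu, hyy, hHu, hHy, hlt⟩ :=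
          exists_step hF hne
        have h3 : finrank k ↥(Q.S ⊓ P'.S) ≤ j + 1 :=
          (Submodule.finrank_mono inf_le_right).trans_eq P'.dim
        refine Relation.ReflTransGen.trans ?_ (ih _ (by omega) Q rfl)
        have hyH : y ∉ H.S := fun h => hyP (h1 h)
        have huP : u ∈ P.S := by
          rw [hPe]
          exact (le_sup_right : Submodule.span k {u} ≤ _) (Submodule.mem_span_singleton_self u)
        by_cases huy : hf σ J u y = 0
        · -- one step
          have hPy : ∀ x ∈ P.S, hf σ J x y = 0 := by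
            intro x hx
            rw [hPe] at hx
            obtain ⟨a, ha, b, hb, rfl⟩ := Submodule.mem_sup.1 hx
            obtain ⟨c, rfl⟩ := Submodule.mem_span_singleton.1 hb
            rw [hf_add_left, hf_smul_left, huy, mul_zero, hHy a ha, add_zero]
          refine Relation.ReflTransGen.single ⟨SGr.mk' (P.S ⊔ Submodule.span k {y})
            (sing_sup_span hF P.sing hyy hPy) (by rw [finrank_sup_span hyP, P.dim]),
            le_sup_left, ?_⟩
          change Q.S ≤ P.S ⊔ Submodule.span k {y}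
          rw [hQe]
          exact sup_le_sup_right h1 _
        · -- two steps
          obtain ⟨v₀, hv₀P, hv₀, hv₀p⟩ := exists_extend hF P.sing Y.sing (by
            rw [P.dim, Y.dim]; omega)
          set c : k := hf σ J v₀ y * (hf σ J u y)⁻¹ with hc
          set v : n → k := v₀ + (-c) • u with hv
          have hvy : hf σ J v y = 0 := by
            rw [hv, hf_add_left, hf_smul_left, hc, neg_mul, mul_assoc,
              inv_mul_cancel₀ huy, mul_one, add_neg_cancel]
          have huv₀ : hf σ J u v₀ = 0 := hv₀p u huP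
          have huv : hf σ J u v = 0 := by
            rw [hv, hf_add_right, hf_smul_right, huu, mul_zero, huv₀, add_zero]
          have hHv : ∀ x ∈ H.S, hf σ J x v = 0 := fun x hx => by
            rw [hv, hf_add_right, hf_smul_right, hHu x hx, mul_zero, hv₀p x (h1 hx), add_zero]
          have hPv : ∀ x ∈ P.S, hf σ J x v = 0 := fun x hx => by
            rw [hv, hf_add_right, hf_smul_right, P.sing x hx u huP, mul_zero, hv₀p x hx,
              add_zero]
          have hvP : v ∉ P.S := fun h => hv₀P (by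
            have : v₀ = v + c • u := by rw [hv, neg_smul]; abel
            rw [this]
            exact P.S.add_mem h (P.S.smul_mem _ huP))
          have hvv : hf σ J v v = 0 := by
            have e1 : hf σ J (v₀ + (-c) • u) v = hf σ J v₀ v := by
              rw [hf_add_left, hf_smul_left, huv, mul_zero, add_zero]
            have e2 : hf σ J v₀ (v₀ + (-c) • u) = 0 := by
              rw [hf_add_right, hf_smul_right, hv₀, hF.symm_zero huv₀, mul_zero, add_zero]
            rw [← hv] at e1 e2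
            rw [e1, e2]
          have hvH : v ∉ H.S := fun h => hvP (h1 h)
          have hvQ : v ∉ Q.S := by
            intro h
            rw [hQe] at h
            obtain ⟨a, ha, b, hb, hab⟩ := Submodule.mem_sup.1 h
            obtain ⟨d, rfl⟩ := Submodule.mem_span_singleton.1 hb
            have h4 : σ d * hf σ J u y = 0 := by
              have e1 : hf σ J u (a + d • y) = 0 := by rw [hab, huv]
              rwa [hf_add_right, hf_smul_right, hF.symm_zero (hHu a ha), zero_add] at e1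
            have hd : d = 0 := by
              have := (mul_eq_zero.1 h4).resolve_right huy
              rwa [map_eq_zero] at this
            rw [hd, zero_smul, add_zero] at hab
            exact hvH (hab ▸ ha)
          have hQv : ∀ x ∈ Q.S, hf σ J x v = 0 := by
            intro x hx
            rw [hQe] at hx
            obtain ⟨a, ha, b, hb, rfl⟩ := Submodule.mem_sup.1 hx
            obtain ⟨d, rfl⟩ := Submodule.mem_span_singleton.1 hb
            rw [hf_add_left, hf_smul_left, hF.symm_zero hvy, mul_zero, hHv a ha, add_zero]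
          set R : SGr σ J (j + 1) := SGr.mk' (H.S ⊔ Submodule.span k {v})
            (sing_sup_span hF H.sing hvv hHv) (by rw [finrank_sup_span hvH, H.dim]) with hR
          refine (Relation.ReflTransGen.single (b := R) ⟨SGr.mk' (P.S ⊔ Submodule.span k {v})
            (sing_sup_span hF P.sing hvv hPv) (by rw [finrank_sup_span hvP, P.dim]),
            le_sup_left, sup_le_sup_right h1 _⟩).tail
            ⟨SGr.mk' (Q.S ⊔ Submodule.span k {v})
            (sing_sup_span hF Q.sing hvv hQv) (by rw [finrank_sup_span hvQ, Q.dim]),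
            sup_le_sup_right h2 _, le_sup_left⟩

end chains

section flags

/-- **transitivity on flags** -/
theorem trans_flags (hF : Frm σ ε J) {m : ℕ} (X X' : ℕ → Submodule k (n → k))
    (hX : Monotone X) (hX' : Monotone X') (hs : ∀ i < m, Sing σ J (X i))
    (hs' : ∀ i < m, Sing σ J (X' i)) (hd : ∀ i < m, finrank k (X i) = finrank k (X' i)) :
    ∃ g ∈ GT σ ε J, ∀ i < m, act g (X i) = X' i := by
  induction m with
  | zero => exact ⟨1, one_mem _, fun i hi => absurd hi (Nat.not_lt_zero i)⟩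
  | succ m ih =>
    obtain ⟨g, hg, h1⟩ := ih (fun i hi => hs i (by omega)) (fun i hi => hs' i (by omega))
      (fun i hi => hd i (by omega))
    obtain ⟨g', hg', h2, h3⟩ := trans_sing hF ((hs m (by omega)).act (GT_le hF hg))
      (hs' m (by omega)) ((finrank_act g _).trans (hd m (by omega)))
    refine ⟨g * g', mul_mem hg hg', fun i hi => ?_⟩
    rcases Nat.lt_succ_iff_lt_or_eq.1 hi with h | rfl
    · rw [act_mul, h1 i h]
      refine act_of_fix fun x hx => h3 x ⟨?_, hX' h.le hx⟩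
      exact act_mono (hX h.le) (by rw [h1 i h]; exact hx)
    · rw [act_mul, h2]

/-- transitivity on incident pairs -/
theorem trans_flag (hF : Frm σ ε J) {i j : ℕ} {X X' : SGr σ J i} {Y Y' : SGr σ J j}
    (h : Inc X Y) (h' : Inc X' Y') :
    ∃ g : FormGroup σ J, g.1 ∈ GT σ ε J ∧ g • X = X' ∧ g • Y = Y' := by
  obtain ⟨g, hg, h1, -⟩ := trans_SGr hF X X'
  obtain ⟨g', hg', h2, h3⟩ := trans_SGr hF (g • Y) Y'
  refine ⟨g' * g, mul_mem hg' hg, ?_, by rw [mul_smul, h2]⟩
  rw [mul_smul, h1]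
  refine (smul_eq_iff_eq_inv_smul g' ).2 ?_
  refine SGr.ext ?_
  rw [smul_S]
  change X'.S = act (g'⁻¹).1⁻¹ X'.S
  have e : (g'⁻¹).1⁻¹ = g'.1 := inv_inv g'.1
  rw [e]
  symm
  refine act_of_fix fun x hx => h3 x ⟨?_, h' hx⟩
  have : Inc (g • X) (g • Y) := (inc_smul g).2 h
  rw [h1] at this
  exact this hx

/-- a fixed subspace -/
theorem smul_eq_of_fix {i : ℕ} {g : FormGroup σ J} {X : SGr σ J i}
    (h : ∀ x ∈ X.S, x ᵥ* g.1.1 = x) : g • X = X := by
  rw [smul_eq_iff_eq_inv_smul]
  refine SGr.ext ?_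
  change X.S = act (g⁻¹).1⁻¹ X.S
  have e : (g⁻¹).1⁻¹ = g.1 := inv_inv g.1
  rw [e]
  exact (act_of_fix h).symm

theorem exists_gen {X Y : Submodule k (n → k)} {j : ℕ} (h : X ≤ Y) (hX : finrank k X = j)
    (hY : finrank k Y = j + 1) : ∃ y, y ∉ X ∧ Y = X ⊔ Submodule.span k {y} := by
  have h6 : ¬ Y ≤ X := fun h' => by
    have := Submodule.finrank_mono h'
    omega
  obtain ⟨y, hy, hyX⟩ := SetLike.not_le_iff_exists.1 h6
  refine ⟨y, hyX, (Submodule.eq_of_le_of_finrank_eq
    (sup_le h ((Submodule.span_singleton_le_iff_mem _ _).2 hy)) ?_).symm⟩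
  rw [finrank_sup_span hyX, hX, hY]

/-- **transitivity on the collinear adjacent pairs** -/
theorem trans_pair_col (hF : Frm σ ε J) {j : ℕ} {P Y P' Y' : SGr σ J (j + 1)} (hne : P ≠ Y)
    (hne' : P' ≠ Y') (h : ∃ X : SGr σ J j, Inc X P ∧ Inc X Y)
    (h' : ∃ X : SGr σ J j, Inc X P' ∧ Inc X Y') (hc : Col P Y) (hc' : Col P' Y') :
    ∃ g : FormGroup σ J, g.1 ∈ GT σ ε J ∧ g • P = P' ∧ g • Y = Y' := by
  obtain ⟨X, h1, h2⟩ := h
  obtain ⟨X', h3, h4⟩ := h'
  obtain ⟨g, hg, hX, hP⟩ := trans_flag hF h1 h3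
  set Y₁ := g • Y with hY₁
  have h5 : Inc X' Y₁ := by rw [← hX]; exact (inc_smul g).2 h2
  have h6 : Col P' Y₁ := by rw [← hP]; exact (col_smul g).2 hc
  have h7 : P' ≠ Y₁ := by
    rw [← hP]; intro he; exact hne (MulAction.injective g he)
  obtain ⟨y, hy, hye⟩ := exists_gen h5 X'.dim Y₁.dim
  obtain ⟨y', hy', hye'⟩ := exists_gen h4 X'.dim Y'.dim
  have hyY : y ∈ Y₁.S := by
    rw [hye]; exact (le_sup_right : Submodule.span k {y} ≤ _) (Submodule.mem_span_singleton_self y)
  have hyY' : y' ∈ Y'.S := by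
    rw [hye']
    exact (le_sup_right : Submodule.span k {y'} ≤ _) (Submodule.mem_span_singleton_self y')
  have hyP : y ∉ P'.S := fun h => h7 (SGr.eq_of_le (by
    rw [hye]; exact sup_le h3 ((Submodule.span_singleton_le_iff_mem _ _).2 h))).symm
  have hyP' : y' ∉ P'.S := fun h => hne' (SGr.eq_of_le (by
    rw [hye']; exact sup_le h3 ((Submodule.span_singleton_le_iff_mem _ _).2 h))).symm
  obtain ⟨g', hg', a, ha, hga, hgf⟩ := exists_adj hF P'.sing (Y'.sing.zero hyY')
    (Y₁.sing.zero hyY) (fun x hx => hc' x hx y' hyY') (fun x hx => h6 x hx y hyY) hyP' hyP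
  have hgF := GT_le hF hg'
  refine ⟨⟨g', hgF⟩ * g, mul_mem hg' hg, ?_, ?_⟩
  · rw [mul_smul, hP]
    exact smul_eq_of_fix hgf
  · rw [mul_smul, ← hY₁, smul_eq_iff_eq_inv_smul]
    refine SGr.ext ?_
    change Y₁.S = act (g'⁻¹)⁻¹ Y'.S
    rw [inv_inv, hye', act_sup, act_span, hga, act_of_fix (fun x hx => hgf x (h3 hx)), hye]
    congr 1
    exact (Submodule.span_singleton_smul_eq (IsUnit.mk0 a ha) y).symm

end flags

end Vale.Agent.P092.H370.Po
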