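import Vale.Agent.P092.H370.Fo4

/-!
P092, Team P, stage 3, block [P3-GEO] (helper370), part 5: forms of Witt index `r` (`Wf`), the
quadrangle of a form of Witt index two: points `SGr σ J 1`, lines `SGr σ J 2`, incidence `Inc`,
collinearity `Col`; axioms, existence, transitivity of `EU`.
-/

set_option linter.all false

open Matrix Module Set

namespace Vale.Agent.P092.H370.Fo

open Vale.Agent.P092.H303 (FormGroup)
open Vale.Agent.P092.H714.Cl
open Vale.Agent.P092.H714.Sg (Fm)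
open Vale.Agent.P092.H370.Po hiding sing_sup_span exists_adj trans_sing exists_extend exists_above
  trans_SGr exists_inc_ge exists_step con2 con trans_flags trans_flag trans_pair_col exists_prod
  exists_iso_prod ort_comm exists_closer

variable {n : Type} [Fintype n] [DecidableEq n] {k : Type} [Field k]
  {σ : k →+* k} {ε : k} {J : Matrix n n k}

/-- a form of any kind of Witt index `r`, not the split orthogonal form in dimension `2r` -/
structure Wf (σ : k →+* k) (ε : k) (J : Matrix n n k) (r : ℕ) : Prop where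
  fm : Fm σ ε J
  wi : WI σ J r
  thick : (∃ c, c ≠ 0 ∧ c + ε * σ c = 0) ∨ 2 * r < Fintype.card n

theorem Wf.fo {r : ℕ} (hF : Wf σ ε J r) : Fo σ ε J := by
  rcases hF.thick with h | h
  · exact Fo.of_cc hF.fm h
  · exact Fo.of_dim hF.fm hF.wi.2 h

theorem _root_.Vale.Agent.P092.H714.Cl.Frm.wf (hF : Frm σ ε J) {r : ℕ} (h : WI σ J r) :
    Wf σ ε J r := ⟨hF.fm, h, Or.inl hF.cc⟩

/-- **the third point**, relative to a subspace `S` -/
theorem Wf.third {r : ℕ} (hF : Wf σ ε J r) {S E : Submodule k (n → k)} (hE : Sing σ J E)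
    (hES : E ≤ S) (hd : finrank k S + finrank k ↥(perp σ J S ⊓ E) ≤ 2 * finrank k E)
    {u w : n → k} (hu : hf σ J u u = 0) (hw : hf σ J w w = 0) (hSu : ∀ x ∈ S, hf σ J x u = 0)
    (hSw : ∀ x ∈ S, hf σ J x w = 0) (huw : hf σ J u w ≠ 0) :
    ∃ p, hf σ J p p = 0 ∧ (∀ x ∈ S, hf σ J x p = 0) ∧ hf σ J u p ≠ 0 ∧ hf σ J p w ≠ 0 := by
  have hF' := hF.fm
  by_cases hcc : ∃ c, c ≠ 0 ∧ c + ε * σ c = 0
  · obtain ⟨c, hc0, hc⟩ := hcc
    have ht : σ (σ (c / hf σ J u w)) = c / hf σ J u w := hF'.inv _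
    refine ⟨u + σ (c / hf σ J u w) • w, ?_, fun x hx => ?_, ?_, ?_⟩
    · rw [hf_add_left, hf_add_right, hf_add_right, hf_smul_left, hf_smul_left, hf_smul_right,
        hf_smul_right, hu, hw, ht, hF'.herm u w]
      have e : c / hf σ J u w * hf σ J u w = c := div_mul_cancel₀ c huw
      have e2 : σ (c / hf σ J u w) * σ (hf σ J u w) = σ c := by rw [← map_mul, e]
      rw [e]
      linear_combination hc + ε * e2
    · rw [hf_add_right, hf_smul_right, hSu x hx, hSw x hx, mul_zero, add_zero]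
    · rw [hf_add_right, hf_smul_right, hu, ht, zero_add, div_mul_cancel₀ c huw]
      exact hc0
    · rw [hf_add_left, hf_smul_left, hw, mul_zero, add_zero]
      exact huw
  have hn := hF.thick.resolve_left hcc
  have hr := hF.wi.2
  have hFo := hF.fo
  push Not at hcc
  have hc0 : ∀ c, c + ε * σ c = 0 → c = 0 := fun c hc => by
    by_contra h
    exact hcc c h hc
  have huS : u ∉ S := fun h => huw (hSw u h)
  have huE : u ∉ E := fun h => huS (hES h)
  have hE1 : finrank k E + 1 ≤ r := by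
    rw [← finrank_sup_span huE]
    exact hr _ (sing_sup_span hFo hE hu fun x hx => hSu x (hES hx))
  -- an anisotropic vector orthogonal to `S`, `u`, `w`
  set T := S ⊔ Submodule.span k {u} ⊔ Submodule.span k {w} with hT
  obtain ⟨v, hvT, hv⟩ : ∃ v ∈ perp σ J T, hf σ J v v ≠ 0 := by
    by_contra hcon
    push Not at hcon
    have hs : Sing σ J (perp σ J T) := by
      intro x hx y hy
      have h1 := hcon (x + y) ((perp σ J T).add_mem hx hy)
      rw [hf_add_left, hf_add_right, hf_add_right, hcon x hx, hcon y hy, hF'.herm x y] at h1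
      exact hc0 _ (by linear_combination h1)
    have hST : S ≤ T := le_sup_left.trans le_sup_left
    have huT : u ∈ T := (le_sup_right.trans le_sup_left : Submodule.span k {u} ≤ T)
      (Submodule.mem_span_singleton_self u)
    have hwT : w ∈ T := (le_sup_right : Submodule.span k {w} ≤ T)
      (Submodule.mem_span_singleton_self w)
    -- `perp T ⊔ E` is singular
    have hsE : Sing σ J (perp σ J T ⊔ E) := by
      unfold Sing
      rw [ort_sup_left, ort_sup_right, ort_sup_right]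
      refine ⟨⟨hs, ?_⟩, ?_, hE⟩
      · intro x hx y hy
        exact hF'.symm0 (hx y (hST (hES hy)))
      · intro y hy x hx
        exact hx y (hST (hES hy))
    have hup : u ∉ perp σ J T ⊔ E := by
      intro h
      obtain ⟨a, ha, b, hb, hab⟩ := Submodule.mem_sup.1 h
      apply huw
      rw [← hab, hf_add_left, hSw b (hES hb), hF'.symm0 (ha w hwT), add_zero]
    have h2 := hr _ (sing_sup_span hFo hsE hu (by
      intro x hx
      obtain ⟨a, ha, b, hb, rfl⟩ := Submodule.mem_sup.1 hx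
      rw [hf_add_left, hSu b (hES hb), hF'.symm0 (ha u huT), add_zero]))
    rw [finrank_sup_span hup] at h2
    have h3 := le_finrank_perp hF' T
    have h4 : finrank k T ≤ finrank k S + 1 + 1 := by
      refine (Submodule.finrank_add_le_finrank_add_finrank _ _).trans ?_
      refine add_le_add ((Submodule.finrank_add_le_finrank_add_finrank _ _).trans
        (add_le_add le_rfl ?_)) ?_
      · exact (finrank_span_le_card ({u} : Set (n → k))).trans (by simp)
      · exact (finrank_span_le_card ({w} : Set (n → k))).trans (by simp)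
    have h5 := Submodule.finrank_sup_add_finrank_inf_eq (perp σ J T) E
    have h6 : finrank k ↥(perp σ J T ⊓ E) ≤ finrank k ↥(perp σ J S ⊓ E) :=
      Submodule.finrank_mono (inf_le_inf_right _ (perp_anti hST))
    omega
  have hvu : hf σ J u v = 0 := hvT u ((le_sup_right.trans le_sup_left :
    Submodule.span k {u} ≤ T) (Submodule.mem_span_singleton_self u))
  have hvw : hf σ J w v = 0 := hvT w ((le_sup_right : Submodule.span k {w} ≤ T)
    (Submodule.mem_span_singleton_self w))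
  have hvS : ∀ x ∈ S, hf σ J x v = 0 := fun x hx =>
    hvT x ((le_sup_left.trans le_sup_left : S ≤ T) hx)
  obtain ⟨β, hβ⟩ := hF'.tv v
  have hβ0 : β ≠ 0 := by
    rintro rfl
    rw [map_zero, mul_zero, add_zero] at hβ
    exact hv hβ
  have ht : σ (σ (-β / hf σ J u w)) = -β / hf σ J u w := hF'.inv _
  have hvu' : hf σ J v u = 0 := hF'.symm0 hvu
  have hvw' : hf σ J v w = 0 := hF'.symm0 hvw
  refine ⟨u + σ (-β / hf σ J u w) • w + v, ?_, fun x hx => ?_, ?_, ?_⟩
  · simp only [hf_add_left, hf_add_right, hf_smul_left, hf_smul_right]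
    rw [hu, hw, ht, hvu, hvw, hvu', hvw', hβ, hF'.herm u w]
    have e : -β / hf σ J u w * hf σ J u w = -β := div_mul_cancel₀ _ huw
    have e2 : σ (-β / hf σ J u w) * σ (hf σ J u w) = -σ β := by rw [← map_mul, e, map_neg]
    linear_combination ε * e2 + e
  · rw [hf_add_right, hf_add_right, hf_smul_right, hSu x hx, hSw x hx, hvS x hx, mul_zero,
      add_zero, add_zero]
  · rw [hf_add_right, hf_add_right, hf_smul_right, hu, ht, hvu, add_zero, zero_add,
      div_mul_cancel₀ _ huw]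
    exact neg_ne_zero.2 hβ0
  · rw [hf_add_left, hf_add_left, hf_smul_left, hw, hvw', mul_zero, add_zero, add_zero]
    exact huw

/-- **the step relative to `S`**: `u ↦ a w`, every vector of `S` fixed -/
theorem Wf.step {r : ℕ} (hF : Wf σ ε J r) {S E : Submodule k (n → k)} (hE : Sing σ J E)
    (hES : E ≤ S) (hd : finrank k S + finrank k ↥(perp σ J S ⊓ E) ≤ 2 * finrank k E)
    {u w : n → k} (hu : hf σ J u u = 0) (hw : hf σ J w w = 0) (hSu : ∀ x ∈ S, hf σ J x u = 0)
    (hSw : ∀ x ∈ S, hf σ J x w = 0) (huw : hf σ J u w ≠ 0) :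
    ∃ g ∈ EU σ ε J, ∃ a : k, a ≠ 0 ∧ u ᵥ* g.1 = a • w ∧ ∀ y ∈ S, y ᵥ* g.1 = y := by
  obtain ⟨p, hp, hZp, hup, hpw⟩ := hF.third hE hES hd hu hw hSu hSw huw
  have hpu : hf σ J p u ≠ 0 := Fm.symm_ne0 hF.fm hup
  have h1 : hf σ J p (σ (hf σ J p u)⁻¹ • u) = 1 := by
    rw [hf_smul_right, hF.fm.inv, inv_mul_cancel₀ hpu]
  have h2 : hf σ J p (σ (hf σ J p w)⁻¹ • w) = 1 := by
    rw [hf_smul_right, hF.fm.inv, inv_mul_cancel₀ hpw]
  obtain ⟨g, hg, -, hg2, hg3⟩ := dual_move hF.fm hp (iso_smul hu _) (iso_smul hw _) h1 h2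
  have hs0 : σ (hf σ J p u)⁻¹ ≠ 0 := by
    rw [Ne, map_eq_zero]
    exact inv_ne_zero hpu
  have ht0 : σ (hf σ J p w)⁻¹ ≠ 0 := by
    rw [Ne, map_eq_zero]
    exact inv_ne_zero hpw
  refine ⟨g, hg, (σ (hf σ J p u)⁻¹)⁻¹ * σ (hf σ J p w)⁻¹, mul_ne_zero (inv_ne_zero hs0) ht0, ?_,
    fun y hy => hg3 y (hZp y hy) ?_⟩
  · rw [smul_vecMul] at hg2
    rw [mul_smul, ← hg2, smul_smul, inv_mul_cancel₀ hs0, one_smul]
  · rw [hf_sub_right, hf_smul_right, hf_smul_right, hSu y hy, hSw y hy]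
    ring

/-! ### Points and lines -/

/-- a vector of a point -/
theorem exists_vec (x : SGr σ J 1) : ∃ v, v ≠ 0 ∧ x.S = Submodule.span k {v} := by
  obtain ⟨v, hv, h⟩ := finrank_eq_one_iff'.1 x.dim
  refine ⟨v.1, fun h0 => hv (Subtype.ext h0), le_antisymm (fun y hy => ?_) ?_⟩
  · obtain ⟨c, hc⟩ := h ⟨y, hy⟩
    exact Submodule.mem_span_singleton.2 ⟨c, congrArg Subtype.val hc⟩
  · exact (Submodule.span_singleton_le_iff_mem _ _).2 v.2

/-- the point of an isotropic vector -/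
def ptv (v : n → k) (h0 : v ≠ 0) (h : hf σ J v v = 0) : SGr σ J 1 :=
  SGr.mk' (Submodule.span k {v}) (by
    unfold Sing
    rw [ort_span_left]
    intro y hy
    obtain ⟨a, rfl⟩ := Submodule.mem_span_singleton.1 hy
    rw [hf_smul_right, h, mul_zero]) (finrank_span_singleton h0)

theorem ptv_S {v : n → k} (h0 : v ≠ 0) (h : hf σ J v v = 0) :
    (ptv v h0 h).S = Submodule.span k {v} := rfl

theorem exists_ptv (x : SGr σ J 1) : ∃ v, ∃ (h0 : v ≠ 0) (h : hf σ J v v = 0), x = ptv v h0 h := by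
  obtain ⟨v, h0, hx⟩ := exists_vec x
  have hv : v ∈ x.S := by rw [hx]; exact Submodule.mem_span_singleton_self v
  exact ⟨v, h0, x.sing v hv v hv, SGr.ext hx⟩

theorem inc_ptv {j : ℕ} {v : n → k} (h0 : v ≠ 0) (h : hf σ J v v = 0) {l : SGr σ J j} :
    Inc (ptv v h0 h) l ↔ v ∈ l.S := Submodule.span_singleton_le_iff_mem _ _

theorem col_ptv {v w : n → k} (h0 : v ≠ 0) (h : hf σ J v v = 0) (h0' : w ≠ 0)
    (h' : hf σ J w w = 0) : Col (ptv v h0 h) (ptv w h0' h') ↔ hf σ J v w = 0 := by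
  constructor
  · intro hc
    exact hc v (Submodule.mem_span_singleton_self v) w (Submodule.mem_span_singleton_self w)
  · intro hvw x hx y hy
    obtain ⟨a, rfl⟩ := Submodule.mem_span_singleton.1 hx
    obtain ⟨b, rfl⟩ := Submodule.mem_span_singleton.1 hy
    rw [hf_smul_left, hf_smul_right, hvw, mul_zero, mul_zero]

theorem ptv_eq {v w : n → k} (h0 : v ≠ 0) (h : hf σ J v v = 0) (h0' : w ≠ 0)
    (h' : hf σ J w w = 0) : ptv v h0 h = ptv w h0' h' ↔ v ∈ Submodule.span k {w} := by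
  rw [← inc_iff_eq, inc_ptv, ptv_S]

theorem smul_ptv (g : FormGroup σ J) {v w : n → k} (h0 : v ≠ 0) (h : hf σ J v v = 0)
    (h0' : w ≠ 0) (h' : hf σ J w w = 0) {a : k} (ha : a ≠ 0) (hg : w ᵥ* g.1.1 = a • v) :
    g • ptv v h0 h = ptv w h0' h' := by
  rw [smul_eq_iff_eq_inv_smul]
  refine SGr.ext ?_
  change Submodule.span k {v} = act (g⁻¹).1⁻¹ (Submodule.span k {w})
  have e : (g⁻¹).1⁻¹ = g.1 := inv_inv g.1
  rw [e, act_span, hg]
  exact (Submodule.span_singleton_smul_eq (IsUnit.mk0 a ha) v).symm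

theorem col_symm {i j : ℕ} (hF : Fm σ ε J) {X : SGr σ J i} {Y : SGr σ J j} (h : Col X Y) :
    Col Y X := fun y hy x hx => hF.symm0 (h x hx y hy)

/-- two points of a line are collinear -/
theorem col_of_inc {l : SGr σ J 2} {x y : SGr σ J 1} (h1 : Inc x l) (h2 : Inc y l) : Col x y :=
  fun a ha b hb => l.sing a (h1 ha) b (h2 hb)

/-- the space spanned by two points -/
theorem sup_dim {x y : SGr σ J 1} (hne : x ≠ y) : finrank k ↥(x.S ⊔ y.S) = 2 := by
  obtain ⟨v, h0, hv⟩ := exists_vec y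
  have hvx : v ∉ x.S := fun h => hne (SGr.eq_of_le (by
    rw [hv]; exact (Submodule.span_singleton_le_iff_mem _ _).2 h)).symm
  rw [hv, finrank_sup_span hvx, x.dim]

theorem inc_unique {x y : SGr σ J 1} {l m : SGr σ J 2} (hne : x ≠ y) (h1 : Inc x l)
    (h2 : Inc y l) (h3 : Inc x m) (h4 : Inc y m) : l = m := by
  refine SGr.ext ?_
  rw [← Submodule.eq_of_le_of_finrank_eq (sup_le h1 h2) ((sup_dim hne).trans l.dim.symm),
    ← Submodule.eq_of_le_of_finrank_eq (sup_le h3 h4) ((sup_dim hne).trans m.dim.symm)]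

theorem line_eq {x y : SGr σ J 1} {l : SGr σ J 2} (hne : x ≠ y) (h1 : Inc x l)
    (h2 : Inc y l) : l.S = x.S ⊔ y.S :=
  (Submodule.eq_of_le_of_finrank_eq (sup_le h1 h2) ((sup_dim hne).trans l.dim.symm)).symm

/-- the line of two collinear points -/
theorem exists_line (hF : Fm σ ε J) {x y : SGr σ J 1} (hne : x ≠ y) (h : Col x y) :
    ∃ l : SGr σ J 2, Inc x l ∧ Inc y l := by
  refine ⟨SGr.mk' (x.S ⊔ y.S) ?_ (sup_dim hne), le_sup_left, le_sup_right⟩
  unfold Sing
  rw [ort_sup_left, ort_sup_right, ort_sup_right]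
  exact ⟨⟨x.sing, h⟩, col_symm hF h, y.sing⟩

section two

variable (hF : Wf σ ε J 2)

include hF

/-- a point collinear with two points of a line is on the line -/
theorem inc_of_col {x y z : SGr σ J 1} {l : SGr σ J 2} (hne : x ≠ y) (h1 : Inc x l)
    (h2 : Inc y l) (h3 : Col z x) (h4 : Col z y) : Inc z l := by
  by_contra hc
  obtain ⟨v, h0, hv, rfl⟩ := exists_ptv z
  rw [inc_ptv] at hc
  have hvl : ∀ a ∈ l.S, hf σ J a v = 0 := by
    intro a ha
    rw [line_eq hne h1 h2] at ha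
    obtain ⟨b, hb, c, hc', rfl⟩ := Submodule.mem_sup.1 ha
    have e1 := h3 v (Submodule.mem_span_singleton_self v) b hb
    have e2 := h4 v (Submodule.mem_span_singleton_self v) c hc'
    rw [hf_add_left, hF.fm.symm0 e1, hF.fm.symm0 e2, add_zero]
  have h5 := hF.wi.2 _ (sing_sup_span hF.fo l.sing hv hvl)
  rw [finrank_sup_span hc, l.dim] at h5
  omega

omit hF in
/-- two points on a line -/
theorem exists_two_pt (l : SGr σ J 2) : ∃ x y : SGr σ J 1, x ≠ y ∧ Inc x l ∧ Inc y l := by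
  obtain ⟨b⟩ : Nonempty (Basis (Fin 2) k l.S) := ⟨finBasisOfFinrankEq k l.S l.dim⟩
  have h0 : ∀ i, (b i).1 ≠ 0 := fun i h => b.ne_zero i (Subtype.ext h)
  have hh : ∀ i, hf σ J (b i).1 (b i).1 = 0 := fun i => l.sing _ (b i).2 _ (b i).2
  refine ⟨ptv _ (h0 0) (hh 0), ptv _ (h0 1) (hh 1), fun h => ?_, (inc_ptv _ _).2 (b 0).2,
    (inc_ptv _ _).2 (b 1).2⟩
  rw [ptv_eq, Submodule.mem_span_singleton] at h
  obtain ⟨a, ha⟩ := h
  have h2 := Fintype.linearIndependent_iff.1 b.linearIndependent ![1, -a] (by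
    rw [Fin.sum_univ_two]
    apply Subtype.ext
    change (1 : k) • (b 0).1 + (-a) • (b 1).1 = 0
    rw [one_smul, neg_smul, ha, add_neg_cancel]) 0
  exact one_ne_zero h2

/-- the foot of a point on a line -/
theorem exists_foot (x : SGr σ J 1) (l : SGr σ J 2) : ∃ y : SGr σ J 1, Inc y l ∧ Col x y := by
  obtain ⟨v, h0, hv, rfl⟩ := exists_ptv x
  obtain ⟨y, z, hyz, hy, hz⟩ := exists_two_pt l
  obtain ⟨a, ha0, ha, rfl⟩ := exists_ptv y
  obtain ⟨b, hb0, hb, rfl⟩ := exists_ptv z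
  rw [inc_ptv] at hy hz
  by_cases h1 : hf σ J v a = 0
  · exact ⟨_, (inc_ptv ha0 ha).2 hy, (col_ptv _ _ _ _).2 h1⟩
  · set c : n → k := b - σ (hf σ J v b / hf σ J v a) • a with hc
    have hvc : hf σ J v c = 0 := by
      rw [hc, hf_sub_right, hf_smul_right, hF.fm.inv, div_mul_cancel₀ _ h1, sub_self]
    have hcl : c ∈ l.S := l.S.sub_mem hz (l.S.smul_mem _ hy)
    have hc0 : c ≠ 0 := by
      intro h
      apply hyz
      symm
      rw [ptv_eq, Submodule.mem_span_singleton]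
      exact ⟨_, (sub_eq_zero.1 h).symm⟩
    exact ⟨ptv c hc0 (l.sing c hcl c hcl), (inc_ptv _ _).2 hcl, (col_ptv _ _ _ _).2 hvc⟩

theorem foot_unique {x y z : SGr σ J 1} {l : SGr σ J 2} (hx : ¬ Inc x l) (hy : Inc y l)
    (hz : Inc z l) (h1 : Col x y) (h2 : Col x z) : y = z := by
  by_contra hne
  exact hx (inc_of_col hF hne hy hz h1 h2)

/-- two lines through a point -/
theorem exists_two_ln (x : SGr σ J 1) : ∃ l m : SGr σ J 2, l ≠ m ∧ Inc x l ∧ Inc x m := by
  obtain ⟨Y, hY, hYd⟩ := hF.wi.1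
  obtain ⟨l, hl⟩ := exists_inc_ge hF.fo (le_refl 1 |>.trans one_le_two : 1 ≤ 2) le_rfl x
    (SGr.mk' Y hY hYd)
  obtain ⟨y, z, hyz, hy, hz⟩ := exists_two_pt l
  obtain ⟨p, hpx, hp⟩ : ∃ p : SGr σ J 1, p ≠ x ∧ Inc p l := by
    by_cases h : y = x
    · exact ⟨z, fun h' => hyz (h.trans h'.symm), hz⟩
    · exact ⟨y, h, hy⟩
  obtain ⟨v, h0, hv, rfl⟩ := exists_ptv x
  obtain ⟨a, ha0, ha, rfl⟩ := exists_ptv p
  have hva : hf σ J v a = 0 := (col_ptv _ _ _ _).1 (col_of_inc hl hp)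
  obtain ⟨q, hq, haq, hvq⟩ := hF.fm.partner (Y := Submodule.span k {v}) ha
    (fun h => hpx ((ptv_eq _ _ _ _).2 h)) (by
      intro y hy
      obtain ⟨c, rfl⟩ := Submodule.mem_span_singleton.1 hy
      rw [hf_smul_left, hva, mul_zero])
  have hvq' : hf σ J v q = 0 := hvq v (Submodule.mem_span_singleton_self v)
  have hq0 : q ≠ 0 := by
    rintro rfl
    rw [hf_zero_right] at haq
    exact zero_ne_one haq
  have hne : ptv v h0 hv ≠ ptv q hq0 hq := by
    intro h
    rw [ptv_eq, Submodule.mem_span_singleton] at h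
    obtain ⟨c, hc⟩ := h
    have hc0 : c ≠ 0 := by
      rintro rfl
      rw [zero_smul] at hc
      exact h0 hc.symm
    rw [← hc, hf_smul_left, mul_eq_zero] at hva
    have := hF.fm.symm0 (hva.resolve_left hc0)
    rw [this] at haq
    exact zero_ne_one haq
  obtain ⟨m, hm1, hm2⟩ := exists_line hF.fm hne ((col_ptv _ _ _ _).2 hvq')
  refine ⟨l, m, ?_, hl, hm1⟩
  rintro rfl
  have := (col_ptv _ _ _ _).1 (col_of_inc hp hm2)
  rw [this] at haq
  exact zero_ne_one haq

/-- collinearity = on a common line -/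
theorem col_iff {x y : SGr σ J 1} : Col x y ↔ ∃ l : SGr σ J 2, Inc x l ∧ Inc y l := by
  constructor
  · intro h
    by_cases hne : x = y
    · subst hne
      obtain ⟨l, -, -, hl, -⟩ := exists_two_ln hF x
      exact ⟨l, hl, hl⟩
    · exact exists_line hF.fm hne h
  · rintro ⟨l, h1, h2⟩
    exact col_of_inc h1 h2

/-- no triangles -/
theorem no_tri (x x' z : SGr σ J 1) (l m m' : SGr σ J 2) (h : ¬ Inc z l) (h1 : Inc x m)
    (h2 : Inc z m) (h3 : Inc x' m') (h4 : Inc z m') (h5 : Inc x l) (h6 : Inc x' l) : x = x' :=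
  foot_unique hF h h5 h6 (col_of_inc h2 h1) (col_of_inc h4 h3)

theorem exists_foot_line (x : SGr σ J 1) (l : SGr σ J 2) :
    ∃ (y : SGr σ J 1) (m : SGr σ J 2), Inc x m ∧ Inc y m ∧ Inc y l := by
  obtain ⟨y, hy, hxy⟩ := exists_foot hF x l
  obtain ⟨m, h1, h2⟩ := (col_iff hF).1 hxy
  exact ⟨y, m, h1, h2, hy⟩

/-! ### Opposite points and lines -/

theorem opp_pt {x y : SGr σ J 1} (h : ¬ Col x y) : Opp σ J x.S y.S := by
  obtain ⟨v, h0, hv, rfl⟩ := exists_ptv x
  obtain ⟨w, h0', hw, rfl⟩ := exists_ptv y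
  rw [col_ptv] at h
  have h' := Fm.symm_ne0 hF.fm h
  constructor
  · intro y hy hx
    obtain ⟨a, rfl⟩ := Submodule.mem_span_singleton.1 hy
    have := hx v (Submodule.mem_span_singleton_self v)
    rw [hf_smul_right, mul_eq_zero, map_eq_zero] at this
    rw [this.resolve_right h, zero_smul]
  · intro y hy hx
    obtain ⟨a, rfl⟩ := Submodule.mem_span_singleton.1 hy
    have := hx w (Submodule.mem_span_singleton_self w)
    rw [hf_smul_right, mul_eq_zero, map_eq_zero] at this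
    rw [this.resolve_right h', zero_smul]

/-- opposite lines -/
def OppL (l m : SGr σ J 2) : Prop := ∀ x : SGr σ J 1, Inc x l → ¬ Inc x m

omit hF in
theorem OppL.symm {l m : SGr σ J 2} (h : OppL l m) : OppL m l := fun x h1 h2 => h x h2 h1

theorem OppL.one {l m : SGr σ J 2} (h : OppL l m) :
    ∀ y ∈ m.S, (∀ x ∈ l.S, hf σ J x y = 0) → y = 0 := by
  intro y hy hx
  by_contra h0
  have hyy := m.sing y hy y hy
  have hyl : y ∉ l.S := fun hl => h (ptv y h0 hyy) ((inc_ptv _ _).2 hl) ((inc_ptv _ _).2 hy)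
  have h5 := hF.wi.2 _ (sing_sup_span hF.fo l.sing hyy hx)
  rw [finrank_sup_span hyl, l.dim] at h5
  omega

theorem OppL.opp {l m : SGr σ J 2} (h : OppL l m) : Opp σ J l.S m.S :=
  ⟨OppL.one hF h, OppL.one hF h.symm⟩

/-- transitivity on opposite points -/
theorem trans_opp_pt {x y x' y' : SGr σ J 1} (h : ¬ Col x y) (h' : ¬ Col x' y') :
    ∃ g : FormGroup σ J, g.1 ∈ EU σ ε J ∧ g • x = x' ∧ g • y = y' := by
  obtain ⟨g, hg, h1, h2⟩ := trans_opp hF.fo x'.sing y'.sing x.sing y.sing (opp_pt hF h')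
    (opp_pt hF h) (x'.dim.trans x.dim.symm) (x'.dim.trans y'.dim.symm) (x.dim.trans y.dim.symm)
  refine ⟨⟨g, EU_le hF.fm hg⟩, hg, SGr.ext ?_, SGr.ext ?_⟩
  · rw [smul_S, ← h1, act_inv_act]
  · rw [smul_S, ← h2, act_inv_act]

/-- transitivity on opposite lines -/
theorem trans_opp_ln {x y x' y' : SGr σ J 2} (h : OppL x y) (h' : OppL x' y') :
    ∃ g : FormGroup σ J, g.1 ∈ EU σ ε J ∧ g • x = x' ∧ g • y = y' := by
  obtain ⟨g, hg, h1, h2⟩ := trans_opp hF.fo x'.sing y'.sing x.sing y.sing (OppL.opp hF h')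
    (OppL.opp hF h) (x'.dim.trans x.dim.symm) (x'.dim.trans y'.dim.symm) (x.dim.trans y.dim.symm)
  refine ⟨⟨g, EU_le hF.fm hg⟩, hg, SGr.ext ?_, SGr.ext ?_⟩
  · rw [smul_S, ← h1, act_inv_act]
  · rw [smul_S, ← h2, act_inv_act]

omit hF in
/-- every point has an opposite one -/
theorem exists_opp_pt (hF : Fm σ ε J) (x : SGr σ J 1) : ∃ y : SGr σ J 1, ¬ Col x y := by
  obtain ⟨v, h0, hv, rfl⟩ := exists_ptv x
  obtain ⟨q, hq, hvq, -⟩ := hF.partner (Y := ⊥) hv (fun h => h0 ((Submodule.mem_bot k).1 h))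
    (fun y hy => by rw [(Submodule.mem_bot k).1 hy, hf_zero_left])
  have hq0 : q ≠ 0 := by
    rintro rfl
    rw [hf_zero_right] at hvq
    exact zero_ne_one hvq
  refine ⟨ptv q hq0 hq, fun h => ?_⟩
  rw [col_ptv] at h
  rw [h] at hvq
  exact zero_ne_one hvq

end two

end Vale.Agent.P092.H370.Fo
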