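import Vale.Agent.P092.H370.Po4
import Vale.Agent.P092.H100.Gr2
import Vale.Agent.P092.RC.Cc

/-!
P092 (helper370), TEAM P, stage 1: letters for `Sp_4(k)`.

`J4` pairs `e_0` with `e_3` and `e_1` with `e_2`; `S4 k = Sp_4(k) ≤ SL_4(k)` (= `FormGroup`);
`om` the symplectic form (COLUMNS: `om (g *ᵥ x) (g *ᵥ y) = om x y`); points = `YY k 3`, lines =
`LL k` (totally isotropic planes of `k⁴`); walls `b1`, `b2`; root elements `lg, lg', sh, sh'`.
-/

set_option linter.all false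

open Matrix Module Set Topology TopologicalSpace
open scoped LinearAlgebra.Projectivization

namespace Vale.Agent.P092.SP4

open Vale.Agent.P092.H303 (FormGroup)
open Vale.Agent.P092.H714.Cl (hf Frm mem_formGroup GT GT_le)
open Vale.Agent.P092.H100.Gr (Gr)
open Vale.Agent.P092.H370.Po (Ort Sing)
open Vale.Agent.P092.RC (GG YY y0 ct)
open Vale.Agent.P092.H644.Gr3 (p1)

section alg

variable (k : Type) [Field k]

/-- `e_0`–`e_3`, `e_1`–`e_2` -/
def J4 : Matrix (Fin 4) (Fin 4) k :=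
  !![0, 0, 0, 1; 0, 0, 1, 0; 0, -1, 0, 0; -1, 0, 0, 0]

/-- `Sp_4(k)` -/
abbrev S4 : Subgroup (SpecialLinearGroup (Fin 4) k) := FormGroup (RingHom.id k) (J4 k)

variable {k}

/-- the symplectic form -/
def om (x y : Fin 4 → k) : k := x ⬝ᵥ (J4 k *ᵥ y)

theorem om_eq (x y : Fin 4 → k) : om x y = x 0 * y 3 + x 1 * y 2 - x 2 * y 1 - x 3 * y 0 := by
  unfold om J4
  simp [Matrix.mulVec, dotProduct, Fin.sum_univ_four]
  ring

theorem om_self (x : Fin 4 → k) : om x x = 0 := by rw [om_eq]; ring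

theorem om_swap (x y : Fin 4 → k) : om y x = -om x y := by rw [om_eq, om_eq]; ring

theorem om_add_left (x x' y : Fin 4 → k) : om (x + x') y = om x y + om x' y := by
  simp only [om_eq, Pi.add_apply]; ring

theorem om_add_right (x y y' : Fin 4 → k) : om x (y + y') = om x y + om x y' := by
  simp only [om_eq, Pi.add_apply]; ring

theorem om_smul_left (a : k) (x y : Fin 4 → k) : om (a • x) y = a * om x y := by
  simp only [om_eq, Pi.smul_apply, smul_eq_mul]; ring

theorem om_smul_right (a : k) (x y : Fin 4 → k) : om x (a • y) = a * om x y := by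
  simp only [om_eq, Pi.smul_apply, smul_eq_mul]; ring

theorem om_zero_left (y : Fin 4 → k) : om 0 y = 0 := by simp [om_eq]

theorem om_zero_right (x : Fin 4 → k) : om x 0 = 0 := by simp [om_eq]

theorem hf_eq (x y : Fin 4 → k) : hf (RingHom.id k) (J4 k) x y = om x y := rfl

theorem J4_sq : J4 k * J4 k = -1 := by
  ext i j
  fin_cases i <;> fin_cases j <;> simp [J4, Matrix.mul_apply, Fin.sum_univ_four]

theorem J4_tr : (J4 k)ᵀ = -J4 k := by
  ext i j
  fin_cases i <;> fin_cases j <;> simp [J4]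

theorem mem_S4 {g : SpecialLinearGroup (Fin 4) k} : g ∈ S4 k ↔ g.1 * J4 k * g.1ᵀ = J4 k := by
  change g.1 * J4 k * (g.1.map (RingHom.id k))ᵀ = J4 k ↔ _
  have e : g.1.map (RingHom.id k) = g.1 := by ext i j; rfl
  rw [e]

theorem mem_S4' {g : SpecialLinearGroup (Fin 4) k} : g ∈ S4 k ↔ g.1ᵀ * J4 k * g.1 = J4 k := by
  rw [mem_S4]
  constructor
  · intro h
    have h1 : g.1 * (-(J4 k * g.1ᵀ * J4 k)) = 1 := by
      calc g.1 * (-(J4 k * g.1ᵀ * J4 k)) = -((g.1 * J4 k * g.1ᵀ) * J4 k) := by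
            simp only [Matrix.mul_neg, Matrix.mul_assoc]
        _ = 1 := by rw [h, J4_sq, neg_neg]
    have h2 : -(J4 k * g.1ᵀ * J4 k) * g.1 = 1 := mul_eq_one_comm.1 h1
    calc g.1ᵀ * J4 k * g.1 = -(J4 k * J4 k) * (g.1ᵀ * J4 k * g.1) := by
          rw [J4_sq, neg_neg, Matrix.one_mul]
      _ = J4 k * (-(J4 k * g.1ᵀ * J4 k) * g.1) := by
          simp only [Matrix.neg_mul, Matrix.mul_neg, Matrix.mul_assoc]
      _ = J4 k := by rw [h2, Matrix.mul_one]
  · intro h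
    have h1 : (-(J4 k * g.1ᵀ * J4 k)) * g.1 = 1 := by
      calc (-(J4 k * g.1ᵀ * J4 k)) * g.1 = -(J4 k * (g.1ᵀ * J4 k * g.1)) := by
            simp only [Matrix.neg_mul, Matrix.mul_assoc]
        _ = 1 := by rw [h, J4_sq, neg_neg]
    have h2 : g.1 * -(J4 k * g.1ᵀ * J4 k) = 1 := mul_eq_one_comm.1 h1
    calc g.1 * J4 k * g.1ᵀ = (g.1 * J4 k * g.1ᵀ) * -(J4 k * J4 k) := by
          rw [J4_sq, neg_neg, Matrix.mul_one]
      _ = (g.1 * -(J4 k * g.1ᵀ * J4 k)) * J4 k := by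
          simp only [Matrix.neg_mul, Matrix.mul_neg, Matrix.mul_assoc]
      _ = J4 k := by rw [h2, Matrix.one_mul]

theorem om_mulVec {g : SpecialLinearGroup (Fin 4) k} (hg : g ∈ S4 k) (x y : Fin 4 → k) :
    om (g.1 *ᵥ x) (g.1 *ᵥ y) = om x y := by
  unfold om
  have h := mem_S4'.1 hg
  calc (g.1 *ᵥ x) ⬝ᵥ (J4 k *ᵥ (g.1 *ᵥ y)) = x ⬝ᵥ ((g.1ᵀ * J4 k * g.1) *ᵥ y) := by
        rw [← Matrix.vecMul_transpose, ← Matrix.dotProduct_mulVec, Matrix.mulVec_mulVec,
          Matrix.mulVec_mulVec, Matrix.mul_assoc]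
    _ = _ := by rw [h]

theorem om_smul {g : SpecialLinearGroup (Fin 4) k} (hg : g ∈ S4 k) (x y : Fin 4 → k) :
    om (g • x) (g • y) = om x y := om_mulVec hg x y

theorem om_nondeg {x : Fin 4 → k} (hx : x ≠ 0) : ∃ y, om x y ≠ 0 := by
  by_contra hc
  push Not at hc
  apply hx
  funext i
  have h0 := hc (Pi.single 0 1)
  have h1 := hc (Pi.single 1 1)
  have h2 := hc (Pi.single 2 1)
  have h3 := hc (Pi.single 3 1)
  rw [om_eq] at h0 h1 h2 h3
  simp at h0 h1 h2 h3
  fin_cases i <;> simp [*]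

theorem frm4 : Frm (RingHom.id k) (-1) (J4 k) where
  inv _ := rfl
  eps := by ring
  seps := rfl
  herm x y := by
    rw [hf_eq, hf_eq, om_swap]
    change _ = -1 * om x y
    ring
  nondeg x hx := om_nondeg hx
  tv y := ⟨0, by rw [hf_eq, om_self]; simp⟩
  iso := ⟨Pi.single 0 1, by simp, by rw [hf_eq, om_self]⟩
  cc := ⟨1, one_ne_zero, by simp⟩

/-- the transpose -/
def tps (g : SpecialLinearGroup (Fin 4) k) : SpecialLinearGroup (Fin 4) k :=
  ⟨g.1ᵀ, by rw [det_transpose]; exact g.2⟩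

theorem tps_mem {g : SpecialLinearGroup (Fin 4) k} (hg : g ∈ S4 k) : tps g ∈ S4 k := by
  rw [mem_S4]
  change g.1ᵀ * J4 k * g.1ᵀᵀ = J4 k
  rw [transpose_transpose]
  exact mem_S4'.1 hg

theorem tps_smul (g : SpecialLinearGroup (Fin 4) k) (x : Fin 4 → k) :
    tps g • x = x ᵥ* g.1 := by
  change g.1ᵀ *ᵥ x = _
  exact Matrix.mulVec_transpose g.1 x

/-- `J4` as an element of `SL_4` -/
def j4 : SpecialLinearGroup (Fin 4) k :=
  ⟨J4 k, by
    simp [J4, Matrix.det_succ_row_zero, Fin.sum_univ_succ,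
      show Fin.succAbove (3 : Fin 4) (2 : Fin 3) = 2 from rfl]
    ring⟩

theorem inv_val {g : SpecialLinearGroup (Fin 4) k} (hg : g ∈ S4 k) :
    (g⁻¹).1 = -(J4 k * g.1ᵀ * J4 k) := by
  have h1 : g.1 * (-(J4 k * g.1ᵀ * J4 k)) = 1 := by
    calc g.1 * (-(J4 k * g.1ᵀ * J4 k)) = -((g.1 * J4 k * g.1ᵀ) * J4 k) := by
          simp only [Matrix.mul_neg, Matrix.mul_assoc]
      _ = 1 := by rw [mem_S4.1 hg, J4_sq, neg_neg]
  have h2 : (g⁻¹).1 * g.1 = 1 := congrArg Subtype.val (inv_mul_cancel g)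
  calc (g⁻¹).1 = (g⁻¹).1 * (g.1 * (-(J4 k * g.1ᵀ * J4 k))) := by rw [h1, Matrix.mul_one]
    _ = _ := by rw [← Matrix.mul_assoc, h2, Matrix.one_mul]

/-! ### walls and root elements -/

/-- an upper unitriangular (or any) matrix with an explicit determinant proof -/
def b1 (w : kˣ) : SpecialLinearGroup (Fin 4) k :=
  ⟨Matrix.diagonal ![((w⁻¹ : kˣ) : k), 1, 1, (w : k)], by
    rw [det_diagonal]; simp [Fin.prod_univ_four]⟩

def b2 (w : kˣ) : SpecialLinearGroup (Fin 4) k :=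
  ⟨Matrix.diagonal ![((w⁻¹ : kˣ) : k), ((w⁻¹ : kˣ) : k), (w : k), (w : k)], by
    rw [det_diagonal]
    have h : ((w⁻¹ : kˣ) : k) * (w : k) = 1 := by rw [← Units.val_mul]; simp
    simp [Fin.prod_univ_four]⟩

theorem b1_mem (w : kˣ) : b1 w ∈ S4 k := by
  rw [mem_S4]
  ext i j
  fin_cases i <;> fin_cases j <;>
    simp [b1, J4, Matrix.mul_apply, Fin.sum_univ_four, Matrix.diagonal]

theorem b2_mem (w : kˣ) : b2 w ∈ S4 k := by
  rw [mem_S4]
  ext i j
  fin_cases i <;> fin_cases j <;>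
    simp [b2, J4, Matrix.mul_apply, Fin.sum_univ_four, Matrix.diagonal]

/-- long root, `1 + s E_03` -/
def lg (s : k) : SpecialLinearGroup (Fin 4) k :=
  ⟨!![1, 0, 0, s; 0, 1, 0, 0; 0, 0, 1, 0; 0, 0, 0, 1], by
    simp [Matrix.det_succ_row_zero, Fin.sum_univ_succ]⟩

/-- long root, `1 + s E_12` -/
def lg' (s : k) : SpecialLinearGroup (Fin 4) k :=
  ⟨!![1, 0, 0, 0; 0, 1, s, 0; 0, 0, 1, 0; 0, 0, 0, 1], by
    simp [Matrix.det_succ_row_zero, Fin.sum_univ_succ]⟩

/-- short root, `1 + s (E_01 - E_23)` -/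
def sh (s : k) : SpecialLinearGroup (Fin 4) k :=
  ⟨!![1, s, 0, 0; 0, 1, 0, 0; 0, 0, 1, -s; 0, 0, 0, 1], by
    simp [Matrix.det_succ_row_zero, Fin.sum_univ_succ]⟩

/-- short root, `1 + s (E_02 + E_13)` -/
def sh' (s : k) : SpecialLinearGroup (Fin 4) k :=
  ⟨!![1, 0, s, 0; 0, 1, 0, s; 0, 0, 1, 0; 0, 0, 0, 1], by
    simp [Matrix.det_succ_row_zero, Fin.sum_univ_succ]⟩

theorem lg_mem (s : k) : lg s ∈ S4 k := by
  rw [mem_S4]
  ext i j
  fin_cases i <;> fin_cases j <;> simp [lg, J4, Matrix.mul_apply, Fin.sum_univ_four]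

theorem lg'_mem (s : k) : lg' s ∈ S4 k := by
  rw [mem_S4]
  ext i j
  fin_cases i <;> fin_cases j <;> simp [lg', J4, Matrix.mul_apply, Fin.sum_univ_four]

theorem sh_mem (s : k) : sh s ∈ S4 k := by
  rw [mem_S4]
  ext i j
  fin_cases i <;> fin_cases j <;> simp [sh, J4, Matrix.mul_apply, Fin.sum_univ_four]

theorem sh'_mem (s : k) : sh' s ∈ S4 k := by
  rw [mem_S4]
  ext i j
  fin_cases i <;> fin_cases j <;> simp [sh', J4, Matrix.mul_apply, Fin.sum_univ_four]

end alg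

section geo

variable {k : Type} [NontriviallyNormedField k]

/-- totally isotropic lines -/
def LL (k : Type) [NontriviallyNormedField k] : Type :=
  {l : Gr k (Fin 4) 2 // ∀ x ∈ l.1, ∀ y ∈ l.1, om x y = 0}

/-- incidence -/
def on (x : YY k 3) (l : LL k) : Prop := (p1 x).1 ≤ l.1.1

/-- orthogonality (collinearity) of points -/
def prp (x y : YY k 3) : Prop := om x.rep y.rep = 0

theorem on_iff {x : YY k 3} {l : LL k} : on x l ↔ x.rep ∈ l.1.1 := H644.Gr3.mem_p1

theorem on_mk {v : Fin 4 → k} (hv : v ≠ 0) {l : LL k} :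
    on (Projectivization.mk k v hv) l ↔ v ∈ l.1.1 := H644.Gr3.p1_le_mk

theorem prp_mk {v w : Fin 4 → k} (hv : v ≠ 0) (hw : w ≠ 0) :
    prp (Projectivization.mk k v hv) (Projectivization.mk k w hw) ↔ om v w = 0 := by
  obtain ⟨a, ha⟩ := Projectivization.exists_smul_eq_mk_rep k v hv
  obtain ⟨b, hb⟩ := Projectivization.exists_smul_eq_mk_rep k w hw
  unfold prp
  rw [← ha, ← hb]
  change om ((a : k) • v) ((b : k) • w) = 0 ↔ _
  rw [om_smul_left, om_smul_right]
  simp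

theorem prp_symm {x y : YY k 3} (h : prp x y) : prp y x := by
  unfold prp at *
  rw [om_swap, h, neg_zero]

theorem prp_refl (x : YY k 3) : prp x x := om_self _

theorem prp_of_on {x y : YY k 3} {l : LL k} (hx : on x l) (hy : on y l) : prp x y :=
  l.2 _ (on_iff.1 hx) _ (on_iff.1 hy)

/-- `S4` acts on the lines -/
instance : MulAction (S4 k) (LL k) where
  smul g l := ⟨g.1 • l.1, by
    rintro _ ⟨x, hx, rfl⟩ _ ⟨y, hy, rfl⟩
    change om (g.1 • x) (g.1 • y) = 0
    rw [om_smul g.2]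
    exact l.2 x hx y hy⟩
  one_smul l := Subtype.ext (one_smul _ l.1)
  mul_smul g h l := Subtype.ext (mul_smul g.1 h.1 l.1)

theorem smul_LL (g : S4 k) (l : LL k) : (g • l).1 = g.1 • l.1 := rfl

theorem p1_smul' (g : SpecialLinearGroup (Fin 4) k) (x : YY k 3) : p1 (g • x) = g • p1 x :=
  Subtype.ext ((H644.Gr3.p1_smul g x).trans rfl)

theorem smul_YY (g : S4 k) (x : YY k 3) : g • x = g.1 • x := rfl

theorem on_smul (g : S4 k) {x : YY k 3} {l : LL k} : on (g • x) (g • l) ↔ on x l := by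
  unfold on
  rw [smul_LL, smul_YY, p1_smul']
  exact H100.Gr.smul_le

theorem prp_smul (g : S4 k) {x y : YY k 3} : prp (g • x) (g • y) ↔ prp x y := by
  induction x using Projectivization.ind with
  | h v hv =>
    induction y using Projectivization.ind with
    | h w hw =>
      rw [smul_YY, smul_YY, Projectivization.smul_mk, Projectivization.smul_mk, prp_mk, prp_mk,
        om_smul g.2]

end geo

section topo

variable {k : Type} [NontriviallyNormedField k]

instance : TopologicalSpace (LL k) :=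
  inferInstanceAs (TopologicalSpace {l : Gr k (Fin 4) 2 // ∀ x ∈ l.1, ∀ y ∈ l.1, om x y = 0})

instance : T2Space (LL k) :=
  inferInstanceAs (T2Space {l : Gr k (Fin 4) 2 // ∀ x ∈ l.1, ∀ y ∈ l.1, om x y = 0})

theorem LL_closed : IsClosed {l : Gr k (Fin 4) 2 | ∀ x ∈ l.1, ∀ y ∈ l.1, om x y = 0} :=
  H370.Po.singG_closed (σ := RingHom.id k) (J := J4 k) continuous_id

theorem val_cont : Continuous (fun l : LL k => (l.1 : Gr k (Fin 4) 2)) :=
  continuous_subtype_val (p := fun l : Gr k (Fin 4) 2 => ∀ x ∈ l.1, ∀ y ∈ l.1, om x y = 0)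

instance : ContinuousSMul (S4 k) (LL k) where
  continuous_smul := by
    refine Continuous.subtype_mk ?_ _
    exact (continuous_subtype_val.comp continuous_fst).smul (val_cont.comp continuous_snd)

theorem on_closed : IsClosed {p : YY k 3 × LL k | on p.1 p.2} :=
  H644.Gr3.p1_le_closed.preimage (continuous_fst.prodMk (val_cont.comp continuous_snd))

variable [ProperSpace k]

instance : CompactSpace (LL k) := isCompact_iff_compactSpace.1 (LL_closed (k := k)).isCompact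

instance : SecondCountableTopology (LL k) :=
  TopologicalSpace.Subtype.secondCountableTopology
    {l : Gr k (Fin 4) 2 | ∀ x ∈ l.1, ∀ y ∈ l.1, om x y = 0}

instance : MetrizableSpace (LL k) :=
  (IsEmbedding.subtypeVal
    (p := fun l : Gr k (Fin 4) 2 => ∀ x ∈ l.1, ∀ y ∈ l.1, om x y = 0)).metrizableSpace

end topo

end Vale.Agent.P092.SP4
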