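import Vale.Agent.P092.H370.Cg2
import Vale.Agent.P092.CL.Lt

/-!
P092, Team P, stages 2 and 3, block [CL-GEO] (helper370), part 3: walls, root groups, contraction,
unboundedness, in the letters of `CL/Lt`.
-/

set_option linter.all false

open Matrix Module Set Topology Filter

namespace Vale.Agent.P092.H370.Cg

open Vale.Agent.P092.H303 (FormGroup Idx hyp torF torF_mem dgF root2 hypAt_l hypAt_r)
open Vale.Agent.P092.H714.Cl
open Vale.Agent.P092.H714.Sg (Fm)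
open Vale.Agent.P092.H370.Po hiding trans_sing exists_extend exists_inc_ge exists_adj sing_sup_span
  trans_flags exists_prod con2 trans_SGr con exists_step exists_above trans_pair_col trans_flag
  exists_iso_prod ort_comm exists_closer
open Vale.Agent.P092.H370.Fo
open Vale.Agent.P092.H100.Gr (Gr Fr sp)
open Vale.Agent.P092.H631.P2 (iL iL_inj cf mem_cf)

/-- the matrix realisation of a subgroup of `SL` -/
def jF {n : Type} [Fintype n] [DecidableEq n] {k : Type} [Field k]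
    (G : Subgroup (SpecialLinearGroup n k)) : G →* Matrix n n k where
  toFun g := g.1.1
  map_one' := rfl
  map_mul' _ _ := rfl

theorem jF_ind {n : Type} [Fintype n] [DecidableEq n] {k : Type} [NontriviallyNormedField k]
    {G : Subgroup (SpecialLinearGroup n k)} : IsInducing (jF G) := by
  have h1 : IsInducing (fun g : SpecialLinearGroup n k => g.1) := ⟨rfl⟩
  exact h1.comp IsInducing.subtypeVal

section con

variable {n : Type} [Fintype n] [DecidableEq n] {k : Type} [NontriviallyNormedField k]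
  {G : Subgroup (SpecialLinearGroup n k)}

theorem pow_diag {b : G} {d : n → k} (hb : b.1.1 = diagonal d) (N : ℕ) :
    (b ^ N).1.1 = diagonal fun i => d i ^ N := by
  induction N with
  | zero =>
    rw [pow_zero]
    change (1 : Matrix n n k) = _
    rw [← diagonal_one]
    congr 1
    funext i
    rw [pow_zero]
  | succ N ih =>
    rw [pow_succ]
    change (b ^ N).1.1 * b.1.1 = _
    rw [ih, hb, diagonal_mul_diagonal]
    congr 1
    funext i
    rw [pow_succ]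

theorem inv_diag {b : G} {d : n → k} (hb : b.1.1 = diagonal d) (hd : ∀ i, d i ≠ 0) :
    (b⁻¹).1.1 = diagonal fun i => (d i)⁻¹ := by
  have h1 : (b⁻¹).1.1 * b.1.1 = 1 := congrArg (fun g : G => g.1.1) (inv_mul_cancel b)
  have h2 : diagonal d * diagonal (fun i => (d i)⁻¹) = 1 := by
    rw [diagonal_mul_diagonal, ← diagonal_one]
    congr 1
    funext i
    exact mul_inv_cancel₀ (hd i)
  calc (b⁻¹).1.1 = (b⁻¹).1.1 * (diagonal d * diagonal fun i => (d i)⁻¹) := by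
        rw [h2, Matrix.mul_one]
    _ = diagonal fun i => (d i)⁻¹ := by rw [← Matrix.mul_assoc, ← hb, h1, Matrix.one_mul]

theorem conj_entry {b g : G} {d : n → k} (hb : b.1.1 = diagonal d) (hd : ∀ i, d i ≠ 0) (N : ℕ)
    (i j : n) : ((b ^ N)⁻¹ * g * b ^ N).1.1 i j = (d i ^ N)⁻¹ * g.1.1 i j * d j ^ N := by
  change ((b ^ N)⁻¹.1.1 * g.1.1 * (b ^ N).1.1) i j = _
  rw [inv_diag (pow_diag hb N) fun i => pow_ne_zero _ (hd i), pow_diag hb, mul_diagonal,
    diagonal_mul]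

/-- **contraction** of a unipotent element by a diagonal element -/
theorem con_diag {b g : G} {d : n → k} (hb : b.1.1 = diagonal d) (hd : ∀ i, d i ≠ 0)
    (h1 : ∀ i, g.1.1 i i = 1) (hg : ∀ i j, i ≠ j → g.1.1 i j ≠ 0 → ‖d j‖ < ‖d i‖) :
    Tendsto (fun N : ℕ => (b ^ N)⁻¹ * g * b ^ N) atTop (𝓝 1) := by
  rw [jF_ind.tendsto_nhds_iff]
  refine tendsto_pi_nhds.2 fun i => tendsto_pi_nhds.2 fun j => ?_
  have e : ∀ N : ℕ, (jF G ∘ fun N : ℕ => (b ^ N)⁻¹ * g * b ^ N) N i j =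
      (d j / d i) ^ N * g.1.1 i j := by
    intro N
    change ((b ^ N)⁻¹ * g * b ^ N).1.1 i j = _
    rw [conj_entry hb hd, div_pow]
    ring
  simp only [e]
  by_cases hij : i = j
  · subst hij
    rw [div_self (hd i), h1, map_one, Matrix.one_apply_eq]
    simp only [one_pow, mul_one]
    exact tendsto_const_nhds
  · rw [map_one, Matrix.one_apply_ne hij]
    by_cases h0 : g.1.1 i j = 0
    · rw [h0]
      simp only [mul_zero]
      exact tendsto_const_nhds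
    · have h2 : ‖d j / d i‖ < 1 := by
        rw [norm_div, div_lt_one (norm_pos_iff.2 (hd i))]
        exact hg i j hij h0
      have h3 := (tendsto_pow_atTop_nhds_zero_of_norm_lt_one h2).mul_const (g.1.1 i j)
      rwa [zero_mul] at h3

end con

/-! ### Root groups and walls -/

section elts

variable {k : Type} [NontriviallyNormedField k] {ι : Type} [Fintype ι] [DecidableEq ι]
  {s : ℕ} {σ : k →+* k} {ε : k} {J₀ : Matrix ι ι k} (hF : Frm σ ε (hyp (s + 2) ε J₀))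

theorem u1_apply (t : k) (x y : Idx (s + 2) ι) :
    (CL.u1 hF t).1.1 x y = (1 : Matrix (Idx (s + 2) ι) (Idx (s + 2) ι) k) x y +
      (t * Matrix.single (.inl (.inr 0)) (.inl (.inl 1)) (1 : k) x y +
        (-(ε * σ t)) * Matrix.single (.inl (.inr 1)) (.inl (.inl 0)) (1 : k) x y) := by
  have h : (CL.u1 hF t).1.1 = 1 + (t • Matrix.single (.inl (.inr 0)) (.inl (.inl 1)) (1 : k) +
      (-(ε * σ t)) • Matrix.single (.inl (.inr 1)) (.inl (.inl 0)) (1 : k)) := by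
    change transvection _ _ t * transvection _ _ (-(ε * σ t)) = _
    rw [transvection, transvection, Matrix.add_mul, Matrix.one_mul, Matrix.mul_add,
      Matrix.mul_one, single_mul_single_of_ne _ _ _ _ (by simp), Matrix.smul_single,
      Matrix.smul_single, smul_eq_mul, smul_eq_mul, mul_one, mul_one]
    abel
  rw [h]
  rfl

theorem u1_diag (t : k) (x : Idx (s + 2) ι) : (CL.u1 hF t).1.1 x x = 1 := by
  rw [u1_apply, Matrix.one_apply_eq, Matrix.single_apply, Matrix.single_apply, if_neg, if_neg,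
    mul_zero, mul_zero, add_zero, add_zero]
  · rintro ⟨h1, h2⟩
    simpa using h2.trans h1.symm
  · rintro ⟨h1, h2⟩
    simpa using h2.trans h1.symm

theorem u1_off (t : k) {x y : Idx (s + 2) ι} (hxy : x ≠ y) (h : (CL.u1 hF t).1.1 x y ≠ 0) :
    (x = .inl (.inr 0) ∧ y = .inl (.inl 1)) ∨ (x = .inl (.inr 1) ∧ y = .inl (.inl 0)) := by
  rw [u1_apply, Matrix.one_apply_ne hxy, Matrix.single_apply, Matrix.single_apply] at h
  by_contra hc
  push Not at hc
  apply h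
  rw [if_neg, if_neg, mul_zero, mul_zero, add_zero, add_zero]
  · rintro ⟨h1, h2⟩
    exact hc.2 h1.symm h2.symm
  · rintro ⟨h1, h2⟩
    exact hc.1 h1.symm h2.symm

theorem u1_see (t : k) : (CL.u1 hF t).1.1 (.inl (.inr 0)) (.inl (.inl 1)) = t := by
  rw [u1_apply, Matrix.one_apply_ne (by simp), Matrix.single_apply_same, Matrix.single_apply,
    if_neg (by simp), mul_zero, add_zero, mul_one, zero_add]

/-- `u1` fixes the coordinate spaces which do not see it -/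
theorem u1_cs {l : ℕ} (t : k) {A : Fin l → Idx (s + 2) ι} {hA : Function.Injective A}
    {h0 : ∀ a b, hyp (s + 2) ε J₀ (A a) (A b) = 0}
    (h1 : ∀ a, A a = .inl (.inr 0) → ∃ b, A b = .inl (.inl 1))
    (h2 : ∀ a, A a = .inl (.inr 1) → ∃ b, A b = .inl (.inl 0)) :
    CL.u1 hF t • cs σ (hyp (s + 2) ε J₀) A hA h0 = cs σ (hyp (s + 2) ε J₀) A hA h0 := by
  refine smul_cs fun a y hy => ?_
  by_contra hc
  rcases u1_off hF t (hy a) hc with ⟨e1, e2⟩ | ⟨e1, e2⟩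
  · obtain ⟨b, hb⟩ := h1 a e1
    exact hy b (hb.trans e2.symm)
  · obtain ⟨b, hb⟩ := h2 a e1
    exact hy b (hb.trans e2.symm)

/-- `u2` fixes the coordinate spaces which do not see it -/
theorem u2_cs {l : ℕ} (c : CL.V2 σ ε) {A : Fin l → Idx (s + 2) ι} {hA : Function.Injective A}
    {h0 : ∀ a b, hyp (s + 2) ε J₀ (A a) (A b) = 0} (h1 : ∀ a, A a ≠ .inl (.inr 1)) :
    CL.u2 hF c • cs σ (hyp (s + 2) ε J₀) A hA h0 = cs σ (hyp (s + 2) ε J₀) A hA h0 := by
  refine smul_eq_of_fix fun x hx => ?_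
  rw [mem_cs] at hx
  change x ᵥ* (tv σ (hyp (s + 2) ε J₀) (CL.ep k ι 1) c.1).1 = x
  rw [vecMul_tv (CL.hf_ep 1 1)]
  have e : hf σ (hyp (s + 2) ε J₀) x (CL.ep k ι 1) = 0 := by
    refine hf_supp fun a b ha hb => ?_
    have hb' : b = .inl (.inl 1) := by
      by_contra hne
      exact hb (Pi.single_eq_of_ne hne _)
    rw [hb', (hypAt_r (s + 2) ε J₀ 1).col, if_neg]
    intro h
    rw [h] at ha
    exact ha (hx _ h1)
  rw [e, mul_zero, zero_smul, add_zero]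

theorem b1_cs {w : k} (hw : w ≠ 0) (hσw : σ w = w) {l : ℕ}
    {A : Fin l → Idx (s + 2) ι} {hA : Function.Injective A}
    {h0 : ∀ a b, hyp (s + 2) ε J₀ (A a) (A b) = 0} :
    (CL.b1 hw hσw : FormGroup σ (hyp (s + 2) ε J₀)) • cs σ (hyp (s + 2) ε J₀) A hA h0 = cs σ (hyp (s + 2) ε J₀) A hA h0 :=
  smul_cs_diag (d := dgF (s + 2) ι w (Pi.single 0 1))
    (show (CL.b1 (ε := ε) (J₀ := J₀) hw hσw).1.1 = _ from rfl)

theorem b2_cs {w : k} (hw : w ≠ 0) (hσw : σ w = w) {l : ℕ}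
    {A : Fin l → Idx (s + 2) ι} {hA : Function.Injective A}
    {h0 : ∀ a b, hyp (s + 2) ε J₀ (A a) (A b) = 0} :
    (CL.b2 hw hσw : FormGroup σ (hyp (s + 2) ε J₀)) • cs σ (hyp (s + 2) ε J₀) A hA h0 = cs σ (hyp (s + 2) ε J₀) A hA h0 :=
  smul_cs_diag (d := dgF (s + 2) ι w fun _ => 1)
    (show (CL.b2 (ε := ε) (J₀ := J₀) hw hσw).1.1 = _ from rfl)

theorem dgF_ne {r : ℕ} {w : k} (hw : w ≠ 0) (m : Fin r → ℤ) (i : Idx r ι) :
    dgF r ι w m i ≠ 0 := by
  rcases i with (i | i) | i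
  · exact zpow_ne_zero _ hw
  · exact zpow_ne_zero _ hw
  · exact one_ne_zero

/-- the wall elements contract `u1` -/
theorem con_u1 {w : k} (hw : w ≠ 0) (hw1 : ‖w‖ < 1) {m : Fin (s + 2) → ℤ} (hm : 0 < m 0 + m 1)
    {b : FormGroup σ (hyp (s + 2) ε J₀)} (hb : b.1.1 = diagonal (dgF (s + 2) ι w m)) (t : k) :
    Tendsto (fun N : ℕ => (b ^ N)⁻¹ * CL.u1 hF t * b ^ N) atTop (𝓝 1) := by
  refine con_diag hb (dgF_ne hw m) (u1_diag hF t) fun x y hxy h => ?_
  have h0 : 0 < ‖w‖ := norm_pos_iff.2 hw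
  rcases u1_off hF t hxy h with ⟨rfl, rfl⟩ | ⟨rfl, rfl⟩
  · change ‖w ^ m 1‖ < ‖w ^ (-m 0)‖
    rw [norm_zpow, norm_zpow]
    exact zpow_right_strictAnti₀ h0 hw1 (by omega)
  · change ‖w ^ m 0‖ < ‖w ^ (-m 1)‖
    rw [norm_zpow, norm_zpow]
    exact zpow_right_strictAnti₀ h0 hw1 (by omega)

/-! ### The base objects of `CL/Lt` -/

theorem p0_eq : (CL.p0 : SGr σ (hyp (s + 2) ε J₀) 1) = bs σ ε J₀ (by omega : 1 ≤ s + 2) := by
  refine SGr.eq_of_le ?_
  change Submodule.span k (CL.ep k ι '' {0}) ≤ _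
  rw [image_singleton, Submodule.span_singleton_le_iff_mem]
  exact single_mem_cs (0 : Fin 1)

theorem m0_eq : (CL.m0 : SGr σ (hyp (s + 2) ε J₀) (s + 2)) = bs σ ε J₀ (le_refl (s + 2)) := by
  refine SGr.eq_of_le ?_
  change Submodule.span k (CL.ep k ι '' univ) ≤ _
  rw [Submodule.span_le]
  rintro _ ⟨i, -, rfl⟩
  exact single_mem_cs (A := iL ι (le_refl (s + 2))) i

theorem u1_cont (hσc : Continuous σ) : Continuous (CL.u1 hF) := by
  rw [jF_ind.continuous_iff]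
  refine continuous_matrix fun x y => ?_
  have e : (fun t => (jF _ ∘ CL.u1 hF) t x y) = fun t =>
      (1 : Matrix (Idx (s + 2) ι) (Idx (s + 2) ι) k) x y +
      (t * Matrix.single (.inl (.inr 0)) (.inl (.inl 1)) (1 : k) x y +
        (-(ε * σ t)) * Matrix.single (.inl (.inr 1)) (.inl (.inl 0)) (1 : k) x y) :=
    funext fun t => u1_apply hF t x y
  rw [e]
  fun_prop

theorem u1_zero : CL.u1 hF 0 = 1 := by
  refine Subtype.ext (Subtype.ext ?_)
  ext x y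
  change (CL.u1 hF 0).1.1 x y = (1 : Matrix (Idx (s + 2) ι) (Idx (s + 2) ι) k) x y
  rw [u1_apply, map_zero, mul_zero, neg_zero, zero_mul, zero_mul, add_zero, add_zero]

theorem u2_val (c : CL.V2 σ ε) : (CL.u2 hF c).1.1 =
    1 + vecMulVec (hyp (s + 2) ε J₀ *ᵥ fun i => σ (CL.ep k ι 1 i)) ((c : k) • CL.ep k ι 1) :=
  tv_val (CL.hf_ep 1 1) c.1

theorem u2_cont : Continuous (CL.u2 hF) := by
  rw [jF_ind.continuous_iff]
  refine continuous_matrix fun x y => ?_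
  have e : (fun c => (jF _ ∘ CL.u2 hF) c x y) = fun c : CL.V2 σ ε =>
      (1 : Matrix (Idx (s + 2) ι) (Idx (s + 2) ι) k) x y +
        (hyp (s + 2) ε J₀ *ᵥ fun i => σ (CL.ep k ι 1 i)) x * ((c : k) * CL.ep k ι 1 y) :=
    funext fun c => congrFun (congrFun (u2_val hF c) x) y
  rw [e]
  fun_prop

theorem u2_zero : CL.u2 hF 0 = 1 := Subtype.ext (tv_zero (CL.ep k ι 1))

theorem u1_p0 (t : k) : CL.u1 hF t • (CL.p0 : SGr σ (hyp (s + 2) ε J₀) 1) = CL.p0 := by
  rw [p0_eq]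
  exact u1_cs hF t (fun a ha => by simp [iL] at ha) fun a ha => by simp [iL] at ha

theorem u1_m0 (t : k) : CL.u1 hF t • (CL.m0 : SGr σ (hyp (s + 2) ε J₀) (s + 2)) = CL.m0 := by
  rw [m0_eq]
  exact u1_cs hF t (fun a ha => by simp [iL] at ha) fun a ha => by simp [iL] at ha

theorem u2_p0 (c : CL.V2 σ ε) :
    CL.u2 hF c • (CL.p0 : SGr σ (hyp (s + 2) ε J₀) 1) = CL.p0 := by
  rw [p0_eq]
  exact u2_cs hF c fun a ha => by simp [iL] at ha

theorem u2_m0 (c : CL.V2 σ ε) :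
    CL.u2 hF c • (CL.m0 : SGr σ (hyp (s + 2) ε J₀) (s + 2)) = CL.m0 := by
  rw [m0_eq]
  exact u2_cs hF c fun a ha => by simp [iL] at ha

theorem b1_p0 {w : k} (hw : w ≠ 0) (hσw : σ w = w) :
    (CL.b1 hw hσw : FormGroup σ (hyp (s + 2) ε J₀)) • (CL.p0 : SGr σ (hyp (s + 2) ε J₀) 1) =
      CL.p0 := by
  rw [p0_eq]
  exact b1_cs hw hσw

theorem b1_m0 {w : k} (hw : w ≠ 0) (hσw : σ w = w) :
    (CL.b1 hw hσw : FormGroup σ (hyp (s + 2) ε J₀)) • (CL.m0 : SGr σ (hyp (s + 2) ε J₀) (s + 2)) =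
      CL.m0 := by
  rw [m0_eq]
  exact b1_cs hw hσw

theorem b2_p0 {w : k} (hw : w ≠ 0) (hσw : σ w = w) :
    (CL.b2 hw hσw : FormGroup σ (hyp (s + 2) ε J₀)) • (CL.p0 : SGr σ (hyp (s + 2) ε J₀) 1) =
      CL.p0 := by
  rw [p0_eq]
  exact b2_cs hw hσw

theorem b2_m0 {w : k} (hw : w ≠ 0) (hσw : σ w = w) :
    (CL.b2 hw hσw : FormGroup σ (hyp (s + 2) ε J₀)) • (CL.m0 : SGr σ (hyp (s + 2) ε J₀) (s + 2)) =
      CL.m0 := by
  rw [m0_eq]
  exact b2_cs hw hσw

end elts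

/-! ### Unboundedness -/

section unb

variable {n : Type} [Fintype n] [DecidableEq n] {k : Type} [NontriviallyNormedField k]
  {G : Subgroup (SpecialLinearGroup n k)} {nm : G → ℝ}

/-- a family seen by a continuous function is unbounded -/
theorem unb_see (hc : ∀ C : ℝ, IsCompact {g : G | nm g ≤ C}) {F : G → k} (hF : Continuous F)
    {ψ : k → G} {c : k} (hψ : ∀ s, F (ψ s) = c + s) (C : ℝ) : ∃ s, C ≤ nm (ψ s) := by
  by_contra h
  push Not at h
  obtain ⟨B, hB⟩ := (hc C).exists_bound_of_continuousOn (f := F) hF.continuousOn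
  obtain ⟨s, hs⟩ := NormedField.exists_lt_norm k (B + ‖c‖)
  have h1 := hB (ψ s) (h s).le
  rw [hψ] at h1
  have h2 : ‖s‖ ≤ ‖c + s‖ + ‖c‖ := by
    have h3 := norm_sub_le (c + s) c
    rwa [add_sub_cancel_left] at h3
  linarith

/-- conjugates -/
theorem nm_conj (h1 : ∀ g, 0 < nm g)
    (h2 : ∃ C : ℝ, 0 < C ∧ ∀ g h, nm (g * h) ≤ C * (nm g * nm h)) (g : G) :
    ∃ c : ℝ, 0 < c ∧ ∀ x, nm x ≤ c * nm (g * x * g⁻¹) := by
  obtain ⟨C, hC, h⟩ := h2
  refine ⟨C * C * nm g⁻¹ * nm g, by have := h1 g; have := h1 g⁻¹; positivity, fun x => ?_⟩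
  have e : x = g⁻¹ * (g * x * g⁻¹) * g := by group
  have h3 := h (g⁻¹ * (g * x * g⁻¹)) g
  have h4 := h g⁻¹ (g * x * g⁻¹)
  rw [← e] at h3
  have h5 : nm (g⁻¹ * (g * x * g⁻¹)) * nm g ≤ C * (nm g⁻¹ * nm (g * x * g⁻¹)) * nm g :=
    mul_le_mul_of_nonneg_right h4 (h1 g).le
  calc nm x ≤ C * (nm (g⁻¹ * (g * x * g⁻¹)) * nm g) := h3
    _ ≤ C * (C * (nm g⁻¹ * nm (g * x * g⁻¹)) * nm g) := mul_le_mul_of_nonneg_left h5 hC.le
    _ = C * C * nm g⁻¹ * nm g * nm (g * x * g⁻¹) := by ring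

/-- unbounded families stay unbounded under conjugation -/
theorem unb_conj (h1 : ∀ g, 0 < nm g)
    (h2 : ∃ C : ℝ, 0 < C ∧ ∀ g h, nm (g * h) ≤ C * (nm g * nm h)) {A : Type} {ψ : A → G}
    (h : ∀ C : ℝ, ∃ s, C ≤ nm (ψ s)) (g : G) (C : ℝ) : ∃ s, C ≤ nm (g * ψ s * g⁻¹) := by
  obtain ⟨c, hc, h3⟩ := nm_conj h1 h2 g
  obtain ⟨s, hs⟩ := h (c * C)
  refine ⟨s, ?_⟩
  have h4 := hs.trans (h3 (ψ s))
  exact le_of_mul_le_mul_left h4 hc

end unb

end Vale.Agent.P092.H370.Cg
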