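import Vale.Agent.P092.H370.Fo1

/-!
P092, Team P, stage 3, block [P3-GEO] (helper370), part 2: Po1-Po3 for forms of any kind (`Fo`),
with the group `EU` generated by the Eichler elements.
-/

set_option linter.all false

open Matrix Module Set

namespace Vale.Agent.P092.H370.Fo

open Vale.Agent.P092.H303 (FormGroup)
open Vale.Agent.P092.H714.Cl
open Vale.Agent.P092.H714.Sg (Fm)
open Vale.Agent.P092.H370.Po

variable {n : Type} [Fintype n] [DecidableEq n] {k : Type} [Field k]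
  {σ : k →+* k} {ε : k} {J : Matrix n n k}

theorem ort_symm (hF : Fo σ ε J) {X Y : Submodule k (n → k)} (h : Ort σ J X Y) :
    Ort σ J Y X := fun y hy x hx => hF.fm.symm0 (h x hx y hy)

theorem ort_comm (hF : Fo σ ε J) {X Y : Submodule k (n → k)} : Ort σ J X Y ↔ Ort σ J Y X :=
  ⟨fun h => ort_symm hF h, fun h => ort_symm hF h⟩


/-- adding a vector to a singular space -/
theorem sing_sup_span (hF : Fo σ ε J) {X : Submodule k (n → k)} (hX : Sing σ J X) {v : n → k}
    (hv : hf σ J v v = 0) (h : ∀ x ∈ X, hf σ J x v = 0) :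
    Sing σ J (X ⊔ Submodule.span k {v}) := by
  unfold Sing
  rw [ort_sup_left, ort_sup_right, ort_sup_right, ort_span_left, ort_span_right]
  refine ⟨⟨hX, h⟩, fun x hx => hF.fm.symm0 (h x hx), ?_⟩
  rw [ort_span_left]
  intro y hy
  obtain ⟨a, rfl⟩ := Submodule.mem_span_singleton.1 hy
  rw [hf_smul_right, hv, mul_zero]


/-- **prescribed products** on a subspace -/
theorem exists_prod (hF : Fo σ ε J) (X : Submodule k (n → k)) (φ : X →ₗ[k] k) :
    ∃ y, ∀ x : X, hf σ J x.1 y = φ x := by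
  -- the functionals `h(·, y)` on `X` form a subspace of the dual
  let D : Submodule k (Module.Dual k X) :=
    { carrier := {f | ∃ y, ∀ x : X, hf σ J x.1 y = f x}
      add_mem' := by
        rintro f g ⟨y, hy⟩ ⟨z, hz⟩
        exact ⟨y + z, fun x => by rw [hf_add_right, hy, hz]; rfl⟩
      zero_mem' := ⟨0, fun x => by rw [hf_zero_right]; rfl⟩
      smul_mem' := by
        rintro c f ⟨y, hy⟩
        exact ⟨σ c • y, fun x => by rw [hf_smul_right, hF.fm.inv, hy]; rfl⟩ }
  have hD : D = ⊤ := by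
    by_contra hne
    -- a vector killed by `D`
    have h1 : D.dualCoannihilator ≠ ⊥ := by
      intro h0
      apply hne
      have h2 := Subspace.dualCoannihilator_dualAnnihilator_eq (W := D)
      rw [← h2, h0, Submodule.dualAnnihilator_bot]
    obtain ⟨x, hx, hx0⟩ := Submodule.exists_mem_ne_zero_of_ne_bot h1
    have hx0' : x.1 ≠ 0 := fun h => hx0 (Subtype.ext h)
    obtain ⟨y, hy⟩ := hF.fm.nondeg x.1 hx0'
    apply hy
    rw [Submodule.mem_dualCoannihilator] at hx
    let f : Module.Dual k X :=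
      { toFun := fun x => hf σ J x.1 y
        map_add' := fun a b => hf_add_left σ J a.1 b.1 y
        map_smul' := fun c a => hf_smul_left σ J c a.1 y }
    exact hx f ⟨y, fun _ => rfl⟩
  have : φ ∈ D := by rw [hD]; trivial
  exact this

/-- the same with an isotropic vector, on a singular space -/
theorem exists_iso_prod (hF : Fo σ ε J) {X : Submodule k (n → k)} (hX : Sing σ J X)
    (φ : X →ₗ[k] k) (hφ : φ ≠ 0) : ∃ z, hf σ J z z = 0 ∧ ∀ x : X, hf σ J x.1 z = φ x := by
  obtain ⟨y, hy⟩ := exists_prod hF X φ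
  obtain ⟨u, hu⟩ : ∃ u : X, φ u ≠ 0 := by
    by_contra hc
    push Not at hc
    exact hφ (LinearMap.ext hc)
  obtain ⟨α, hα⟩ := hF.fm.corr (hX.zero u.2) (y := y) (by rw [hy]; exact hu)
  refine ⟨y + α • u.1, hα, fun x => ?_⟩
  rw [hf_add_right, hf_smul_right, hX x.1 x.2 u.1 u.2, mul_zero, add_zero, hy]


/-- **adjacency step**: `u ↦ w` up to a scalar, every vector of `Z` fixed -/
theorem exists_adj (hF : Fo σ ε J) {Z : Submodule k (n → k)} (hZ : Sing σ J Z) {u w : n → k}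
    (hu : hf σ J u u = 0) (hw : hf σ J w w = 0) (huZ : ∀ x ∈ Z, hf σ J x u = 0)
    (hwZ : ∀ x ∈ Z, hf σ J x w = 0) (hu1 : u ∉ Z) (hw1 : w ∉ Z) :
    ∃ g ∈ EU σ ε J, ∃ a : k, a ≠ 0 ∧ u ᵥ* g.1 = a • w ∧ ∀ y ∈ Z, y ᵥ* g.1 = y := by
  by_cases huw : hf σ J u w = 0
  · -- the sum is singular
    have s1 : Sing σ J (Z ⊔ Submodule.span k {u}) := sing_sup_span hF hZ hu huZ
    have s2 : ∀ x ∈ Z ⊔ Submodule.span k {u}, hf σ J x w = 0 := by
      intro x hx
      obtain ⟨a, ha, b, hb, rfl⟩ := Submodule.mem_sup.1 hx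
      obtain ⟨c, rfl⟩ := Submodule.mem_span_singleton.1 hb
      rw [hf_add_left, hf_smul_left, huw, mul_zero, hwZ a ha, add_zero]
    have s3 := sing_sup_span hF s1 hw s2
    set T := Z ⊔ Submodule.span k {u} ⊔ Submodule.span k {w} with hT
    have hZT : Z ≤ T := le_sup_left.trans le_sup_left
    have huT : u ∈ T := (le_sup_right.trans le_sup_left : Submodule.span k {u} ≤ T)
      (Submodule.mem_span_singleton_self u)
    have hwT : w ∈ T := (le_sup_right : Submodule.span k {w} ≤ T)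
      (Submodule.mem_span_singleton_self w)
    obtain ⟨φ, h1, h2, h3⟩ := exists_functional₂ hZT huT hwT hu1 hw1
    obtain ⟨z, hz, hzφ⟩ := exists_iso_prod hF s3 φ (fun h => h1 (by rw [h]; rfl))
    have h4 : hf σ J u z ≠ 0 := by
      have := hzφ ⟨u, huT⟩
      rw [this]; exact h1
    have h5 : hf σ J z w ≠ 0 := by
      apply Fm.symm_ne0 hF.fm
      have := hzφ ⟨w, hwT⟩
      rw [this]; exact h2
    have h6 : ∀ y ∈ Z, hf σ J y z = 0 := fun y hy => by
      have := hzφ ⟨y, hZT hy⟩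
      rw [this]; exact h3 _ hy
    obtain ⟨g, hg, a, ha, hga, hgf⟩ := step_to hF hZ hu hz huZ h6 h4
    obtain ⟨g', hg', a', ha', hga', hgf'⟩ := step_to hF hZ hz hw h6 hwZ h5
    refine ⟨g * g', mul_mem hg hg', a * a', mul_ne_zero ha ha', ?_, fun y hy => ?_⟩
    · rw [vecMul_mul', hga, smul_vecMul, hga', smul_smul]
    · rw [vecMul_mul', hgf y hy, hgf' y hy]
  · obtain ⟨g, hg, a, ha, hga, hgf⟩ := step_to hF hZ hu hw huZ hwZ huw
    exact ⟨g, hg, a, ha, hga, hgf⟩


/-- one step of the induction -/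
theorem exists_closer (hF : Fo σ ε J) {X Y : Submodule k (n → k)} (hX : Sing σ J X)
    (hY : Sing σ J Y) (h : finrank k X = finrank k Y) (hne : X ≠ Y) :
    ∃ g ∈ EU σ ε J, (∀ x ∈ X ⊓ Y, x ᵥ* g.1 = x) ∧
      finrank k ↥(X ⊓ Y) < finrank k ↥(act g X ⊓ Y) := by
  obtain ⟨H, u, y, hHX, huX, huH, hXe, hyY, hyX, hIH, hp, hlt⟩ := exists_split hX hY h hne
  obtain ⟨g, hg, a, ha, hga, hgf⟩ := exists_adj hF (hX.mono hHX) (hX.zero huX) (hY.zero hyY)
    (fun x hx => hX x (hHX hx) u huX) hp huH (fun h => hyX (hHX h))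
  refine ⟨g, hg, fun x hx => hgf x (hIH hx), ?_⟩
  have e1 : act g X = H ⊔ Submodule.span k {y} := by
    rw [hXe, act_sup, act_of_fix hgf, act_span, hga]
    congr 1
    exact Submodule.span_singleton_smul_eq (IsUnit.mk0 a ha) y
  rw [e1]
  exact hlt

/-- **Witt**: `GT` is transitive on the singular `j`-spaces; the element may be chosen to fix all
vectors of `X ⊓ Y` -/
theorem trans_sing (hF : Fo σ ε J) {X Y : Submodule k (n → k)} (hX : Sing σ J X)
    (hY : Sing σ J Y) (h : finrank k X = finrank k Y) :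
    ∃ g ∈ EU σ ε J, act g X = Y ∧ ∀ x ∈ X ⊓ Y, x ᵥ* g.1 = x := by
  obtain ⟨m, hm⟩ : ∃ m, finrank k Y - finrank k ↥(X ⊓ Y) = m := ⟨_, rfl⟩
  induction m using Nat.strong_induction_on generalizing X with
  | _ m ih =>
    by_cases hne : X = Y
    · exact ⟨1, one_mem _, by rw [act_one, hne], fun x _ => vecMul_one' x⟩
    · obtain ⟨g, hg, h1, h2⟩ := exists_closer hF hX hY h hne
      have h3 : finrank k ↥(act g X ⊓ Y) ≤ finrank k Y :=
        Submodule.finrank_mono inf_le_right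
      obtain ⟨g', hg', h4, h5⟩ := ih _ (by omega) (hX.act (EU_le hF.fm hg))
        ((finrank_act g X).trans h) rfl
      refine ⟨g * g', mul_mem hg hg', by rw [act_mul, h4], fun x hx => ?_⟩
      rw [vecMul_mul', h1 x hx]
      refine h5 x ⟨?_, hx.2⟩
      have := vecMul_mem_act (g := g) hx.1
      rwa [h1 x hx] at this


/-- extension of singular subspaces: if `dim X < dim Y` then `X` lies in a singular space of
dimension `dim X + 1` -/
theorem exists_extend (hF : Fo σ ε J) {X Y : Submodule k (n → k)} (hX : Sing σ J X)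
    (hY : Sing σ J Y) (h : finrank k X < finrank k Y) :
    ∃ v, v ∉ X ∧ hf σ J v v = 0 ∧ ∀ x ∈ X, hf σ J x v = 0 := by
  obtain ⟨Z, hZY, hZ⟩ := exists_sub h.le
  obtain ⟨g, hg, hgX, -⟩ := trans_sing hF hX (hY.mono hZY) hZ.symm
  have h6 : ¬ Y ≤ Z := fun h' => by
    have := Submodule.finrank_mono h'
    omega
  obtain ⟨y, hy, hyZ⟩ := SetLike.not_le_iff_exists.1 h6
  have hgF := EU_le hF.fm hg
  refine ⟨y ᵥ* (g⁻¹).1, fun hc => hyZ ?_, iso_vecMul (inv_mem hgF) (hY.zero hy),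
    fun x hx => ?_⟩
  · rw [← hgX, mem_act]
    exact ⟨_, hc, by rw [← vecMul_mul', inv_mul_cancel, vecMul_one']⟩
  · rw [← mem_formGroup.1 hgF x, ← vecMul_mul', inv_mul_cancel, vecMul_one']
    refine hY _ (hZY ?_) y hy
    rw [← hgX]
    exact vecMul_mem_act hx


/-- every singular space lies in a singular space of dimension `j`, for `j ≤ r` -/
theorem exists_above (hF : Fo σ ε J) {X Y : Submodule k (n → k)} (hX : Sing σ J X)
    (hY : Sing σ J Y) {j : ℕ} (h1 : finrank k X ≤ j) (h2 : j ≤ finrank k Y) :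
    ∃ Z, X ≤ Z ∧ Sing σ J Z ∧ finrank k Z = j := by
  obtain ⟨m, rfl⟩ := Nat.exists_eq_add_of_le h1
  induction m with
  | zero => exact ⟨X, le_rfl, hX, rfl⟩
  | succ m ih =>
    obtain ⟨Z, h3, h4, h5⟩ := ih (by omega) (by omega)
    obtain ⟨v, hv, hvv, hvZ⟩ := exists_extend hF h4 hY (by omega)
    refine ⟨Z ⊔ Submodule.span k {v}, h3.trans le_sup_left, sing_sup_span hF h4 hvv hvZ, ?_⟩
    rw [finrank_sup_span hv, h5]
    rfl


end Vale.Agent.P092.H370.Fo
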