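import Vale.Agent.P092.H370.Cg4

/-!
P092, Team P, stages 2 and 3, block [CL-GEO] (helper370), part 5: the scalars do not change the
size and the near wall sets.
-/

set_option linter.all false

open Matrix Module Set Topology Filter

namespace Vale.Agent.P092.H370.Cg

open Vale.Agent.P092.H303 (FormGroup Idx hyp)
open Vale.Agent.P092.H714.Cl
open Vale.Agent.P092.H370.Po (SGr Inc)

variable {n : Type} [Fintype n] [DecidableEq n] {k : Type} [NontriviallyNormedField k]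

/-- scalars act by a number of norm one -/
theorem ta_scalar [Nonempty n] {z : SpecialLinearGroup n k} (hz : z ∈ CL.scal k n) :
    ∃ t : k, ‖t‖ = 1 ∧ ∀ g : SpecialLinearGroup n k, CL.ta (z * g) = t • CL.ta g := by
  have hz' := inv_mem hz
  obtain ⟨c, hc⟩ := hz'
  have hn : ‖c‖ = 1 := by
    have h1 : (z⁻¹).1.det = 1 := (z⁻¹).2
    rw [hc, det_smul, det_one, mul_one] at h1
    have h2 : ‖c‖ ^ Fintype.card n = 1 := by rw [← norm_pow, h1, norm_one]
    exact (pow_eq_one_iff_of_nonneg (norm_nonneg c) Fintype.card_ne_zero).1 h2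
  refine ⟨c, hn, fun g => ?_⟩
  unfold CL.ta
  have e : ((z * g)⁻¹).1 = (g⁻¹).1 * (z⁻¹).1 := by
    rw [_root_.mul_inv_rev]
    rfl
  rw [e, hc, mul_smul_comm, Matrix.mul_one, transpose_smul]

theorem nmM_smul' {t : k} (ht : ‖t‖ = 1) (A : Matrix n n k) : CL.nmM (t • A) = CL.nmM A := by
  unfold CL.nmM
  have e : (fun i j => (t • A) i j : n → n → k) = t • (fun i j => A i j : n → n → k) := rfl
  rw [e, norm_smul, ht, one_mul]

theorem nw1_smul {t : k} (ht : ‖t‖ = 1) {R : ℝ} {A : Matrix n n k} (h : CL.NW1 R A) :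
    CL.NW1 R (t • A) := by
  intro i i' j j'
  rw [nmM_smul' ht]
  refine le_trans (le_of_eq ?_) (h i i' j j')
  have e : (t • A) i j * (t • A) i' j' - (t • A) i' j * (t • A) i j' =
      t * t * (A i j * A i' j' - A i' j * A i j') := by
    simp only [Matrix.smul_apply, smul_eq_mul]
    ring
  rw [e, norm_mul, norm_mul, ht, one_mul, one_mul]

theorem nwr_smul {t : k} (ht : ‖t‖ = 1) {r : ℕ} {R : ℝ} {A : Matrix n n k}
    (h : CL.NWr r R A) : CL.NWr r R (t • A) := by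
  obtain ⟨V, hV, h⟩ := h
  refine ⟨V, hV, fun v hv => ?_⟩
  rw [nmM_smul' ht, smul_mulVec, norm_smul, ht, one_mul]
  exact h v hv

theorem att_smul {σ : k →+* k} {J : Matrix n n k} {j : ℕ} {t : k} (ht : ‖t‖ = 1) {T : ℝ}
    {B : Set (SGr σ J j)} {A : Matrix n n k} (h : CL.AttS T B A) : CL.AttS T B (t • A) := by
  obtain ⟨X, hX, D, hD, h⟩ := h
  refine ⟨X, hX, t • D, fun v => ?_, fun i i' => ?_⟩
  · rw [smul_mulVec]
    exact X.S.smul_mem _ (hD v)
  · have e : (t • A) i i' - (t • D) i i' = t * (A i i' - D i i') := by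
      simp only [Matrix.smul_apply, smul_eq_mul]
      ring
    rw [e, norm_mul, ht, one_mul, nmM_smul' ht]
    exact h i i'

section fields

variable {σ : k →+* k} {J : Matrix n n k} [Nonempty n] {z : FormGroup σ J}
  (hz : z ∈ (CL.scal k n).subgroupOf (FormGroup σ J))

include hz

theorem z_nm (g : FormGroup σ J) : CL.nmM (CL.ta (z * g).1) = CL.nmM (CL.ta g.1) := by
  obtain ⟨t, ht, h⟩ := ta_scalar (Subgroup.mem_subgroupOf.1 hz)
  have e : CL.ta (z * g).1 = t • CL.ta g.1 := h g.1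
  rw [e, nmM_smul' ht]

theorem z_set {P : Matrix n n k → Prop} (hP : ∀ t : k, ‖t‖ = 1 → ∀ A, P A → P (t • A))
    (g : FormGroup σ J) : P (CL.ta (z * g).1) ↔ P (CL.ta g.1) := by
  obtain ⟨t, ht, h⟩ := ta_scalar (Subgroup.mem_subgroupOf.1 hz)
  have e : CL.ta (z * g).1 = t • CL.ta g.1 := h g.1
  rw [e]
  refine ⟨fun h1 => ?_, hP t ht _⟩
  have ht0 : t ≠ 0 := norm_ne_zero_iff.1 (by rw [ht]; exact one_ne_zero)
  have h2 := hP t⁻¹ (by rw [norm_inv, ht, inv_one]) _ h1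
  rwa [smul_smul, inv_mul_cancel₀ ht0, one_smul] at h2

theorem z_na1 (g : FormGroup σ J) (R T : ℝ) (B : Set (SGr σ J 1)) :
    (CL.NW1 R (CL.ta (z * g).1) ∧ CL.AttS T B (CL.ta (z * g).1)) ↔
      (CL.NW1 R (CL.ta g.1) ∧ CL.AttS T B (CL.ta g.1)) :=
  z_set hz (P := fun A => CL.NW1 R A ∧ CL.AttS T B A)
    (fun t ht A h => ⟨nw1_smul ht h.1, att_smul ht h.2⟩) g

theorem z_na2 {r : ℕ} (g : FormGroup σ J) (R T : ℝ) (B : Set (SGr σ J r)) :
    (CL.NWr r R (CL.ta (z * g).1) ∧ CL.AttS T B (CL.ta (z * g).1)) ↔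
      (CL.NWr r R (CL.ta g.1) ∧ CL.AttS T B (CL.ta g.1)) :=
  z_set hz (P := fun A => CL.NWr r R A ∧ CL.AttS T B A)
    (fun t ht A h => ⟨nwr_smul ht h.1, att_smul ht h.2⟩) g

end fields

end Vale.Agent.P092.H370.Cg
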