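import Vale.Agent.P092.H370.Sp4

/-!
P092 (helper370), TEAM P, stage 1: the quadrangle of `Sp_4(k)` and transitivity of `S4 k` in the
column action, all from one theorem: `S4 k` is transitive on symplectic frames.
-/

set_option linter.all false

open Matrix Module Set Topology TopologicalSpace
open scoped LinearAlgebra.Projectivization

namespace Vale.Agent.P092.SP4

open Vale.Agent.P092.H303 (FormGroup)
open Vale.Agent.P092.H714.Cl (hf Frm mem_formGroup GT GT_le)
open Vale.Agent.P092.H100.Gr (Gr)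
open Vale.Agent.P092.H370.Po (Ort Sing)
open Vale.Agent.P092.RC (GG YY y0 ct)
open Vale.Agent.P092.H644.Gr3 (p1)

section frames

variable {k : Type} [Field k]

/-- symplectic frames: `e 0, e 3` and `e 1, e 2` hyperbolic pairs -/
structure SF (e : Fin 4 → Fin 4 → k) : Prop where
  h03 : om (e 0) (e 3) = 1
  h12 : om (e 1) (e 2) = 1
  h01 : om (e 0) (e 1) = 0
  h02 : om (e 0) (e 2) = 0
  h13 : om (e 1) (e 3) = 0
  h23 : om (e 2) (e 3) = 0

/-- the matrix with columns `e i` -/
def cm (e : Fin 4 → Fin 4 → k) : Matrix (Fin 4) (Fin 4) k := Matrix.of fun a b => e b a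

theorem det_cm (e : Fin 4 → Fin 4 → k) : (cm e).det =
    om (e 0) (e 3) * om (e 1) (e 2) - om (e 0) (e 2) * om (e 1) (e 3) +
      om (e 0) (e 1) * om (e 2) (e 3) := by
  simp only [om_eq, Matrix.det_succ_row_zero, Fin.sum_univ_succ, cm, Matrix.of_apply,
    Matrix.submatrix_apply, Fin.succAbove, Matrix.det_fin_zero]
  simp
  ring

theorem SF.det {e : Fin 4 → Fin 4 → k} (h : SF e) : (cm e).det = 1 := by
  rw [det_cm, h.h03, h.h12, h.h02, h.h01]
  ring

/-- the element of `SL_4` -/
def SF.sl {e : Fin 4 → Fin 4 → k} (h : SF e) : SpecialLinearGroup (Fin 4) k := ⟨cm e, h.det⟩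

theorem SF.mem {e : Fin 4 → Fin 4 → k} (h : SF e) : h.sl ∈ S4 k := by
  rw [mem_S4']
  change (cm e)ᵀ * J4 k * cm e = J4 k
  have key : ∀ i j, ((cm e)ᵀ * J4 k * cm e) i j = om (e i) (e j) := by
    intro i j
    rw [Matrix.mul_assoc, Matrix.mul_apply]
    unfold om
    rw [dotProduct]
    refine Finset.sum_congr rfl fun a _ => ?_
    rfl
  ext i j
  rw [key]
  have s : ∀ x y : Fin 4 → k, om y x = -om x y := om_swap
  fin_cases i <;> fin_cases j <;> simp [J4, om_self, h.h03, h.h12, h.h01, h.h02, h.h13, h.h23,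
    s (e 0) (e 3), s (e 1) (e 2), s (e 0) (e 1), s (e 0) (e 2), s (e 1) (e 3), s (e 2) (e 3)]

/-- the element carrying the standard frame to `e` -/
def SF.g {e : Fin 4 → Fin 4 → k} (h : SF e) : S4 k := ⟨h.sl, h.mem⟩

theorem SF.g_single {e : Fin 4 → Fin 4 → k} (h : SF e) (i : Fin 4) :
    h.g.1 • (Pi.single i 1 : Fin 4 → k) = e i := by
  change cm e *ᵥ Pi.single i 1 = e i
  rw [Matrix.mulVec_single_one]
  rfl

/-- **`S4 k` is transitive on the symplectic frames** -/
theorem SF.trans {e f : Fin 4 → Fin 4 → k} (he : SF e) (hf : SF f) :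
    ∃ g : S4 k, ∀ i, g.1 • e i = f i := by
  refine ⟨hf.g * he.g⁻¹, fun i => ?_⟩
  rw [← he.g_single i, ← hf.g_single i]
  change (hf.g.1 * he.g.1⁻¹) • he.g.1 • _ = _
  rw [mul_smul, inv_smul_smul]

/-- the projection to `{v, w}^⊥` -/
def prj (v w z : Fin 4 → k) : Fin 4 → k := z + (-om z w) • v + om z v • w

theorem prj_left {v w : Fin 4 → k} (h : om v w = 1) (z : Fin 4 → k) : om (prj v w z) v = 0 := by
  have hvw : om w v = -1 := by rw [om_swap, h]
  rw [prj, om_add_left, om_add_left, om_smul_left, om_smul_left, om_self, hvw]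
  ring

theorem prj_right {v w : Fin 4 → k} (h : om v w = 1) (z : Fin 4 → k) : om (prj v w z) w = 0 := by
  rw [prj, om_add_left, om_add_left, om_smul_left, om_smul_left, om_self, h]
  ring

theorem om_prj {v w a z : Fin 4 → k} (h1 : om a v = 0) (h2 : om a w = 0) :
    om a (prj v w z) = om a z := by
  rw [prj, om_add_right, om_add_right, om_smul_right, om_smul_right, h1, h2]
  ring

theorem exists_prj_ne {v w : Fin 4 → k} (h : om v w = 1) : ∃ z, prj v w z ≠ 0 := by
  by_contra hc
  push Not at hc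
  have h1 : (⊤ : Submodule k (Fin 4 → k)) ≤ Submodule.span k (range ![v, w]) := by
    intro z _
    have h2 : z = om z w • v + (-om z v) • w := by
      have h3 : z + (-om z w) • v + om z v • w = 0 := hc z
      have : z = (z + (-om z w) • v + om z v • w) + (om z w • v + (-om z v) • w) := by module
      rw [h3, zero_add] at this
      exact this
    rw [h2]
    exact Submodule.add_mem _ (Submodule.smul_mem _ _ (Submodule.subset_span ⟨0, rfl⟩))
      (Submodule.smul_mem _ _ (Submodule.subset_span ⟨1, rfl⟩))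
  have h4 := Submodule.finrank_mono h1
  rw [finrank_top, Module.finrank_fin_fun] at h4
  have h5 : finrank k (Submodule.span k (range ![v, w])) ≤ 2 := by
    have := finrank_range_le_card (R := k) ![v, w]
    rwa [Fintype.card_fin] at this
  omega

/-- completion of a hyperbolic pair and a third vector -/
theorem exists_SF' {v w u : Fin 4 → k} (h : om v w = 1) (hu : u ≠ 0) (h1 : om u v = 0)
    (h2 : om u w = 0) : ∃ e, SF e ∧ e 0 = v ∧ e 1 = u ∧ e 3 = w := by
  obtain ⟨y, hy⟩ := om_nondeg hu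
  have h7 : om u (prj v w y) ≠ 0 := by rwa [om_prj h1 h2]
  refine ⟨![v, u, (om u (prj v w y))⁻¹ • prj v w y, w], ?_, rfl, rfl, rfl⟩
  constructor
  · exact h
  · change om u ((om u (prj v w y))⁻¹ • prj v w y) = 1
    rw [om_smul_right, inv_mul_cancel₀ h7]
  · change om v u = 0
    rw [om_swap u v, h1, neg_zero]
  · change om v ((om u (prj v w y))⁻¹ • prj v w y) = 0
    rw [om_smul_right, om_swap (prj v w y) v, prj_left h, neg_zero, mul_zero]
  · exact h2
  · change om ((om u (prj v w y))⁻¹ • prj v w y) w = 0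
    rw [om_smul_left, prj_right h, mul_zero]

/-- completion of a hyperbolic pair -/
theorem exists_SF {v w : Fin 4 → k} (h : om v w = 1) : ∃ e, SF e ∧ e 0 = v ∧ e 3 = w := by
  obtain ⟨z, hz⟩ := exists_prj_ne h
  obtain ⟨e, he, h0, -, h3⟩ := exists_SF' h hz (prj_left h z) (prj_right h z)
  exact ⟨e, he, h0, h3⟩

/-- completion of an orthogonal pair -/
theorem exists_SF'' {v u : Fin 4 → k} (hv : v ∉ Submodule.span k {u}) (hu : u ≠ 0)
    (h : om v u = 0) : ∃ e, SF e ∧ e 0 = v ∧ e 1 = u := by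
  set X : Submodule k (Fin 4 → k) := Submodule.span k {v} ⊔ Submodule.span k {u} with hX
  have hvX : v ∈ X := (le_sup_left : Submodule.span k {v} ≤ X) (Submodule.mem_span_singleton_self v)
  have huX : u ∈ X := (le_sup_right : Submodule.span k {u} ≤ X)
    (Submodule.mem_span_singleton_self u)
  obtain ⟨φ, h1, h2⟩ := H370.Po.exists_functional (le_sup_right : Submodule.span k {u} ≤ X) hvX hv
  obtain ⟨w, hw⟩ := H370.Po.exists_prod frm4 X φ
  have h3 : om v w = 1 := (hw ⟨v, hvX⟩).trans h1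
  have h4 : om u w = 0 := (hw ⟨u, huX⟩).trans (h2 _ (Submodule.mem_span_singleton_self u))
  obtain ⟨e, he, h5, h6, -⟩ := exists_SF' h3 hu (by rw [om_swap, h, neg_zero]) h4
  exact ⟨e, he, h5, h6⟩

/-- totally isotropic subspaces have dimension at most `2` -/
theorem finrank_le_two {X : Submodule k (Fin 4 → k)} (h : ∀ x ∈ X, ∀ y ∈ X, om x y = 0) :
    finrank k X ≤ 2 := by
  let Φ : (Fin 4 → k) →ₗ[k] Module.Dual k X :=
    { toFun := fun y =>
        { toFun := fun x => om x.1 y
          map_add' := fun a b => om_add_left a.1 b.1 y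
          map_smul' := fun c a => om_smul_left c a.1 y }
      map_add' := fun a b => LinearMap.ext fun x => om_add_right x.1 a b
      map_smul' := fun c a => LinearMap.ext fun x => om_smul_right c x.1 a }
  have h1 : LinearMap.range Φ = ⊤ := by
    rw [LinearMap.range_eq_top]
    intro φ
    obtain ⟨y, hy⟩ := H370.Po.exists_prod frm4 X φ
    exact ⟨y, LinearMap.ext fun x => hy x⟩
  have h2 : X ≤ LinearMap.ker Φ := fun y hy => by
    rw [LinearMap.mem_ker]
    exact LinearMap.ext fun x => h x.1 x.2 y hy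
  have h3 := LinearMap.finrank_range_add_finrank_ker Φ
  rw [h1, finrank_top, Subspace.dual_finrank_eq, Module.finrank_fin_fun] at h3
  have h4 := Submodule.finrank_mono h2
  omega

theorem SF.ne {e : Fin 4 → Fin 4 → k} (h : SF e) (i : Fin 4) : e i ≠ 0 := by
  intro h0
  have h1 := h.g_single i
  rw [h0] at h1
  have h2 : (Pi.single i 1 : Fin 4 → k) = 0 := by
    rw [← inv_smul_smul h.g.1 (Pi.single i 1 : Fin 4 → k), h1, smul_zero]
  have := congrFun h2 i
  simp at this

end frames

section quad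

variable {k : Type} [NontriviallyNormedField k]

/-- two different points lie on at most one line -/
theorem on_unique {x y : YY k 3} {l m : LL k} (hne : x ≠ y) (h1 : on x l) (h2 : on y l)
    (h3 : on x m) (h4 : on y m) : l = m := by
  have h5 : finrank k ↥((p1 x).1 ⊔ (p1 y).1) = 2 := by
    apply le_antisymm
    · exact (Submodule.finrank_mono (sup_le h1 h2)).trans_eq l.1.2
    · exact H100.Gr.lt_sup (fun h => hne (H644.Gr3.p1_inj h))
  have h6 : (p1 x).1 ⊔ (p1 y).1 = l.1.1 :=
    Submodule.eq_of_le_of_finrank_eq (sup_le h1 h2) (h5.trans l.1.2.symm)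
  have h7 : (p1 x).1 ⊔ (p1 y).1 = m.1.1 :=
    Submodule.eq_of_le_of_finrank_eq (sup_le h3 h4) (h5.trans m.1.2.symm)
  exact Subtype.ext (Subtype.ext (h6.symm.trans h7))

/-- **no triangles**: a point orthogonal to two different points of a line is on the line -/
theorem on_of_prp {x y z : YY k 3} {l : LL k} (hne : x ≠ y) (h1 : on x l) (h2 : on y l)
    (h3 : prp z x) (h4 : prp z y) : on z l := by
  have h5 : finrank k ↥((p1 x).1 ⊔ (p1 y).1) = 2 := by
    apply le_antisymm
    · exact (Submodule.finrank_mono (sup_le h1 h2)).trans_eq l.1.2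
    · exact H100.Gr.lt_sup (fun h => hne (H644.Gr3.p1_inj h))
  have h6 : (p1 x).1 ⊔ (p1 y).1 = l.1.1 :=
    Submodule.eq_of_le_of_finrank_eq (sup_le h1 h2) (h5.trans l.1.2.symm)
  -- `z ⊥ l`
  have hzl : ∀ v ∈ l.1.1, om v z.rep = 0 := by
    intro v hv
    rw [← h6] at hv
    obtain ⟨a, ha, b, hb, rfl⟩ := Submodule.mem_sup.1 hv
    have hx : (p1 x).1 = Submodule.span k {x.rep} := by
      change x.submodule = _
      rw [Projectivization.submodule_eq]
    have hy : (p1 y).1 = Submodule.span k {y.rep} := by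
      change y.submodule = _
      rw [Projectivization.submodule_eq]
    rw [hx] at ha
    rw [hy] at hb
    obtain ⟨c, rfl⟩ := Submodule.mem_span_singleton.1 ha
    obtain ⟨d, rfl⟩ := Submodule.mem_span_singleton.1 hb
    have h3' : om z.rep x.rep = 0 := h3
    have h4' : om z.rep y.rep = 0 := h4
    rw [om_add_left, om_smul_left, om_smul_left, om_swap z.rep x.rep, h3', om_swap z.rep y.rep,
      h4']
    ring
  have hs := H370.Po.sing_sup_span frm4 (X := l.1.1) (fun a ha b hb => l.2 a ha b hb)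
    (v := z.rep) (om_self _) hzl
  rw [on_iff]
  by_contra hc
  have h7 := finrank_le_two (X := l.1.1 ⊔ Submodule.span k {z.rep}) hs
  rw [H370.Po.finrank_sup_span hc, l.1.2] at h7
  omega

/-- a line from its plane -/
def LL.mk' (X : Submodule k (Fin 4 → k)) (h : ∀ x ∈ X, ∀ y ∈ X, om x y = 0)
    (hd : finrank k X = 2) : LL k := ⟨(⟨X, hd⟩ : Gr k (Fin 4) 2), h⟩

theorem LL.mk'_val (X : Submodule k (Fin 4 → k)) (h : ∀ x ∈ X, ∀ y ∈ X, om x y = 0)
    (hd : finrank k X = 2) : (LL.mk' X h hd).1.1 = X := rfl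

/-- the line through two different orthogonal points -/
theorem exists_ln {x y : YY k 3} (hne : x ≠ y) (h : prp x y) : ∃ l : LL k, on x l ∧ on y l := by
  have hx : (p1 x).1 = Submodule.span k {x.rep} := by
    change x.submodule = _
    rw [Projectivization.submodule_eq]
  have hy : (p1 y).1 = Submodule.span k {y.rep} := by
    change y.submodule = _
    rw [Projectivization.submodule_eq]
  have hyx : y.rep ∉ (p1 x).1 := by
    intro hc
    have h1 : (p1 y).1 ≤ (p1 x).1 := H644.Gr3.mem_p1.2 hc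
    exact hne (H644.Gr3.p1_inj (H100.Gr.eq_of_le h1)).symm
  have hs := H370.Po.sing_sup_span frm4 (X := (p1 x).1) (by
      rw [hx]
      intro a ha b hb
      obtain ⟨c, rfl⟩ := Submodule.mem_span_singleton.1 ha
      obtain ⟨d, rfl⟩ := Submodule.mem_span_singleton.1 hb
      rw [hf_eq, om_smul_left, om_smul_right, om_self]
      ring)
    (v := y.rep) (om_self _) (by
      intro a ha
      rw [hx] at ha
      obtain ⟨c, rfl⟩ := Submodule.mem_span_singleton.1 ha
      have h' : om x.rep y.rep = 0 := h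
      rw [hf_eq, om_smul_left, h', mul_zero])
  refine ⟨LL.mk' ((p1 x).1 ⊔ Submodule.span k {y.rep}) hs ?_, ?_, ?_⟩
  · rw [H370.Po.finrank_sup_span hyx, (p1 x).2]
  · exact (le_sup_left : (p1 x).1 ≤ (p1 x).1 ⊔ Submodule.span k {y.rep})
  · refine on_iff.2 ?_
    exact (le_sup_right : Submodule.span k {y.rep} ≤ (p1 x).1 ⊔ Submodule.span k {y.rep})
      (Submodule.mem_span_singleton_self _)

/-- every line has a point different from a given one -/
theorem exists_on_ne (l : LL k) (x : YY k 3) : ∃ y, y ≠ x ∧ on y l := by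
  have h1 : ¬ l.1.1 ≤ (p1 x).1 := fun h => by
    have := Submodule.finrank_mono h
    rw [l.1.2, (p1 x).2] at this
    omega
  obtain ⟨v, hv, hvx⟩ := SetLike.not_le_iff_exists.1 h1
  have hv0 : v ≠ 0 := fun h => hvx (by rw [h]; exact Submodule.zero_mem _)
  refine ⟨Projectivization.mk k v hv0, fun h => hvx ?_, (on_mk hv0).2 hv⟩
  rw [← h, H644.Gr3.p1_mk]
  exact Submodule.mem_span_singleton_self v

/-- two different lines through a point -/
theorem exists_on_ne' (l : LL k) : ∃ x y, x ≠ y ∧ on x l ∧ on y l := by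
  obtain ⟨x, -, hx⟩ := exists_on_ne l y0
  obtain ⟨y, hy, hyl⟩ := exists_on_ne l x
  exact ⟨x, y, hy.symm, hx, hyl⟩

/-- **the foot** of a point on a line -/
theorem exists_foot (x : YY k 3) (l : LL k) : ∃ y, on y l ∧ prp x y := by
  obtain ⟨a, b, hab, ha, hb⟩ := exists_on_ne' l
  by_cases h1 : om x.rep a.rep = 0
  · exact ⟨a, ha, h1⟩
  · have hva : a.rep ∈ l.1.1 := on_iff.1 ha
    have hvb : b.rep ∈ l.1.1 := on_iff.1 hb
    set v : Fin 4 → k := b.rep + (-(om x.rep b.rep * (om x.rep a.rep)⁻¹)) • a.rep with hv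
    have hv0 : v ≠ 0 := by
      intro h0
      apply hab
      have h2 : b.rep ∈ (p1 a).1 := by
        have e : (p1 a).1 = Submodule.span k {a.rep} := by
          change a.submodule = _
          rw [Projectivization.submodule_eq]
        rw [e, Submodule.mem_span_singleton]
        refine ⟨om x.rep b.rep * (om x.rep a.rep)⁻¹, ?_⟩
        have h3 : b.rep + (-(om x.rep b.rep * (om x.rep a.rep)⁻¹)) • a.rep = 0 := h0
        rw [neg_smul, ← sub_eq_add_neg, sub_eq_zero] at h3
        exact h3.symm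
      exact (H644.Gr3.p1_inj (H100.Gr.eq_of_le (H644.Gr3.mem_p1.2 h2))).symm
    have hvl : v ∈ l.1.1 := Submodule.add_mem _ hvb (Submodule.smul_mem _ _ hva)
    refine ⟨Projectivization.mk k v hv0, (on_mk hv0).2 hvl, ?_⟩
    have hx0 := x.rep_nonzero
    have e : x = Projectivization.mk k x.rep hx0 := (Projectivization.mk_rep x).symm
    rw [e, prp_mk hx0 hv0, hv, om_add_right, om_smul_right]
    field_simp
    ring

/-- the foot is unique if the point is not on the line -/
theorem foot_unique {x y z : YY k 3} {l : LL k} (hx : ¬ on x l) (hy : on y l) (hz : on z l)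
    (h1 : prp x y) (h2 : prp x z) : y = z := by
  by_contra hne
  exact hx (on_of_prp hne hy hz h1 h2)

end quad

section apt

variable {k : Type} [NontriviallyNormedField k]

/-- an apartment: a quadrilateral `b, c, b', c'` -/
structure Apt (b c b' c' : YY k 3) : Prop where
  bc : prp b c
  cb : prp c b'
  bc' : prp b' c'
  cb' : prp c' b
  ob : ¬ prp b b'
  oc : ¬ prp c c'

theorem Apt.rot {b c b' c' : YY k 3} (h : Apt b c b' c') : Apt c b' c' b :=
  ⟨h.cb, h.bc', h.cb', h.bc, h.oc, fun h' => h.ob (prp_symm h')⟩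

theorem Apt.refl {b c b' c' : YY k 3} (h : Apt b c b' c') : Apt b c' b' c :=
  ⟨prp_symm h.cb', prp_symm h.bc', prp_symm h.cb, prp_symm h.bc, h.ob,
    fun h' => h.oc (prp_symm h')⟩

/-- the point of a vector of a frame -/
def SF.pt {e : Fin 4 → Fin 4 → k} (h : SF e) (i : Fin 4) : YY k 3 :=
  Projectivization.mk k (e i) (h.ne i)

theorem SF.apt {e : Fin 4 → Fin 4 → k} (h : SF e) : Apt (h.pt 0) (h.pt 1) (h.pt 3) (h.pt 2) where
  bc := (prp_mk _ _).2 h.h01
  cb := (prp_mk _ _).2 h.h13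
  bc' := (prp_mk _ _).2 (by rw [om_swap, h.h23, neg_zero])
  cb' := (prp_mk _ _).2 (by rw [om_swap, h.h02, neg_zero])
  ob := by
    unfold SF.pt
    rw [prp_mk, h.h03]; exact one_ne_zero
  oc := by
    unfold SF.pt
    rw [prp_mk, h.h12]; exact one_ne_zero

theorem mk_smul_eq {v : Fin 4 → k} (hv : v ≠ 0) {a : k} (ha : a ≠ 0) (hav : a • v ≠ 0) :
    Projectivization.mk k (a • v) hav = Projectivization.mk k v hv := by
  rw [Projectivization.mk_eq_mk_iff]
  exact ⟨Units.mk0 a ha, rfl⟩

theorem Apt.exists_frame {b c b' c' : YY k 3} (h : Apt b c b' c') :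
    ∃ e, ∃ he : SF e, he.pt 0 = b ∧ he.pt 1 = c ∧ he.pt 3 = b' ∧ he.pt 2 = c' := by
  have h1 : om b.rep b'.rep ≠ 0 := h.ob
  have h2 : om c.rep c'.rep ≠ 0 := h.oc
  have h3 : om b.rep c.rep = 0 := h.bc
  have h4 : om c.rep b'.rep = 0 := h.cb
  have h5 : om b'.rep c'.rep = 0 := h.bc'
  have h6 : om c'.rep b.rep = 0 := h.cb'
  have he : SF ![b.rep, c.rep, (om c.rep c'.rep)⁻¹ • c'.rep, (om b.rep b'.rep)⁻¹ • b'.rep] := by
    constructor
    · change om b.rep ((om b.rep b'.rep)⁻¹ • b'.rep) = 1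
      rw [om_smul_right, inv_mul_cancel₀ h1]
    · change om c.rep ((om c.rep c'.rep)⁻¹ • c'.rep) = 1
      rw [om_smul_right, inv_mul_cancel₀ h2]
    · exact h3
    · change om b.rep ((om c.rep c'.rep)⁻¹ • c'.rep) = 0
      rw [om_smul_right, om_swap c'.rep b.rep, h6, neg_zero, mul_zero]
    · change om c.rep ((om b.rep b'.rep)⁻¹ • b'.rep) = 0
      rw [om_smul_right, h4, mul_zero]
    · change om ((om c.rep c'.rep)⁻¹ • c'.rep) ((om b.rep b'.rep)⁻¹ • b'.rep) = 0
      rw [om_smul_right, om_smul_left, om_swap b'.rep c'.rep, h5, neg_zero, mul_zero, mul_zero]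
  refine ⟨_, he, ?_, ?_, ?_, ?_⟩
  · exact Projectivization.mk_rep b
  · exact Projectivization.mk_rep c
  · exact (mk_smul_eq b'.rep_nonzero (inv_ne_zero h1) (he.ne 3)).trans (Projectivization.mk_rep b')
  · exact (mk_smul_eq c'.rep_nonzero (inv_ne_zero h2) (he.ne 2)).trans (Projectivization.mk_rep c')

/-- **`S4 k` is transitive on the apartments** -/
theorem Apt.trans {b c b' c' B C B' C' : YY k 3} (h : Apt b c b' c') (H : Apt B C B' C') :
    ∃ g : S4 k, g • b = B ∧ g • c = C ∧ g • b' = B' ∧ g • c' = C' := by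
  obtain ⟨e, he, rfl, rfl, rfl, rfl⟩ := h.exists_frame
  obtain ⟨f, hf, rfl, rfl, rfl, rfl⟩ := H.exists_frame
  obtain ⟨g, hg⟩ := he.trans hf
  have key : ∀ i, g • he.pt i = hf.pt i := by
    intro i
    unfold SF.pt
    rw [smul_YY, Projectivization.smul_mk]
    congr 1
    exact hg i
  exact ⟨g, key 0, key 1, key 3, key 2⟩

theorem exists_Apt_opp {b b' : YY k 3} (h : ¬ prp b b') : ∃ c c', Apt b c b' c' := by
  have h1 : om b.rep b'.rep ≠ 0 := h
  obtain ⟨e, he, h0, h3⟩ := exists_SF (v := b.rep) (w := (om b.rep b'.rep)⁻¹ • b'.rep)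
    (by rw [om_smul_right, inv_mul_cancel₀ h1])
  have e0 : he.pt 0 = b := by
    unfold SF.pt
    simp only [h0]
    exact Projectivization.mk_rep b
  have e3 : he.pt 3 = b' := by
    unfold SF.pt
    simp only [h3]
    exact (mk_smul_eq b'.rep_nonzero (inv_ne_zero h1) _).trans (Projectivization.mk_rep b')
  refine ⟨he.pt 1, he.pt 2, ?_⟩
  rw [← e0, ← e3]
  exact he.apt

theorem exists_Apt_col {b c : YY k 3} (hne : b ≠ c) (h : prp b c) : ∃ b' c', Apt b c b' c' := by
  have hb : b.rep ∉ Submodule.span k {c.rep} := by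
    intro hc
    have e : (p1 c).1 = Submodule.span k {c.rep} := by
      change c.submodule = _
      rw [Projectivization.submodule_eq]
    rw [← e] at hc
    exact hne (H644.Gr3.p1_inj (H100.Gr.eq_of_le (H644.Gr3.mem_p1.2 hc)))
  obtain ⟨e, he, h0, h1⟩ := exists_SF'' hb c.rep_nonzero h
  have e0 : he.pt 0 = b := by
    unfold SF.pt
    simp only [h0]
    exact Projectivization.mk_rep b
  have e1 : he.pt 1 = c := by
    unfold SF.pt
    simp only [h1]
    exact Projectivization.mk_rep c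
  refine ⟨he.pt 3, he.pt 2, ?_⟩
  rw [← e0, ← e1]
  exact he.apt

/-- transitivity on opposite pairs of points -/
theorem trans_opp {b b' B B' : YY k 3} (h : ¬ prp b b') (H : ¬ prp B B') :
    ∃ g : S4 k, g • b = B ∧ g • b' = B' := by
  obtain ⟨c, c', h1⟩ := exists_Apt_opp h
  obtain ⟨C, C', h2⟩ := exists_Apt_opp H
  obtain ⟨g, g1, -, g3, -⟩ := h1.trans h2
  exact ⟨g, g1, g3⟩

/-- transitivity on collinear pairs of different points -/
theorem trans_col {b c B C : YY k 3} (hne : b ≠ c) (h : prp b c) (Hne : B ≠ C) (H : prp B C) :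
    ∃ g : S4 k, g • b = B ∧ g • c = C := by
  obtain ⟨b', c', h1⟩ := exists_Apt_col hne h
  obtain ⟨B', C', h2⟩ := exists_Apt_col Hne H
  obtain ⟨g, g1, g2, -, -⟩ := h1.trans h2
  exact ⟨g, g1, g2⟩

theorem exists_not_prp (b : YY k 3) : ∃ b', ¬ prp b b' := by
  obtain ⟨y, hy⟩ := om_nondeg b.rep_nonzero
  have hy0 : y ≠ 0 := fun h => hy (by rw [h, om_zero_right])
  refine ⟨Projectivization.mk k y hy0, fun hc => hy ?_⟩
  rw [← Projectivization.mk_rep b, prp_mk b.rep_nonzero hy0] at hc
  exact hc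

/-- transitivity on points -/
theorem trans_pt (b B : YY k 3) : ∃ g : S4 k, g • b = B := by
  obtain ⟨b', h⟩ := exists_not_prp b
  obtain ⟨B', H⟩ := exists_not_prp B
  obtain ⟨g, g1, -⟩ := trans_opp h H
  exact ⟨g, g1⟩

/-- transitivity on flags, lines -/
theorem trans_flag {x y : YY k 3} {l m : LL k} (h : on x l) (H : on y m) :
    ∃ g : S4 k, g • x = y ∧ g • l = m := by
  obtain ⟨x', hx', h'⟩ := exists_on_ne l x
  obtain ⟨y', hy', H'⟩ := exists_on_ne m y
  obtain ⟨g, g1, g2⟩ := trans_col hx'.symm (prp_of_on h h') hy'.symm (prp_of_on H H')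
  refine ⟨g, g1, on_unique (x := y) (y := y') hy'.symm ?_ ?_ H H'⟩
  · rw [← g1]; exact (on_smul g).2 h
  · rw [← g2]; exact (on_smul g).2 h'

theorem trans_ln (l m : LL k) : ∃ g : S4 k, g • l = m := by
  obtain ⟨x, x', -, h, -⟩ := exists_on_ne' l
  obtain ⟨y, y', -, H, -⟩ := exists_on_ne' m
  obtain ⟨g, -, g2⟩ := trans_flag h H
  exact ⟨g, g2⟩

/-- two points on different lines through `x`, both different from `x`, are opposite -/
theorem not_prp_of_conc {x c c' : YY k 3} {l m : LL k} (hlm : l ≠ m) (hx : on x l) (hx' : on x m)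
    (hc : on c l) (hc' : on c' m) (h1 : c ≠ x) (h2 : c' ≠ x) : ¬ prp c c' := by
  intro h
  have h3 : on c' l := on_of_prp (x := x) (y := c) h1.symm hx hc (prp_of_on hc' hx') (prp_symm h)
  exact hlm (on_unique h2.symm hx h3 hx' hc')

/-- an apartment with `x, c, c'` -/
theorem exists_Apt_mid {x c c' : YY k 3} (h : ¬ prp c c') (h1 : prp x c) (h2 : prp x c') :
    ∃ x', Apt x c x' c' := by
  have h3 : om c.rep c'.rep ≠ 0 := h
  have h1' : om x.rep c.rep = 0 := h1
  have h2' : om x.rep c'.rep = 0 := h2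
  obtain ⟨e, he, e0, e1, e3⟩ := exists_SF' (v := c.rep) (w := (om c.rep c'.rep)⁻¹ • c'.rep)
    (u := x.rep) (by rw [om_smul_right, inv_mul_cancel₀ h3]) x.rep_nonzero h1'
    (by rw [om_smul_right, h2', mul_zero])
  have p0 : he.pt 0 = c := by
    unfold SF.pt
    simp only [e0]
    exact Projectivization.mk_rep c
  have p1' : he.pt 1 = x := by
    unfold SF.pt
    simp only [e1]
    exact Projectivization.mk_rep x
  have p3 : he.pt 3 = c' := by
    unfold SF.pt
    simp only [e3]
    exact (mk_smul_eq c'.rep_nonzero (inv_ne_zero h3) _).trans (Projectivization.mk_rep c')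
  refine ⟨he.pt 2, ?_⟩
  have := he.apt
  rw [p0, p1', p3] at this
  exact this.rot.refl

/-- transitivity on pairs of different concurrent lines -/
theorem trans_conc {x y : YY k 3} {l l' m m' : LL k} (hne : l ≠ l') (hx : on x l)
    (hx' : on x l') (Hne : m ≠ m') (hy : on y m) (hy' : on y m') :
    ∃ g : S4 k, g • x = y ∧ g • l = m ∧ g • l' = m' := by
  obtain ⟨c, hcx, hc⟩ := exists_on_ne l x
  obtain ⟨c', hcx', hc'⟩ := exists_on_ne l' x
  obtain ⟨C, hCy, hC⟩ := exists_on_ne m y
  obtain ⟨C', hCy', hC'⟩ := exists_on_ne m' y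
  obtain ⟨x', h1⟩ := exists_Apt_mid (not_prp_of_conc hne hx hx' hc hc' hcx hcx')
    (prp_of_on hx hc) (prp_of_on hx' hc')
  obtain ⟨y', h2⟩ := exists_Apt_mid (not_prp_of_conc Hne hy hy' hC hC' hCy hCy')
    (prp_of_on hy hC) (prp_of_on hy' hC')
  obtain ⟨g, g1, g2, -, g4⟩ := h1.trans h2
  refine ⟨g, g1, on_unique hCy.symm ?_ ?_ hy hC, on_unique hCy'.symm ?_ ?_ hy' hC'⟩
  · rw [← g1]; exact (on_smul g).2 hx
  · rw [← g2]; exact (on_smul g).2 hc
  · rw [← g1]; exact (on_smul g).2 hx'
  · rw [← g4]; exact (on_smul g).2 hc'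

/-- opposite lines -/
def OppL (l m : LL k) : Prop := ∀ x, on x l → ¬ on x m

theorem exists_Apt_oppL {l m : LL k} (h : OppL l m) :
    ∃ b c b' c', Apt b c b' c' ∧ on b l ∧ on c l ∧ on b' m ∧ on c' m := by
  obtain ⟨b, c, hbc, hb, hc⟩ := exists_on_ne' l
  obtain ⟨b', hb', h1⟩ := exists_foot c m
  obtain ⟨c', hc', h2⟩ := exists_foot b m
  refine ⟨b, c, b', c', ⟨prp_of_on hb hc, h1, prp_of_on hb' hc', prp_symm h2, fun h3 => ?_,
    fun h3 => ?_⟩, hb, hc, hb', hc'⟩
  · exact h b' (on_of_prp hbc hb hc (prp_symm h3) (prp_symm h1)) hb'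
  · exact h c' (on_of_prp hbc hb hc (prp_symm h2) (prp_symm h3)) hc'

/-- transitivity on opposite pairs of lines -/
theorem trans_oppL {l m L M : LL k} (h : OppL l m) (H : OppL L M) :
    ∃ g : S4 k, g • l = L ∧ g • m = M := by
  obtain ⟨b, c, b', c', h1, hb, hc, hb', hc'⟩ := exists_Apt_oppL h
  obtain ⟨B, C, B', C', H1, HB, HC, HB', HC'⟩ := exists_Apt_oppL H
  obtain ⟨g, g1, g2, g3, g4⟩ := h1.trans H1
  have n1 : B ≠ C := fun e => H1.ob (by rw [e]; exact H1.cb)
  have n2 : B' ≠ C' := fun e => H1.oc (by rw [← e]; exact H1.cb)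
  refine ⟨g, on_unique n1 ?_ ?_ HB HC, on_unique n2 ?_ ?_ HB' HC'⟩
  · rw [← g1]; exact (on_smul g).2 hb
  · rw [← g2]; exact (on_smul g).2 hc
  · rw [← g3]; exact (on_smul g).2 hb'
  · rw [← g4]; exact (on_smul g).2 hc'

/-- two different points orthogonal to `x`, not orthogonal to each other -/
theorem exists_two (x : YY k 3) : ∃ c c', prp x c ∧ prp x c' ∧ c ≠ x ∧ c' ≠ x ∧ ¬ prp c c' := by
  obtain ⟨x', h⟩ := exists_not_prp x
  obtain ⟨c, c', h1⟩ := exists_Apt_opp h
  exact ⟨c, c', h1.bc, prp_symm h1.cb', fun e => h1.ob (by rw [← e]; exact h1.cb),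
    fun e => h1.ob (by rw [← e]; exact prp_symm h1.bc'), h1.oc⟩

/-- two different lines through every point -/
theorem exists_two_ln (x : YY k 3) : ∃ l m, l ≠ m ∧ on x l ∧ on x m := by
  obtain ⟨c, c', h1, h2, h3, h4, h5⟩ := exists_two x
  obtain ⟨l, hx, hc⟩ := exists_ln h3.symm h1
  obtain ⟨m, hx', hc'⟩ := exists_ln h4.symm h2
  exact ⟨l, m, fun e => h5 (prp_of_on hc (by rw [e]; exact hc')), hx, hx'⟩

/-- a point not on a given line, opposite to a given point -/
theorem exists_not_on (l : LL k) : ∃ x, ¬ on x l := by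
  obtain ⟨a, -, -, ha, -⟩ := exists_on_ne' l
  obtain ⟨b, hb⟩ := exists_not_prp a
  exact ⟨b, fun h => hb (prp_of_on ha h)⟩

/-- **connectedness** of the lines -/
theorem conL (l m : LL k) :
    Relation.ReflTransGen (fun l m : LL k => ∃ x, on x l ∧ on x m) l m := by
  obtain ⟨x, -, -, hx, -⟩ := exists_on_ne' l
  obtain ⟨y, hy, hxy⟩ := exists_foot x m
  by_cases h : x = y
  · exact Relation.ReflTransGen.single ⟨x, hx, h ▸ hy⟩
  · obtain ⟨n, hn, hn'⟩ := exists_ln h hxy
    exact (Relation.ReflTransGen.single (b := n) ⟨x, hx, hn⟩).tail ⟨y, hn', hy⟩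

/-- **connectedness** of the points -/
theorem conP (x y : YY k 3) :
    Relation.ReflTransGen (fun x y : YY k 3 => ∃ l : LL k, on x l ∧ on y l) x y := by
  obtain ⟨m, -, -, hm, -⟩ := exists_two_ln y
  obtain ⟨z, hz, hxz⟩ := exists_foot x m
  by_cases h : x = z
  · exact Relation.ReflTransGen.single ⟨m, h ▸ hz, hm⟩
  · obtain ⟨n, hn, hn'⟩ := exists_ln h hxz
    exact (Relation.ReflTransGen.single (b := z) ⟨n, hn, hn'⟩).tail ⟨m, hz, hm⟩

/-- a common neighbour of two points -/
theorem exists_common (x y : YY k 3) : ∃ z, prp x z ∧ prp z y := by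
  obtain ⟨m, -, -, hm, -⟩ := exists_two_ln y
  obtain ⟨z, hz, hxz⟩ := exists_foot x m
  exact ⟨z, hxz, prp_of_on hz hm⟩

theorem prp_iff_ort {x y : YY k 3} :
    prp x y ↔ Ort (RingHom.id k) (J4 k) (p1 x).1 (p1 y).1 := by
  have hx : (p1 x).1 = Submodule.span k {x.rep} := by
    change x.submodule = _
    rw [Projectivization.submodule_eq]
  have hy : (p1 y).1 = Submodule.span k {y.rep} := by
    change y.submodule = _
    rw [Projectivization.submodule_eq]
  rw [hx, hy, H370.Po.ort_span_left]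
  constructor
  · intro h z hz
    obtain ⟨a, rfl⟩ := Submodule.mem_span_singleton.1 hz
    have h' : om x.rep y.rep = 0 := h
    rw [hf_eq, om_smul_right, h', mul_zero]
  · intro h
    exact h y.rep (Submodule.mem_span_singleton_self _)

theorem prp_closed : IsClosed {p : YY k 3 × YY k 3 | prp p.1 p.2} := by
  have e : {p : YY k 3 × YY k 3 | prp p.1 p.2} =
      (fun p : YY k 3 × YY k 3 => (p1 p.1, p1 p.2)) ⁻¹'
        {q | Ort (RingHom.id k) (J4 k) q.1.1 q.2.1} := by
    ext p
    exact prp_iff_ort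
  rw [e]
  exact (H370.Po.ortG_closed continuous_id).preimage
    ((H644.Gr3.p1_cont.comp continuous_fst).prodMk (H644.Gr3.p1_cont.comp continuous_snd))

end apt

end Vale.Agent.P092.SP4
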