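import Vale.Agent.P092.H370.Fo5
import Vale.Agent.P092.H303.Form

/-!
P092, Team P, stages 2 and 3, block [CL-GEO] (helper370), part 1: geometry for the record
`CL.Geo`: pairs (point, maximal subspace) which are not incident, pairs of maximal subspaces,
isometries which fix all isotropic points. Every form of Witt index `r`.
-/

set_option linter.all false

open Matrix Module Set

namespace Vale.Agent.P092.H370.Cg

open Vale.Agent.P092.H303 (FormGroup)
open Vale.Agent.P092.H714.Cl
open Vale.Agent.P092.H714.Sg (Fm)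
open Vale.Agent.P092.H370.Po hiding trans_sing exists_extend exists_inc_ge exists_adj sing_sup_span
  trans_flags exists_prod con2 trans_SGr con exists_step exists_above trans_pair_col trans_flag
  exists_iso_prod ort_comm exists_closer
open Vale.Agent.P092.H370.Fo

variable {n : Type} [Fintype n] [DecidableEq n] {k : Type} [Field k]
  {σ : k →+* k} {ε : k} {J : Matrix n n k}

/-- **the dual move**, with its action on the orthogonal of `u` -/
theorem dual_move' (hF : Fm σ ε J) {u u' u'' : n → k} (hu : hf σ J u u = 0)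
    (hu' : hf σ J u' u' = 0) (hu'' : hf σ J u'' u'' = 0) (h1 : hf σ J u u' = 1)
    (h2 : hf σ J u u'' = 1) :
    ∃ g ∈ EU σ ε J, u ᵥ* g.1 = u ∧ u' ᵥ* g.1 = u'' ∧
      ∀ x, hf σ J x u = 0 → x ᵥ* g.1 = x - hf σ J x (u'' - u') • u := by
  have he := hF.eps
  have s1 : hf σ J u' u = ε := Fm.swap1 hF h1
  have s2 : hf σ J u'' u = ε := Fm.swap1 hF h2
  have h : EP σ ε J u (ε • (u'' - u')) (hf σ J u' u'') :=
    { uu := hu
      vu := by rw [hf_smul_left, hf_sub_left, s1, s2, sub_self, mul_zero]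
      vv := by
        rw [hf_smul_left, hf_smul_right, hf_sub_left, hf_sub_right, hf_sub_right, hu', hu'',
          hF.seps, ← hF.herm u' u'']
        linear_combination (-(hf σ J u'' u') - hf σ J u' u'') * he }
  refine ⟨_, ei_mem_EU h, ?_, ?_, fun x hx => ?_⟩
  · rw [vecMul_ei hF h, hu, hf_smul_right, hf_sub_right, h1, h2]
    module
  · rw [vecMul_ei hF h, s1, hf_smul_right, hf_sub_right, hu', sub_zero, hF.seps, smul_smul, he,
      one_smul]
    have e2 : ε * (ε * hf σ J u' u'') = hf σ J u' u'' := by rw [← mul_assoc, he, one_mul]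
    have e3 : ε * hf σ J u' u'' * ε = hf σ J u' u'' := by
      rw [mul_comm, ← mul_assoc, he, one_mul]
    rw [e2, e3]
    module
  · rw [vecMul_ei hF h, hx, hf_smul_right, hF.seps, ← mul_assoc, he, one_mul, zero_smul,
      add_zero, mul_zero, zero_smul, add_zero, sub_eq_add_neg, ← neg_smul]

/-- the part of a space orthogonal to a vector is a hyperplane -/
theorem finrank_inf_perp (hF : Fm σ ε J) {X : Submodule k (n → k)} {u v : n → k} (hv : v ∈ X)
    (huv : hf σ J u v ≠ 0) :
    finrank k ↥(X ⊓ perp σ J (Submodule.span k {u})) + 1 = finrank k X ∧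
      X = (X ⊓ perp σ J (Submodule.span k {u})) ⊔ Submodule.span k {v} := by
  have hm : ∀ y, y ∈ perp σ J (Submodule.span k {u}) ↔ hf σ J u y = 0 := by
    intro y
    rw [mem_perp]
    constructor
    · intro h
      exact h u (Submodule.mem_span_singleton_self u)
    · intro h x hx
      obtain ⟨a, rfl⟩ := Submodule.mem_span_singleton.1 hx
      rw [hf_smul_left, h, mul_zero]
  have hvn : v ∉ X ⊓ perp σ J (Submodule.span k {u}) := fun h => huv ((hm v).1 h.2)
  have e : X = (X ⊓ perp σ J (Submodule.span k {u})) ⊔ Submodule.span k {v} := by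
    refine le_antisymm (fun y hy => ?_) (sup_le inf_le_left
      ((Submodule.span_singleton_le_iff_mem _ _).2 hv))
    refine Submodule.mem_sup.2 ⟨y - σ (hf σ J u y / hf σ J u v) • v, ⟨?_, (hm _).2 ?_⟩,
      σ (hf σ J u y / hf σ J u v) • v, Submodule.smul_mem _ _ (Submodule.mem_span_singleton_self v),
      by abel⟩
    · exact X.sub_mem hy (X.smul_mem _ hv)
    · rw [hf_sub_right, hf_smul_right, hF.inv, div_mul_cancel₀ _ huv, sub_self]
  refine ⟨?_, e⟩
  conv_rhs => rw [e]
  rw [finrank_sup_span hvn]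

theorem mem_perp_span {u y : n → k} :
    y ∈ perp σ J (Submodule.span k {u}) ↔ hf σ J u y = 0 := by
  rw [mem_perp]
  constructor
  · intro h
    exact h u (Submodule.mem_span_singleton_self u)
  · intro h x hx
    obtain ⟨a, rfl⟩ := Submodule.mem_span_singleton.1 hx
    rw [hf_smul_left, h, mul_zero]

section wi

variable {r : ℕ} (hF : Wf σ ε J r)

include hF

/-- a maximal singular space which does not contain `u` has a vector which is not orthogonal to
`u` -/
theorem exists_not_orth {l : SGr σ J r} {u : n → k} (hu : hf σ J u u = 0) (hul : u ∉ l.S) :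
    ∃ v ∈ l.S, hf σ J u v = 1 := by
  by_contra hc
  have h0 : ∀ v ∈ l.S, hf σ J v u = 0 := by
    intro v hv
    by_contra h
    have h' : hf σ J u v ≠ 0 := fun h' => h (hF.fm.symm0 h')
    refine hc ⟨σ (hf σ J u v)⁻¹ • v, l.S.smul_mem _ hv, ?_⟩
    rw [hf_smul_right, hF.fm.inv, inv_mul_cancel₀ h']
  have h1 := hF.wi.2 _ (sing_sup_span hF.fo l.sing hu h0)
  rw [finrank_sup_span hul, l.dim] at h1
  omega

/-- the maximal singular space through `u` adjacent to `l` -/
theorem exists_prj {l : SGr σ J r} {u : n → k} (hu : hf σ J u u = 0) (hul : u ∉ l.S) :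
    ∃ m : SGr σ J r, m.S = (l.S ⊓ perp σ J (Submodule.span k {u})) ⊔ Submodule.span k {u} := by
  obtain ⟨v, hv, huv⟩ := exists_not_orth hF hu hul
  obtain ⟨h1, h2⟩ := finrank_inf_perp hF.fm (X := l.S) hv (by rw [huv]; exact one_ne_zero)
  have hn : u ∉ l.S ⊓ perp σ J (Submodule.span k {u}) := fun h => hul h.1
  refine ⟨SGr.mk' _ (sing_sup_span hF.fo (l.sing.mono inf_le_left) hu fun x hx => ?_) ?_, rfl⟩
  · exact hF.fm.symm0 (mem_perp_span.1 hx.2)
  · rw [finrank_sup_span hn, h1, l.dim]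

/-- **transitivity on non incident pairs (point, maximal singular space)** -/
theorem trans_nip {x x' : SGr σ J 1} {l l' : SGr σ J r} (h : ¬ Inc x l) (h' : ¬ Inc x' l') :
    ∃ g : FormGroup σ J, g.1 ∈ EU σ ε J ∧ g • x = x' ∧ g • l = l' := by
  obtain ⟨u, hu0, hu, rfl⟩ := exists_ptv x
  obtain ⟨u', hu0', hu', rfl⟩ := exists_ptv x'
  rw [inc_ptv] at h h'
  obtain ⟨m, hm⟩ := exists_prj hF hu h
  obtain ⟨m', hm'⟩ := exists_prj hF hu' h'
  have i1 : Inc (ptv u hu0 hu) m := by
    rw [inc_ptv, hm]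
    exact Submodule.mem_sup_right (Submodule.mem_span_singleton_self u)
  have i2 : Inc (ptv u' hu0' hu') m' := by
    rw [inc_ptv, hm']
    exact Submodule.mem_sup_right (Submodule.mem_span_singleton_self u')
  obtain ⟨g, hgE, hg1, hg2⟩ := trans_flag hF.fo i1 i2
  -- the image of `l`
  obtain ⟨l₁, hl₁⟩ : ∃ l₁, l₁ = g • l := ⟨_, rfl⟩
  have hn1 : u' ∉ l₁.S := by
    rw [← inc_ptv hu0' hu', ← hg1, hl₁]
    intro hc
    exact h ((inc_ptv hu0 hu).1 ((inc_smul g).1 hc))
  have hsub : l₁.S ⊓ perp σ J (Submodule.span k {u'}) ≤ m'.S := by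
    rintro y ⟨hy1, hy2'⟩
    have hy2 : hf σ J u' y = 0 := mem_perp_span.1 hy2'
    rw [← hg2, smul_S]
    have hy3 : y ᵥ* g.1.1 ∈ l.S := by
      have h3 := vecMul_mem_act (g := g.1) hy1
      rwa [hl₁, smul_S, act_act_inv] at h3
    have hy4 : y ᵥ* g.1.1 ∈ m.S := by
      rw [hm]
      refine Submodule.mem_sup_left ⟨hy3, mem_perp_span.2 ?_⟩
      -- `u'` moved back is a multiple of `u`
      have h5 : u' ᵥ* g.1.1 ∈ Submodule.span k {u} := by
        have h6 : u' ∈ (g • ptv u hu0 hu).S := by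
          rw [hg1]
          exact Submodule.mem_span_singleton_self u'
        have h7 := vecMul_mem_act (g := g.1) h6
        rwa [smul_S, act_act_inv] at h7
      obtain ⟨a, ha⟩ := Submodule.mem_span_singleton.1 h5
      have h8 : hf σ J (u' ᵥ* g.1.1) (y ᵥ* g.1.1) = 0 := by
        rw [mem_formGroup.1 g.2, hy2]
      have ha0 : a ≠ 0 := by
        rintro rfl
        rw [zero_smul] at ha
        apply hu0'
        refine vecMul_inj g.1 ?_
        change u' ᵥ* g.1.1 = 0 ᵥ* g.1.1
        rw [← ha, zero_vecMul]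
      rw [← ha, hf_smul_left] at h8
      exact (mul_eq_zero.1 h8).resolve_left ha0
    have h9 := vecMul_mem_act (g := g.1⁻¹) hy4
    rwa [vecMul_cancel_inv] at h9
  obtain ⟨v, hv, huv⟩ := exists_not_orth hF hu' hn1
  obtain ⟨v', hv', huv'⟩ := exists_not_orth hF hu' h'
  obtain ⟨g₂, hg₂E, a1, a2, a3⟩ := dual_move' hF.fm hu' (l₁.sing v hv v hv)
    (l'.sing v' hv' v' hv') huv huv'
  have hg₂F := EU_le hF.fm hg₂E
  obtain ⟨-, e1⟩ := finrank_inf_perp hF.fm hv (by rw [huv]; exact one_ne_zero)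
  obtain ⟨-, e2⟩ := finrank_inf_perp hF.fm hv' (by rw [huv']; exact one_ne_zero)
  have hle : act g₂ l₁.S ≤ l'.S := by
    rw [e1, act_sup, act_span, a2]
    refine sup_le ?_ ((Submodule.span_singleton_le_iff_mem _ _).2 hv')
    intro z hz
    obtain ⟨y, hy, rfl⟩ := mem_act.1 hz
    have hy2 := mem_perp_span.1 hy.2
    have hyu : hf σ J y u' = 0 := hF.fm.symm0 hy2
    have e3 := a3 y hyu
    -- the image lies in `m'`
    have hym : y ᵥ* g₂.1 ∈ m'.S := by
      rw [e3]
      refine m'.S.sub_mem (hsub hy) (m'.S.smul_mem _ ?_)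
      rw [hm']
      exact Submodule.mem_sup_right (Submodule.mem_span_singleton_self u')
    have hyv : hf σ J (y ᵥ* g₂.1) v' = 0 := by
      rw [← a2, mem_formGroup.1 hg₂F]
      exact l₁.sing y hy.1 v hv
    rw [hm'] at hym
    obtain ⟨w, hw, c, hc, e4⟩ := Submodule.mem_sup.1 hym
    obtain ⟨a, rfl⟩ := Submodule.mem_span_singleton.1 hc
    have hwv : hf σ J w v' = 0 := l'.sing w hw.1 v' hv'
    rw [← e4, hf_add_left, hf_smul_left, hwv, huv', zero_add, mul_one] at hyv
    rw [← e4, hyv, zero_smul, add_zero]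
    exact hw.1
  refine ⟨⟨g₂⁻¹, inv_mem hg₂F⟩ * g, mul_mem (inv_mem hg₂E) hgE, ?_, ?_⟩
  · rw [mul_smul, hg1]
    refine SGr.ext ?_
    rw [smul_S]
    change act (g₂⁻¹)⁻¹ (Submodule.span k {u'}) = Submodule.span k {u'}
    rw [inv_inv, act_span, a1]
  · rw [mul_smul, ← hl₁]
    refine SGr.eq_of_le ?_
    rw [smul_S]
    change act (g₂⁻¹)⁻¹ l₁.S ≤ l'.S
    rw [inv_inv]
    exact hle

end wi

/-! ### Pairs -/

/-- a vector of a space of dimension at least two, orthogonal to `u` -/
theorem exists_orth_mem (hF : Fm σ ε J) {Y : Submodule k (n → k)} (hY : 2 ≤ finrank k Y)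
    (u : n → k) : ∃ v ∈ Y, v ≠ 0 ∧ hf σ J u v = 0 := by
  by_cases h : ∀ y ∈ Y, hf σ J u y = 0
  · have hb : Y ≠ ⊥ := by
      rintro rfl
      rw [finrank_bot] at hY
      omega
    obtain ⟨v, hv, hv0⟩ := Submodule.exists_mem_ne_zero_of_ne_bot hb
    exact ⟨v, hv, hv0, h v hv⟩
  · push Not at h
    obtain ⟨y, hy, hy0⟩ := h
    obtain ⟨h1, -⟩ := finrank_inf_perp hF hy hy0
    have hb : Y ⊓ perp σ J (Submodule.span k {u}) ≠ ⊥ := by
      intro hb
      rw [hb, finrank_bot] at h1
      omega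
    obtain ⟨v, hv, hv0⟩ := Submodule.exists_mem_ne_zero_of_ne_bot hb
    exact ⟨v, hv.1, hv0, mem_perp_span.1 hv.2⟩

/-- two singular spaces of dimension at least two: independent orthogonal vectors -/
theorem exists_indep (hF : Fm σ ε J) {X Y : Submodule k (n → k)} (hX : 2 ≤ finrank k X)
    (hsY : Sing σ J Y) (hY : 2 ≤ finrank k Y) :
    ∃ u ∈ X, ∃ v ∈ Y, u ≠ 0 ∧ v ∉ Submodule.span k {u} ∧ hf σ J u v = 0 := by
  by_cases hb : X ⊓ Y = ⊥
  · have hXb : X ≠ ⊥ := by
      rintro rfl
      rw [finrank_bot] at hX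
      omega
    obtain ⟨u, hu, hu0⟩ := Submodule.exists_mem_ne_zero_of_ne_bot hXb
    obtain ⟨v, hv, hv0, huv⟩ := exists_orth_mem hF hY u
    refine ⟨u, hu, v, hv, hu0, fun h => hv0 ?_, huv⟩
    have h1 : v ∈ X ⊓ Y := ⟨(Submodule.span_singleton_le_iff_mem _ _).2 hu h, hv⟩
    rwa [hb, Submodule.mem_bot] at h1
  · obtain ⟨u, hu, hu0⟩ := Submodule.exists_mem_ne_zero_of_ne_bot hb
    have h1 : ¬ Y ≤ Submodule.span k {u} := by
      intro h
      have h2 := Submodule.finrank_mono h
      rw [finrank_span_singleton hu0] at h2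
      omega
    obtain ⟨v, hv, hvu⟩ := SetLike.not_le_iff_exists.1 h1
    exact ⟨u, hu.1, v, hv, hu0, hvu, hsY u hu.2 v hv⟩

/-- the Eichler element of two orthogonal isotropic vectors -/
theorem ep_iso (hF : Fm σ ε J) {u v : n → k} (hu : hf σ J u u = 0) (hv : hf σ J v v = 0)
    (huv : hf σ J u v = 0) (s : k) : EP σ ε J u (s • v) 0 where
  uu := hu
  vu := by rw [hf_smul_left, hF.symm0 huv, mul_zero]
  vv := by
    rw [hf_smul_left, hf_smul_right, hv, mul_zero, mul_zero, map_zero, mul_zero, add_zero,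
      add_zero]

/-- it moves vectors along `u` and `v` -/
theorem vecMul_iso (hF : Fm σ ε J) {u v : n → k} (hu : hf σ J u u = 0) (hv : hf σ J v v = 0)
    (huv : hf σ J u v = 0) (s : k) (x : n → k) :
    x ᵥ* (ei σ ε J u (s • v) 0).1 =
      x + (hf σ J x u * s) • v - (ε * (σ s * hf σ J x v)) • u := by
  rw [vecMul_ei hF (ep_iso hF hu hv huv s), hf_smul_right, mul_zero, zero_mul, zero_smul, add_zero,
    smul_smul, sub_eq_add_neg, ← neg_smul]

/-- it preserves every singular space which contains `u` or `v` -/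
theorem act_iso (hF : Fm σ ε J) {u v : n → k} (hu : hf σ J u u = 0) (hv : hf σ J v v = 0)
    (huv : hf σ J u v = 0) (s : k) {X : Submodule k (n → k)} (hX : Sing σ J X)
    (h : u ∈ X ∨ v ∈ X) : act (ei σ ε J u (s • v) 0) X = X := by
  refine Submodule.eq_of_le_of_finrank_eq ?_ (finrank_act _ _)
  intro z hz
  obtain ⟨y, hy, rfl⟩ := mem_act.1 hz
  rw [vecMul_iso hF hu hv huv]
  rcases h with h | h
  · rw [hX y hy u h, zero_mul, zero_smul, add_zero]
    exact X.sub_mem hy (X.smul_mem _ h)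
  · rw [hX y hy v h, mul_zero, mul_zero, zero_smul, sub_zero]
    exact X.add_mem hy (X.smul_mem _ h)

/-- coordinates which see it -/
theorem exists_see (hF : Fm σ ε J) {u v : n → k} (hu0 : u ≠ 0)
    (hvu : v ∉ Submodule.span k {u}) : ∃ z t : n → k, hf σ J z u = 1 ∧ hf σ J u t = 0 ∧
      hf σ J v t = 1 := by
  obtain ⟨t, ht1, ht2⟩ := hF.sep hvu
  obtain ⟨y, hy1, -⟩ := hF.sep (Y := ⊥) (u := u) (by rwa [Submodule.mem_bot])
  refine ⟨ε • y, t, ?_, ht2 u (Submodule.mem_span_singleton_self u), ht1⟩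
  rw [hf_smul_left, hF.herm, hy1, map_one, mul_one, hF.eps]

theorem see_iso (hF : Fm σ ε J) {u v z t : n → k} (hu : hf σ J u u = 0) (hv : hf σ J v v = 0)
    (huv : hf σ J u v = 0) (h1 : hf σ J z u = 1) (h2 : hf σ J u t = 0) (h3 : hf σ J v t = 1)
    (s : k) : hf σ J (z ᵥ* (ei σ ε J u (s • v) 0).1) t = hf σ J z t + s := by
  rw [vecMul_iso hF hu hv huv, hf_sub_left, hf_add_left, hf_smul_left, hf_smul_left, h1, h2, h3]
  ring

/-! ### Isometries which fix all isotropic points -/

/-- **an element which fixes all isotropic points is a scalar** -/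
theorem scalar_of_fix {r : ℕ} (hF : Wf σ ε J r) (hr : 2 ≤ r) {g : SpecialLinearGroup n k}
    (h : ∀ v, v ≠ 0 → hf σ J v v = 0 → ∃ a : k, v ᵥ* g.1 = a • v) :
    ∃ a : k, g.1 = a • (1 : Matrix n n k) := by
  have hFm := hF.fm
  -- the factor is constant on orthogonal isotropic vectors
  have key : ∀ v w : n → k, v ≠ 0 → w ≠ 0 → hf σ J v v = 0 → hf σ J w w = 0 →
      hf σ J v w = 0 → ∀ a b : k, v ᵥ* g.1 = a • v → w ᵥ* g.1 = b • w → a = b := by
    intro v w hv0 hw0 hv hw hvw a b ha hb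
    by_cases hs : w ∈ Submodule.span k {v}
    · obtain ⟨c, rfl⟩ := Submodule.mem_span_singleton.1 hs
      rw [smul_vecMul, ha, smul_smul, smul_smul] at hb
      have h1 := smul_left_injective k hv0 hb
      have hc0 : c ≠ 0 := by
        rintro rfl
        exact hw0 (zero_smul _ _)
      rw [mul_comm b c] at h1
      exact mul_left_cancel₀ hc0 h1
    · have hs0 : v + w ≠ 0 := by
        intro h0
        apply hs
        rw [eq_neg_of_add_eq_zero_right h0]
        exact Submodule.neg_mem _ (Submodule.mem_span_singleton_self v)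
      have hvw' : hf σ J (v + w) (v + w) = 0 := by
        rw [hf_add_left, hf_add_right, hf_add_right, hv, hw, hvw, hFm.symm0 hvw]
        ring
      obtain ⟨c, hc⟩ := h _ hs0 hvw'
      rw [add_vecMul, ha, hb, smul_add] at hc
      have e1 : (b - c) • w = (c - a) • v := by
        rw [sub_smul, sub_smul, sub_eq_sub_iff_add_eq_add, add_comm (b • w) (a • v), hc,
          add_comm]
      have hbc : b = c := by
        by_contra hne
        apply hs
        rw [← one_smul k w, ← inv_mul_cancel₀ (sub_ne_zero.2 hne), mul_smul, e1]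
        exact Submodule.smul_mem _ _ (Submodule.smul_mem _ _ (Submodule.mem_span_singleton_self v))
      rw [hbc, sub_self, zero_smul] at e1
      have h2 : c - a = 0 := by
        by_contra hne
        exact (smul_ne_zero hne hv0) e1.symm
      rw [hbc]
      exact (sub_eq_zero.1 h2).symm
  -- all isotropic vectors have the same factor
  obtain ⟨u, hu0, hu⟩ := hFm.iso
  obtain ⟨a, ha⟩ := h u hu0 hu
  have all : ∀ v, hf σ J v v = 0 → v ᵥ* g.1 = a • v := by
    intro v hv
    by_cases hv0 : v = 0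
    · rw [hv0, zero_vecMul, smul_zero]
    obtain ⟨b, hb⟩ := h v hv0 hv
    obtain ⟨Y, hY, hYd⟩ := hF.wi.1
    obtain ⟨m, hm⟩ := exists_inc_ge hF.fo (le_refl 1 |>.trans (by omega : 1 ≤ r)) le_rfl
      (ptv u hu0 hu) (SGr.mk' Y hY hYd)
    obtain ⟨w, hw, hw0, hvw⟩ := exists_orth_mem hFm (Y := m.S) (by rw [m.dim]; exact hr) v
    have hum : u ∈ m.S := (inc_ptv hu0 hu).1 hm
    have hww := m.sing w hw w hw
    obtain ⟨c, hc⟩ := h w hw0 hww
    have e1 := key u w hu0 hw0 hu hww (m.sing u hum w hw) a c ha hc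
    have e2 := key v w hv0 hw0 hv hww hvw b c hb hc
    rw [hb, e2, e1]
  -- isotropic vectors span
  have span1 : ∀ y, hf σ J u y ≠ 0 → y ᵥ* g.1 = a • y := by
    intro y hy
    obtain ⟨α, hα⟩ := hFm.corr hu hy
    have e1 := all _ hα
    rw [add_vecMul, smul_vecMul, ha, smul_add, smul_comm α a u] at e1
    exact add_right_cancel e1
  have span2 : ∀ y, y ᵥ* g.1 = a • y := by
    intro y
    by_cases hy : hf σ J u y = 0
    · obtain ⟨z, hz⟩ := hFm.nondeg u hu0
      have e1 := span1 z hz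
      have e2 := span1 (y + z) (by rw [hf_add_right, hy, zero_add]; exact hz)
      rw [add_vecMul, e1, smul_add] at e2
      exact add_right_cancel e2
    · exact span1 y hy
  refine ⟨a, ?_⟩
  ext i j
  have h1 := congrFun (span2 (Pi.single i 1)) j
  rw [single_one_vecMul] at h1
  change g.1 i j = _ at h1
  change g.1 i j = _
  rw [h1, Pi.smul_apply, Matrix.smul_apply, Matrix.one_apply, Pi.single_apply]
  simp only [eq_comm]

end Vale.Agent.P092.H370.Cg
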