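import Vale.Agent.P092.H370.Cg1
import Vale.Agent.P092.H631.P2Prox

/-!
P092, Team P, stages 2 and 3, block [CL-GEO] (helper370), part 2: base objects of the group of the
form `hyp r ε J₀` (coordinate singular spaces, walls, root groups).
-/

set_option linter.all false

open Matrix Module Set Topology Filter

namespace Vale.Agent.P092.H370.Cg

open Vale.Agent.P092.H303 (FormGroup Idx hyp torF torF_mem dgF hypAt_l hypAt_r)
open Vale.Agent.P092.H714.Cl
open Vale.Agent.P092.H714.Sg (Fm)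
open Vale.Agent.P092.H370.Po hiding trans_sing exists_extend exists_inc_ge exists_adj sing_sup_span
  trans_flags exists_prod con2 trans_SGr con exists_step exists_above trans_pair_col trans_flag
  exists_iso_prod ort_comm exists_closer
open Vale.Agent.P092.H370.Fo
open Vale.Agent.P092.H100.Gr (Gr Fr sp)
open Vale.Agent.P092.H631.P2 (iL iL_inj cf mem_cf)

/-! ### Coordinate singular spaces -/

section alg

variable {n : Type} [Fintype n] [DecidableEq n] {k : Type} [Field k]
  {σ : k →+* k} {ε : k} {J : Matrix n n k} {j : ℕ}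

theorem hf_supp {x y : n → k} (h : ∀ a b, x a ≠ 0 → y b ≠ 0 → J a b = 0) : hf σ J x y = 0 := by
  unfold hf
  refine Finset.sum_eq_zero fun a _ => ?_
  by_cases ha : x a = 0
  · rw [ha, zero_mul]
  · have h0 : (J *ᵥ fun i => σ (y i)) a = 0 := by
      refine Finset.sum_eq_zero fun b _ => ?_
      by_cases hb : y b = 0
      · change J a b * σ (y b) = 0
        rw [hb, map_zero, mul_zero]
      · change J a b * σ (y b) = 0
        rw [h a b ha hb, zero_mul]
    rw [h0, mul_zero]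

theorem cf_supp {A : Fin j → n} (hA : Function.Injective A) {x : n → k} :
    x ∈ (sp (cf (k := k) A hA)).1 ↔ ∀ i, (∀ a, A a ≠ i) → x i = 0 := by
  refine ⟨fun h i hi => ?_, mem_cf hA⟩
  have hle : (sp (cf (k := k) A hA)).1 ≤ LinearMap.ker (LinearMap.proj (R := k) i) := by
    change Submodule.span k (range (cf (k := k) A hA).1) ≤ _
    rw [Submodule.span_le]
    rintro _ ⟨a, rfl⟩
    change (Pi.single (A a) (1 : k) : n → k) i = 0
    rw [Pi.single_eq_of_ne (hi a).symm]
  exact hle h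

/-- coordinate singular spaces -/
def cs (σ : k →+* k) (J : Matrix n n k) (A : Fin j → n) (hA : Function.Injective A)
    (h0 : ∀ a b, J (A a) (A b) = 0) : SGr σ J j :=
  ⟨sp (cf A hA), by
    intro x hx y hy
    rw [cf_supp] at hx hy
    refine hf_supp fun a b ha hb => ?_
    obtain ⟨a', rfl⟩ : ∃ a', A a' = a := by
      by_contra hc
      push Not at hc
      exact ha (hx a hc)
    obtain ⟨b', rfl⟩ : ∃ b', A b' = b := by
      by_contra hc
      push Not at hc
      exact hb (hy b hc)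
    exact h0 a' b'⟩

theorem mem_cs {A : Fin j → n} {hA : Function.Injective A} {h0 : ∀ a b, J (A a) (A b) = 0}
    {x : n → k} : x ∈ (cs σ J A hA h0).S ↔ ∀ i, (∀ a, A a ≠ i) → x i = 0 := cf_supp hA

/-- a block triangular element fixes a coordinate space -/
theorem smul_cs {A : Fin j → n} {hA : Function.Injective A} {h0 : ∀ a b, J (A a) (A b) = 0}
    {g : FormGroup σ J} (h : ∀ a i, (∀ b, A b ≠ i) → g.1.1 (A a) i = 0) :
    g • cs σ J A hA h0 = cs σ J A hA h0 := by
  have e : g⁻¹ • cs σ J A hA h0 = cs σ J A hA h0 := by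
    refine SGr.eq_of_le fun z hz => ?_
    rw [smul_S] at hz
    obtain ⟨y, hy, rfl⟩ := mem_act.1 hz
    rw [mem_cs] at hy ⊢
    intro i hi
    have e1 : (g⁻¹).1⁻¹ = g.1 := inv_inv g.1
    rw [e1]
    change ∑ l, y l * g.1.1 l i = 0
    refine Finset.sum_eq_zero fun l _ => ?_
    by_cases hl : ∃ a, A a = l
    · obtain ⟨a, rfl⟩ := hl
      rw [h a i hi, mul_zero]
    · push Not at hl
      rw [hy l hl, zero_mul]
  rwa [inv_smul_eq_iff, eq_comm] at e

theorem smul_cs_diag {A : Fin j → n} {hA : Function.Injective A}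
    {h0 : ∀ a b, J (A a) (A b) = 0} {g : FormGroup σ J} {d : n → k} (h : g.1.1 = diagonal d) :
    g • cs σ J A hA h0 = cs σ J A hA h0 := by
  refine smul_cs fun a i hi => ?_
  rw [h, diagonal_apply_ne _ (hi a)]

end alg

section base

variable {k : Type} [Field k] {r j : ℕ} {ι : Type} [Fintype ι] [DecidableEq ι]
  {σ : k →+* k} {ε : k} {J₀ : Matrix ι ι k}

theorem hyp_pp (i i' : Fin r) : hyp r ε J₀ (.inl (.inl i)) (.inl (.inl i')) = 0 := by
  rw [(hypAt_l r ε J₀ i).row, if_neg (by simp)]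

theorem hyp_mm (i i' : Fin r) : hyp r ε J₀ (.inl (.inr i)) (.inl (.inr i')) = 0 := by
  rw [(hypAt_r r ε J₀ i).row, if_neg (by simp)]

theorem hyp_pm {i i' : Fin r} (h : i ≠ i') : hyp r ε J₀ (.inl (.inl i)) (.inl (.inr i')) = 0 := by
  rw [(hypAt_l r ε J₀ i).row, if_neg (by simpa using h.symm)]

theorem hyp_mp {i i' : Fin r} (h : i ≠ i') : hyp r ε J₀ (.inl (.inr i)) (.inl (.inl i')) = 0 := by
  rw [(hypAt_r r ε J₀ i).row, if_neg (by simpa using h.symm)]

/-- the base space `⟨e_1, …, e_j⟩` -/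
def bs (σ : k →+* k) (ε : k) (J₀ : Matrix ι ι k) {r j : ℕ} (hj : j ≤ r) :
    SGr σ (hyp r ε J₀) j :=
  cs σ (hyp r ε J₀) (iL ι hj) (iL_inj hj) fun a b => hyp_pp _ _

theorem mem_bs {hj : j ≤ r} {x : Idx r ι → k} :
    x ∈ (bs σ ε J₀ hj).S ↔ ∀ i, (∀ a, iL ι hj a ≠ i) → x i = 0 := mem_cs

theorem bs_inc {i : ℕ} {hi : i ≤ r} {hj : j ≤ r} (hij : i ≤ j) :
    Inc (bs σ ε J₀ hi) (bs σ ε J₀ hj) := by
  intro x hx
  rw [mem_bs] at hx ⊢
  intro l hl
  refine hx l fun a ha => hl ⟨a.1, a.2.trans_le hij⟩ ?_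
  rw [← ha]
  rfl

/-- the index of the opposite base point -/
def iN (ι : Type) (r : ℕ) (a : Fin 1) : Idx (r + 1) ι := .inl (.inr 0)

/-- the opposite base point `⟨e_{-1}⟩` -/
def pn (σ : k →+* k) (ε : k) (J₀ : Matrix ι ι k) (r : ℕ) : SGr σ (hyp (r + 1) ε J₀) 1 :=
  cs σ (hyp (r + 1) ε J₀) (iN ι r) (fun a b _ => Subsingleton.elim a b) fun a b => hyp_mm _ _

/-- the indices of the adjacent base space -/
def iA (ι : Type) (r : ℕ) (a : Fin (r + 1)) : Idx (r + 1) ι :=
  if a = 0 then .inl (.inr 0) else .inl (.inl a)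

theorem iA_inj : Function.Injective (iA ι r) := by
  intro a b h
  unfold iA at h
  by_cases ha : a = 0
  · by_cases hb : b = 0
    · rw [ha, hb]
    · rw [if_pos ha, if_neg hb] at h
      simp at h
  · by_cases hb : b = 0
    · rw [if_neg ha, if_pos hb] at h
      simp at h
    · rw [if_neg ha, if_neg hb] at h
      simpa using h

/-- the adjacent base space `⟨e_{-1}, e_2, …, e_r⟩` -/
def am (σ : k →+* k) (ε : k) (J₀ : Matrix ι ι k) (r : ℕ) : SGr σ (hyp (r + 1) ε J₀) (r + 1) :=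
  cs σ (hyp (r + 1) ε J₀) (iA ι r) iA_inj fun a b => by
    unfold iA
    by_cases ha : a = 0
    · by_cases hb : b = 0
      · rw [if_pos ha, if_pos hb, hyp_mm]
      · rw [if_pos ha, if_neg hb, hyp_mp (Ne.symm hb)]
    · by_cases hb : b = 0
      · rw [if_neg ha, if_pos hb, hyp_pm ha]
      · rw [if_neg ha, if_neg hb, hyp_pp]

theorem single_mem_cs {n : Type} [Fintype n] [DecidableEq n] {J : Matrix n n k} {A : Fin j → n}
    {hA : Function.Injective A} {h0 : ∀ a b, J (A a) (A b) = 0} (a : Fin j) :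
    (Pi.single (A a) 1 : n → k) ∈ (cs σ J A hA h0).S := by
  rw [mem_cs]
  intro i hi
  rw [Pi.single_eq_of_ne (hi a).symm]

theorem pn_not_inc : ¬ Inc (pn σ ε J₀ r) (bs σ ε J₀ (le_refl (r + 1))) := by
  intro h
  have h1 := h (single_mem_cs (0 : Fin 1))
  rw [mem_bs] at h1
  have h2 := h1 (.inl (.inr 0)) fun a ha => by simp [iL] at ha
  rw [show iN ι r 0 = .inl (.inr 0) from rfl, Pi.single_eq_same] at h2
  exact one_ne_zero h2

theorem p0_not_inc : ¬ Inc (bs σ ε J₀ (r := r + 1) (j := 1) (by omega)) (am σ ε J₀ r) := by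
  intro h
  have h1 := h (single_mem_cs (0 : Fin 1))
  have h2 := mem_cs.1 h1 (.inl (.inl 0)) fun a ha => by
    unfold iA at ha
    by_cases h0 : a = 0
    · rw [if_pos h0] at ha
      simp at ha
    · rw [if_neg h0] at ha
      simp only [Sum.inl.injEq] at ha
      exact h0 ha
  have e : iL ι (r := r + 1) (by omega : 1 ≤ r + 1) 0 = .inl (.inl 0) := rfl
  rw [e, Pi.single_eq_same] at h2
  exact one_ne_zero h2

end base

end Vale.Agent.P092.H370.Cg
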