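import Vale.Agent.P092.H370.Cg3
import Vale.Agent.P092.H631.CLProx
import Vale.Agent.P092.H44.HMpE

/-!
P092, Team P, stages 2 and 3, block [CL-GEO] (helper370), part 4: the fields of `CL.Geo` for the
letters of `CL/Lt` (flags, non incident pairs, pair stabilisers, scalars, no invariant states).
-/

set_option linter.all false

open Matrix Module Set Topology Filter

namespace Vale.Agent.P092.H370.Cg

open Vale.Agent.P092.H303 (FormGroup Idx hyp torF torF_mem dgF root2 hypAt_l hypAt_r)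
open Vale.Agent.P092.H714.Cl
open Vale.Agent.P092.H714.Sg (Fm)
open Vale.Agent.P092.H370.Po hiding trans_sing exists_extend exists_inc_ge exists_adj sing_sup_span
  trans_flags exists_prod con2 trans_SGr con exists_step exists_above trans_pair_col trans_flag
  exists_iso_prod ort_comm exists_closer
open Vale.Agent.P092.H370.Fo
open Vale.Agent.P092.H100.Gr (Gr Fr sp)
open Vale.Agent.P092.H631.P2 (iL iL_inj cf mem_cf)
open Vale.Agent.P092.H514.NI (Covol)

section any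

variable {n : Type} [Fintype n] [DecidableEq n] {k : Type} [Field k]
  {σ : k →+* k} {ε : k} {J : Matrix n n k}

theorem conj_fix {α : Type} {S : Type} [Group S] [MulAction S α] {g h : S} {m l : α}
    (h1 : g • m = l) (h2 : h • m = m) : (g * h * g⁻¹) • l = l := by
  rw [← h1, mul_smul, inv_smul_smul, mul_smul, h2]

/-- opposite points -/
theorem opp_of_not_col (hF : Fm σ ε J) {x y : SGr σ J 1} (h : ¬ Col x y) :
    Fo.Opp σ J x.S y.S := by
  obtain ⟨v, h0, hv, rfl⟩ := exists_ptv x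
  obtain ⟨w, h0', hw, rfl⟩ := exists_ptv y
  rw [col_ptv] at h
  have h' := Fm.symm_ne0 hF h
  constructor
  · intro y hy hx
    obtain ⟨a, rfl⟩ := Submodule.mem_span_singleton.1 hy
    have := hx v (Submodule.mem_span_singleton_self v)
    rw [hf_smul_right, mul_eq_zero, map_eq_zero] at this
    rw [this.resolve_right h, zero_smul]
  · intro y hy hx
    obtain ⟨a, rfl⟩ := Submodule.mem_span_singleton.1 hy
    have := hx w (Submodule.mem_span_singleton_self w)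
    rw [hf_smul_right, mul_eq_zero, map_eq_zero] at this
    rw [this.resolve_right h', zero_smul]

/-- transitivity on opposite pairs of points -/
theorem trans_not_col (hF : Fo σ ε J) {x y x' y' : SGr σ J 1} (h : ¬ Col x y)
    (h' : ¬ Col x' y') :
    ∃ g : FormGroup σ J, g.1 ∈ EU σ ε J ∧ g • x = x' ∧ g • y = y' := by
  obtain ⟨g, hg, h1, h2⟩ := trans_opp hF x'.sing y'.sing x.sing y.sing
    (opp_of_not_col hF.fm h') (opp_of_not_col hF.fm h) (x'.dim.trans x.dim.symm)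
    (x'.dim.trans y'.dim.symm) (x.dim.trans y.dim.symm)
  exact ⟨⟨g, EU_le hF.fm hg⟩, hg, SGr.ext (by rw [smul_S, ← h1, act_inv_act]),
    SGr.ext (by rw [smul_S, ← h2, act_inv_act])⟩

/-- the Eichler element fixes singular spaces -/
theorem smul_iso (hF : Fm σ ε J) {u v : n → k} (hu : hf σ J u u = 0) (hv : hf σ J v v = 0)
    (huv : hf σ J u v = 0) (s : k) {j : ℕ} {X : SGr σ J j} (h : u ∈ X.S ∨ v ∈ X.S) :
    (⟨ei σ ε J u (s • v) 0, ei_mem hF (ep_iso hF hu hv huv s)⟩ : FormGroup σ J) • X = X := by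
  rw [smul_eq_iff_eq_inv_smul]
  refine SGr.ext ?_
  rw [smul_S]
  change X.S = act (ei σ ε J u (s • v) 0)⁻¹⁻¹ X.S
  rw [inv_inv, act_iso hF hu hv huv s X.sing h]

end any

section unb

variable {n : Type} [Fintype n] [DecidableEq n] {k : Type} [NontriviallyNormedField k]
  {σ : k →+* k} {ε : k} {J : Matrix n n k} {nm : FormGroup σ J → ℝ}

/-- two singular spaces which contain independent orthogonal vectors: their common stabiliser is
unbounded -/
theorem unb_iso (hF : Fm σ ε J) (hc : ∀ C : ℝ, IsCompact {g : FormGroup σ J | nm g ≤ C})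
    {i j : ℕ} {X : SGr σ J i} {Y : SGr σ J j} {u v : n → k} (hu : hf σ J u u = 0)
    (hv : hf σ J v v = 0) (huv : hf σ J u v = 0) (hvu : v ∉ Submodule.span k {u}) (hu0 : u ≠ 0)
    (hX : u ∈ X.S ∨ v ∈ X.S) (hY : u ∈ Y.S ∨ v ∈ Y.S) (C : ℝ) :
    ∃ g : FormGroup σ J, g • X = X ∧ g • Y = Y ∧ C ≤ nm g := by
  obtain ⟨z, t, h1, h2, h3⟩ := exists_see hF hu0 hvu
  have hcont : Continuous fun g : FormGroup σ J => hf σ J (z ᵥ* g.1.1) t := by
    have e : Continuous fun g : FormGroup σ J => g.1.1 :=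
      (jF_ind (G := FormGroup σ J)).continuous
    change Continuous fun g : FormGroup σ J => (z ᵥ* g.1.1) ⬝ᵥ (J *ᵥ fun i => σ (t i))
    refine continuous_finset_sum _ fun a _ => ?_
    refine Continuous.mul ?_ continuous_const
    change Continuous fun g : FormGroup σ J => ∑ b, z b * g.1.1 b a
    refine continuous_finset_sum _ fun b _ => continuous_const.mul ?_
    exact (continuous_apply_apply b a).comp e
  obtain ⟨s, hs⟩ := unb_see hc hcont
    (ψ := fun s => ⟨ei σ ε J u (s • v) 0, ei_mem hF (ep_iso hF hu hv huv s)⟩)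
    (c := hf σ J z t) (fun s => see_iso hF hu hv huv h1 h2 h3 s) C
  exact ⟨_, smul_iso hF hu hv huv s hX, smul_iso hF hu hv huv s hY, hs⟩

end unb

/-! ### The fields -/

section fields

variable {k : Type} [NontriviallyNormedField k] {ι : Type} [Fintype ι] [DecidableEq ι]
  {s : ℕ} {σ : k →+* k} {ε : k} {J₀ : Matrix ι ι k}

theorem p0_in_m0 : Inc (CL.p0 : SGr σ (hyp (s + 2) ε J₀) 1) (CL.m0 : SGr σ (hyp (s + 2) ε J₀) (s + 2)) := by
  rw [p0_eq, m0_eq]
  exact bs_inc (by omega)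

variable (hF : Frm σ ε (hyp (s + 2) ε J₀)) (hW : WI σ (hyp (s + 2) ε J₀) (s + 2))

include hF

theorem geo_flag (x : SGr σ (hyp (s + 2) ε J₀) 1) (l : SGr σ (hyp (s + 2) ε J₀) (s + 2)) (h : Inc x l) :
    ∃ g : FormGroup σ (hyp (s + 2) ε J₀), g • CL.p0 = x ∧ g • CL.m0 = l := by
  obtain ⟨g, -, h1, h2⟩ := trans_flag hF.fo (p0_in_m0 (σ := σ) (ε := ε) (J₀ := J₀)) h
  exact ⟨g, h1, h2⟩

omit hF in
theorem geo_ex2 (l : SGr σ (hyp (s + 2) ε J₀) (s + 2)) : ∃ x : SGr σ (hyp (s + 2) ε J₀) 1, Inc x l :=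
  exists_inc_le (by omega) l

theorem geo_ex1 (x : SGr σ (hyp (s + 2) ε J₀) 1) : ∃ l : SGr σ (hyp (s + 2) ε J₀) (s + 2), Inc x l :=
  exists_inc_ge hF.fo (by omega) le_rfl x (CL.m0 : SGr σ (hyp (s + 2) ε J₀) (s + 2))

include hW

theorem geo_fix1 {w : k} (hw : w ≠ 0) (hσw : σ w = w) (x : SGr σ (hyp (s + 2) ε J₀) 1) (l : SGr σ (hyp (s + 2) ε J₀) (s + 2)) :
    ∃ g : FormGroup σ (hyp (s + 2) ε J₀), g • CL.p0 = x ∧ (g * CL.b1 hw hσw * g⁻¹) • l = l ∧
      ∀ t, (g * CL.u1 hF t * g⁻¹) • l = l := by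
  by_cases h : Inc x l
  · obtain ⟨g, h1, h2⟩ := geo_flag hF x l h
    refine ⟨g, h1, conj_fix h2 ?_, fun t => conj_fix h2 ?_⟩
    · rw [m0_eq]
      exact b1_cs hw hσw
    · rw [m0_eq]
      exact u1_cs hF t (fun a ha => by simp [iL] at ha) fun a ha => by simp [iL] at ha
  · obtain ⟨g, -, h1, h2⟩ := trans_nip (hF.wf hW)
      (p0_not_inc (σ := σ) (ε := ε) (J₀ := J₀) (r := s + 1)) h
    refine ⟨g, ?_, conj_fix h2 ?_, fun t => conj_fix h2 ?_⟩
    · rw [p0_eq]
      exact h1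
    · exact b1_cs hw hσw
    · refine u1_cs hF t (fun a ha => ⟨1, ?_⟩) fun a ha => ?_
      · unfold iA
        rw [if_neg (by simp)]
      · exfalso
        unfold iA at ha
        split_ifs at ha with h0
        · simp at ha
        · simp at ha

theorem geo_fix2 {w : k} (hw : w ≠ 0) (hσw : σ w = w) (x : SGr σ (hyp (s + 2) ε J₀) 1) (l : SGr σ (hyp (s + 2) ε J₀) (s + 2)) :
    ∃ g : FormGroup σ (hyp (s + 2) ε J₀), g • CL.m0 = l ∧ (g * CL.b2 hw hσw * g⁻¹) • x = x ∧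
      ∀ t, (g * CL.u2 hF t * g⁻¹) • x = x := by
  by_cases h : Inc x l
  · obtain ⟨g, h1, h2⟩ := geo_flag hF x l h
    refine ⟨g, h2, conj_fix h1 ?_, fun t => conj_fix h1 ?_⟩
    · rw [p0_eq]
      exact b2_cs hw hσw
    · rw [p0_eq]
      exact u2_cs hF t fun a ha => by simp [iL] at ha
  · obtain ⟨g, -, h1, h2⟩ := trans_nip (hF.wf hW)
      (pn_not_inc (σ := σ) (ε := ε) (J₀ := J₀) (r := s + 1)) h
    refine ⟨g, ?_, conj_fix h1 ?_, fun t => conj_fix h1 ?_⟩
    · rw [m0_eq]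
      exact h2
    · exact b2_cs hw hσw
    · refine u2_cs hF t fun a ha => ?_
      unfold iN at ha
      simp at ha

omit hW

/-! #### unboundedness -/

variable {nm : FormGroup σ (hyp (s + 2) ε J₀) → ℝ}

theorem geo_unb2 (hc : ∀ C : ℝ, IsCompact {g : FormGroup σ (hyp (s + 2) ε J₀) | nm g ≤ C})
    (x y : SGr σ (hyp (s + 2) ε J₀) (s + 2)) (C : ℝ) :
    ∃ g : FormGroup σ (hyp (s + 2) ε J₀), g • x = x ∧ g • y = y ∧ C ≤ nm g := by
  obtain ⟨u, hu, v, hv, hu0, hvu, huv⟩ := exists_indep hF.fm (X := x.S) (Y := y.S)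
    (by rw [x.dim]; omega) y.sing (by rw [y.dim]; omega)
  exact unb_iso hF.fm hc (x.sing u hu u hu) (y.sing v hv v hv) huv hvu hu0 (Or.inl hu)
    (Or.inr hv) C

theorem geo_unb1 {w : k} (hw : w ≠ 0) (hσw : σ w = w)
    (hc : ∀ C : ℝ, IsCompact {g : FormGroup σ (hyp (s + 2) ε J₀) | nm g ≤ C}) (h1 : ∀ g, 0 < nm g)
    (h2 : ∃ C : ℝ, 0 < C ∧ ∀ g h, nm (g * h) ≤ C * (nm g * nm h))
    (h3 : Tendsto (fun N : ℕ => nm ((CL.b1 hw hσw : FormGroup σ (hyp (s + 2) ε J₀)) ^ N))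
      atTop atTop)
    (x y : SGr σ (hyp (s + 2) ε J₀) 1) (C : ℝ) :
    ∃ g : FormGroup σ (hyp (s + 2) ε J₀), g • x = x ∧ g • y = y ∧ C ≤ nm g := by
  by_cases hxy : Col x y
  · obtain ⟨l, hl⟩ := geo_ex1 hF x
    obtain ⟨v, h0, hv, rfl⟩ := exists_ptv x
    obtain ⟨v', h0', hv', rfl⟩ := exists_ptv y
    rw [col_ptv] at hxy
    have hvl : v ∈ l.S := (inc_ptv h0 hv).1 hl
    have m1 : v ∈ (ptv v h0 hv).S := Submodule.mem_span_singleton_self v
    have m2 : v' ∈ (ptv v' h0' hv').S := Submodule.mem_span_singleton_self v'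
    by_cases hs : v' ∈ Submodule.span k {v}
    · have h4 : ¬ l.S ≤ Submodule.span k {v} := by
        intro h
        have h5 := Submodule.finrank_mono h
        rw [finrank_span_singleton h0, l.dim] at h5
        omega
      obtain ⟨z, hz, hzv⟩ := SetLike.not_le_iff_exists.1 h4
      have e : ptv v' h0' hv' = ptv v h0 hv := (ptv_eq h0' hv' h0 hv).2 hs
      rw [e]
      exact unb_iso hF.fm hc hv (l.sing z hz z hz) (l.sing v hvl z hz) hzv h0 (Or.inl m1)
        (Or.inl m1) C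
    · exact unb_iso hF.fm hc hv hv' hxy hs h0 (Or.inl m1) (Or.inr m2) C
  · have h4 : ¬ Col (CL.p0 : SGr σ (hyp (s + 2) ε J₀) 1) (pn σ ε J₀ (s + 1)) := by
      intro h
      have h5 := h (Pi.single (.inl (.inl 0)) 1) (by rw [p0_eq]; exact single_mem_cs (0 : Fin 1))
        (Pi.single (.inl (.inr 0)) 1) (single_mem_cs (0 : Fin 1))
      rw [H631.P2.hf_eR, Pi.single_eq_same] at h5
      exact one_ne_zero h5
    obtain ⟨g, -, h5, h6⟩ := trans_not_col hF.fo h4 hxy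
    obtain ⟨N, hN⟩ := unb_conj h1 h2 (ψ := fun N : ℕ => (CL.b1 hw hσw : FormGroup σ (hyp (s + 2) ε J₀)) ^ N)
      (fun C => (h3.eventually_ge_atTop C).exists) g C
    refine ⟨_, conj_fix h5 ?_, conj_fix h6 ?_, hN⟩
    · rw [p0_eq]
      exact smul_cs_diag (pow_diag (d := dgF (s + 2) ι w (Pi.single 0 1)) rfl N)
    · exact smul_cs_diag (pow_diag (d := dgF (s + 2) ι w (Pi.single 0 1)) rfl N)

theorem geo_unbu (hc : ∀ C : ℝ, IsCompact {g : FormGroup σ (hyp (s + 2) ε J₀) | nm g ≤ C})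
    (h1 : ∀ g, 0 < nm g) (h2 : ∃ C : ℝ, 0 < C ∧ ∀ g h, nm (g * h) ≤ C * (nm g * nm h))
    (g : FormGroup σ (hyp (s + 2) ε J₀)) (C : ℝ) : ∃ t, C ≤ nm (g * CL.u1 hF t * g⁻¹) := by
  refine unb_conj h1 h2 (ψ := CL.u1 hF) (fun C => ?_) g C
  have hcont : Continuous fun g : FormGroup σ (hyp (s + 2) ε J₀) => g.1.1 (.inl (.inr 0)) (.inl (.inl 1)) :=
    (continuous_apply_apply (Sum.inl (Sum.inr 0) : Idx (s + 2) ι)
      (Sum.inl (Sum.inl 1) : Idx (s + 2) ι)).comp (jF_ind (G := FormGroup σ (hyp (s + 2) ε J₀))).continuous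
  exact unb_see hc hcont (ψ := CL.u1 hF) (c := 0) (fun t => by rw [zero_add]; exact u1_see hF t) C

end fields

/-! ### Scalars -/

section scal

variable {n : Type} [Fintype n] [DecidableEq n] {k : Type} [NontriviallyNormedField k]
  {σ : k →+* k} {ε : k} {J : Matrix n n k}

theorem z_comm' {z g : FormGroup σ J} (hz : z ∈ (CL.scal k n).subgroupOf (FormGroup σ J)) :
    z * g = g * z := by
  obtain ⟨c, hc⟩ := Subgroup.mem_subgroupOf.1 hz
  refine Subtype.ext (Subtype.ext ?_)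
  change z.1.1 * g.1.1 = g.1.1 * z.1.1
  have hc' : z.1.1 = c • 1 := hc
  rw [hc', smul_mul_assoc, Matrix.one_mul, mul_smul_comm, Matrix.mul_one]

theorem z_fix' {z : FormGroup σ J} (hz : z ∈ (CL.scal k n).subgroupOf (FormGroup σ J)) {j : ℕ}
    (x : SGr σ J j) : z • x = x := by
  obtain ⟨c, hc⟩ := Subgroup.mem_subgroupOf.1 hz
  have hc' : z.1.1 = c • 1 := hc
  rw [smul_eq_iff_eq_inv_smul]
  refine (SGr.eq_of_le ?_).symm
  rw [smul_S]
  change act (z.1⁻¹)⁻¹ x.S ≤ x.S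
  rw [inv_inv]
  intro y hy
  obtain ⟨v, hv, rfl⟩ := mem_act.1 hy
  rw [hc', vecMul_smul, vecMul_one]
  exact x.S.smul_mem _ hv

theorem z_of' {r : ℕ} (hF : Wf σ ε J r) (hr : 2 ≤ r) {g : FormGroup σ J}
    (h : ∀ x : SGr σ J 1, g • x = x) : g ∈ (CL.scal k n).subgroupOf (FormGroup σ J) := by
  refine Subgroup.mem_subgroupOf.2 ?_
  refine scalar_of_fix hF hr fun v h0 hv => ?_
  have h1 := h (ptv v h0 hv)
  have h2 := congrArg SGr.S (smul_eq_iff_eq_inv_smul g |>.1 h1)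
  rw [smul_S] at h2
  change Submodule.span k {v} = act (g.1⁻¹)⁻¹ (Submodule.span k {v}) at h2
  rw [inv_inv, act_span] at h2
  have h3 : v ᵥ* g.1.1 ∈ Submodule.span k {v} := by
    rw [h2]
    exact Submodule.mem_span_singleton_self _
  obtain ⟨a, ha⟩ := Submodule.mem_span_singleton.1 h3
  exact ⟨a, ha.symm⟩

end scal

end Vale.Agent.P092.H370.Cg
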