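import Vale.Agent.P092.H714.SgM

/-!
P092, Team P, stage 3, block [P3-GEO] (helper370), part 1: Eichler elements of ANY nondegenerate
trace valued `(σ, ε)`-hermitian form (symplectic, unitary, orthogonal), the group `EU` they
generate, the two moves (dual vectors; third point), transitivity on singular subspaces.
Letters of `H714.Cl`, `H370.Po`: row vectors, matrices act from the right.
-/

set_option linter.all false

open Matrix Module Set

namespace Vale.Agent.P092.H370.Fo

open Vale.Agent.P092.H303 (FormGroup)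
open Vale.Agent.P092.H714.Cl
open Vale.Agent.P092.H714.Sg (Fm)
open Vale.Agent.P092.H370.Po

variable {n : Type} [Fintype n] [DecidableEq n] {k : Type} [Field k]
  {σ : k →+* k} {ε : k} {J : Matrix n n k}

/-! ### Eichler elements -/

/-- the matrix of `x ↦ x + h(x, u) v - ε h(x, v) u + ε c h(x, u) u` -/
def eim (σ : k →+* k) (ε : k) (J : Matrix n n k) (u v : n → k) (c : k) : Matrix n n k :=
  1 + (vecMulVec (J *ᵥ fun i => σ (u i)) (v + (ε * c) • u) +
    vecMulVec (J *ᵥ fun i => σ (v i)) (-ε • u))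

theorem vecMul_eim (u v : n → k) (c : k) (x : n → k) :
    x ᵥ* eim σ ε J u v c =
      x + hf σ J x u • v - (ε * hf σ J x v) • u + (ε * c * hf σ J x u) • u := by
  unfold eim hf
  rw [vecMul_add, vecMul_one, vecMul_add, vecMul_vecMulVec, vecMul_vecMulVec]
  module

theorem det_eim {u v : n → k} (c : k) (hu : hf σ J u u = 0) (huv : hf σ J u v = 0)
    (hvu : hf σ J v u = 0) : (eim σ ε J u v c).det = 1 := by
  have e : eim σ ε J u v c =
      1 + (of ![J *ᵥ fun i => σ (u i), J *ᵥ fun i => σ (v i)])ᵀ *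
        of ![v + (ε * c) • u, -ε • u] := by
    unfold eim
    congr 1
    ext i j
    rw [mul_apply, Fin.sum_univ_two, Matrix.add_apply, vecMulVec_apply, vecMulVec_apply]
    rfl
  rw [e, det_one_add_mul_comm, det_fin_two]
  have a00 : (of ![v + (ε * c) • u, -ε • u] *
      (of ![J *ᵥ fun i => σ (u i), J *ᵥ fun i => σ (v i)])ᵀ) 0 0 = 0 := by
    rw [mul_apply]
    change (v + (ε * c) • u) ⬝ᵥ (J *ᵥ fun i => σ (u i)) = 0
    change hf σ J (v + (ε * c) • u) u = 0
    rw [hf_add_left, hf_smul_left, hvu, hu, mul_zero, add_zero]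
  have a10 : (of ![v + (ε * c) • u, -ε • u] *
      (of ![J *ᵥ fun i => σ (u i), J *ᵥ fun i => σ (v i)])ᵀ) 1 0 = 0 := by
    rw [mul_apply]
    change hf σ J (-ε • u) u = 0
    rw [hf_smul_left, hu, mul_zero]
  have a11 : (of ![v + (ε * c) • u, -ε • u] *
      (of ![J *ᵥ fun i => σ (u i), J *ᵥ fun i => σ (v i)])ᵀ) 1 1 = 0 := by
    rw [mul_apply]
    change hf σ J (-ε • u) v = 0
    rw [hf_smul_left, huv, mul_zero]
  rw [Matrix.add_apply, Matrix.add_apply, Matrix.add_apply, Matrix.add_apply, a00, a10, a11]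
  simp

/-- the conditions on the parameters of an Eichler element -/
structure EP (σ : k →+* k) (ε : k) (J : Matrix n n k) (u v : n → k) (c : k) : Prop where
  uu : hf σ J u u = 0
  vu : hf σ J v u = 0
  vv : c + ε * σ c + hf σ J v v = 0

open Classical in
/-- the Eichler element -/
noncomputable def ei (σ : k →+* k) (ε : k) (J : Matrix n n k) (u v : n → k) (c : k) :
    SpecialLinearGroup n k :=
  if h : hf σ J u u = 0 ∧ hf σ J u v = 0 ∧ hf σ J v u = 0 then
    toSL (eim σ ε J u v c) (det_eim c h.1 h.2.1 h.2.2) else 1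

theorem vecMul_ei (hF : Fm σ ε J) {u v : n → k} {c : k} (h : EP σ ε J u v c) (x : n → k) :
    x ᵥ* (ei σ ε J u v c).1 =
      x + hf σ J x u • v - (ε * hf σ J x v) • u + (ε * c * hf σ J x u) • u := by
  unfold ei
  rw [dif_pos ⟨h.uu, hF.symm0 h.vu, h.vu⟩, toSL_val, vecMul_eim]

theorem Fm.eps_ne (hF : Fm σ ε J) : ε ≠ 0 := by
  intro h
  have := hF.eps
  rw [h, mul_zero] at this
  exact zero_ne_one this

theorem Fm.swap1 (hF : Fm σ ε J) {x y : n → k} (h : hf σ J x y = 1) : hf σ J y x = ε := by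
  rw [hF.herm, h, map_one, mul_one]

theorem Fm.symm_ne0 (hF : Fm σ ε J) {x y : n → k} (h : hf σ J x y ≠ 0) : hf σ J y x ≠ 0 :=
  fun h' => h (hF.symm0 h')

theorem ei_mem (hF : Fm σ ε J) {u v : n → k} {c : k} (h : EP σ ε J u v c) :
    ei σ ε J u v c ∈ FormGroup σ J := by
  rw [mem_formGroup]
  intro x y
  rw [vecMul_ei hF h, vecMul_ei hF h]
  have huv : hf σ J u v = 0 := hF.symm0 h.vu
  simp only [sub_eq_add_neg, ← neg_smul, hf_add_left, hf_add_right, hf_smul_left,
    hf_smul_right, h.uu, h.vu, huv, map_neg, map_mul, hF.seps]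
  have h1 : hf σ J u y = ε * σ (hf σ J y u) := hF.herm y u
  have h2 : hf σ J v y = ε * σ (hf σ J y v) := hF.herm y v
  rw [h1, h2]
  have h3 := h.vv
  have he := hF.eps
  linear_combination (hf σ J x u * σ (hf σ J y u)) * h3
    + (-hf σ J x v * σ (hf σ J y u) + c * hf σ J x u * σ (hf σ J y u)) * he

/-- the group generated by the Eichler elements -/
def EU (σ : k →+* k) (ε : k) (J : Matrix n n k) : Subgroup (SpecialLinearGroup n k) :=
  Subgroup.closure {g | ∃ u v c, EP σ ε J u v c ∧ g = ei σ ε J u v c}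

theorem ei_mem_EU {u v : n → k} {c : k} (h : EP σ ε J u v c) : ei σ ε J u v c ∈ EU σ ε J :=
  Subgroup.subset_closure ⟨u, v, c, h, rfl⟩

theorem EU_le (hF : Fm σ ε J) : EU σ ε J ≤ FormGroup σ J := by
  rw [EU, Subgroup.closure_le]
  rintro _ ⟨u, v, c, h, rfl⟩
  exact ei_mem hF h

theorem GT_le_EU (hF : Fm σ ε J) : GT σ ε J ≤ EU σ ε J := by
  rw [GT, Subgroup.closure_le]
  rintro _ ⟨u, c, hu, hc, rfl⟩
  have h : EP σ ε J u 0 (ε * c) :=
    { uu := hu
      vu := hf_zero_left σ J u
      vv := by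
        rw [hf_zero_left, add_zero, map_mul, hF.seps]
        linear_combination ε * hc }
  have e : tv σ J u c = ei σ ε J u 0 (ε * c) := by
    refine ext_vecMul fun x => ?_
    rw [vecMul_tv hu, vecMul_ei hF h, smul_zero, hf_zero_right, mul_zero, zero_smul, add_zero,
      sub_zero, ← mul_assoc, hF.eps, one_mul]
  rw [e]
  exact ei_mem_EU h

/-- **the dual move**: the element fixes `u`, moves `u'` to `u''` (isotropic, product one with
`u`), and fixes every vector orthogonal to `u` and to `u'' - u'` -/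
theorem dual_move (hF : Fm σ ε J) {u u' u'' : n → k} (hu : hf σ J u u = 0)
    (hu' : hf σ J u' u' = 0) (hu'' : hf σ J u'' u'' = 0) (h1 : hf σ J u u' = 1)
    (h2 : hf σ J u u'' = 1) :
    ∃ g ∈ EU σ ε J, u ᵥ* g.1 = u ∧ u' ᵥ* g.1 = u'' ∧
      ∀ x, hf σ J x u = 0 → hf σ J x (u'' - u') = 0 → x ᵥ* g.1 = x := by
  have he := hF.eps
  have s1 : hf σ J u' u = ε := Fm.swap1 hF h1
  have s2 : hf σ J u'' u = ε := Fm.swap1 hF h2
  have sub_r : ∀ x : n → k, hf σ J x (u'' - u') = hf σ J x u'' - hf σ J x u' := by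
    intro x
    rw [sub_eq_add_neg, ← neg_one_smul k u', hf_add_right, hf_smul_right, map_neg, map_one]
    ring
  have sub_l : ∀ x : n → k, hf σ J (u'' - u') x = hf σ J u'' x - hf σ J u' x := by
    intro x
    rw [sub_eq_add_neg, ← neg_one_smul k u', hf_add_left, hf_smul_left]
    ring
  have h : EP σ ε J u (ε • (u'' - u')) (hf σ J u' u'') :=
    { uu := hu
      vu := by rw [hf_smul_left, sub_l, s1, s2, sub_self, mul_zero]
      vv := by
        rw [hf_smul_left, hf_smul_right, sub_l, sub_r, sub_r, hu', hu'', hF.seps,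
          ← hF.herm u' u'']
        linear_combination (-(hf σ J u'' u') - hf σ J u' u'') * he }
  refine ⟨_, ei_mem_EU h, ?_, ?_, fun x hx hx' => ?_⟩
  · rw [vecMul_ei hF h, hu, hf_smul_right, sub_r, h1, h2]
    module
  · rw [vecMul_ei hF h, s1, hf_smul_right, sub_r, hu', sub_zero, hF.seps, smul_smul, he, one_smul]
    have e2 : ε * (ε * hf σ J u' u'') = hf σ J u' u'' := by rw [← mul_assoc, he, one_mul]
    have e3 : ε * hf σ J u' u'' * ε = hf σ J u' u'' := by
      rw [mul_comm, ← mul_assoc, he, one_mul]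
    rw [e2, e3]
    module
  · rw [vecMul_ei hF h, hx, hf_smul_right, hx']
    module

/-! ### The third point -/

/-- forms of any kind whose singular spaces are thick: every two opposite isotropic vectors
orthogonal to a singular space `Z` have a common opposite one orthogonal to `Z` -/
structure Fo (σ : k →+* k) (ε : k) (J : Matrix n n k) : Prop where
  fm : Fm σ ε J
  thd : ∀ (Z : Submodule k (n → k)) (u w : n → k), Sing σ J Z → hf σ J u u = 0 →
    hf σ J w w = 0 → (∀ x ∈ Z, hf σ J x u = 0) → (∀ x ∈ Z, hf σ J x w = 0) → hf σ J u w ≠ 0 →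
    ∃ p, hf σ J p p = 0 ∧ (∀ x ∈ Z, hf σ J x p = 0) ∧ hf σ J u p ≠ 0 ∧ hf σ J p w ≠ 0

/-- forms with skew scalars -/
theorem Fo.of_cc (hF : Fm σ ε J) (hcc : ∃ c, c ≠ 0 ∧ c + ε * σ c = 0) : Fo σ ε J where
  fm := hF
  thd := by
    intro Z u w hZ hu hw hZu hZw huw
    obtain ⟨c, hc0, hc⟩ := hcc
    have ht : σ (σ (c / hf σ J u w)) = c / hf σ J u w := hF.inv _
    refine ⟨u + σ (c / hf σ J u w) • w, ?_, fun x hx => ?_, ?_, ?_⟩
    · rw [hf_add_left, hf_add_right, hf_add_right, hf_smul_left, hf_smul_left, hf_smul_right,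
        hf_smul_right, hu, hw, ht, hF.herm u w]
      have e : c / hf σ J u w * hf σ J u w = c := div_mul_cancel₀ c huw
      have e2 : σ (c / hf σ J u w) * σ (hf σ J u w) = σ c := by rw [← map_mul, e]
      rw [e]
      linear_combination hc + ε * e2
    · rw [hf_add_right, hf_smul_right, hZu x hx, hZw x hx, mul_zero, add_zero]
    · rw [hf_add_right, hf_smul_right, hu, ht, zero_add, div_mul_cancel₀ c huw]
      exact hc0
    · rw [hf_add_left, hf_smul_left, hw, mul_zero, add_zero]
      exact huw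

theorem _root_.Vale.Agent.P092.H714.Cl.Frm.fo (hF : Frm σ ε J) : Fo σ ε J :=
  Fo.of_cc hF.fm hF.cc

/-- the dimension of an orthogonal space -/
theorem le_finrank_perp (hF : Fm σ ε J) (X : Submodule k (n → k)) :
    Fintype.card n ≤ finrank k X + finrank k (perp σ J X) := by
  set b := finBasis k X with hb
  let f : (n → k) →ₗ[k] (Fin (finrank k X) → k) :=
    { toFun := fun y i => σ (hf σ J (b i).1 y)
      map_add' := fun x y => by
        funext i
        change σ (hf σ J (b i).1 (x + y)) = σ (hf σ J (b i).1 x) + σ (hf σ J (b i).1 y)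
        rw [hf_add_right, map_add]
      map_smul' := fun c x => by
        funext i
        change σ (hf σ J (b i).1 (c • x)) = c * σ (hf σ J (b i).1 x)
        rw [hf_smul_right, map_mul, hF.inv] }
  have h1 := LinearMap.finrank_range_add_finrank_ker f
  have h2 : finrank k (LinearMap.range f) ≤ finrank k X := by
    refine (Submodule.finrank_le _).trans ?_
    rw [finrank_fin_fun]
  have h3 : LinearMap.ker f ≤ perp σ J X := by
    intro y hy
    let g : X →ₗ[k] k :=
      { toFun := fun x => hf σ J x.1 y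
        map_add' := fun a c => hf_add_left σ J a.1 c.1 y
        map_smul' := fun c a => hf_smul_left σ J c a.1 y }
    have hg : g = 0 := b.ext fun i => by
      have := congrFun (LinearMap.mem_ker.1 hy) i
      change σ (hf σ J (b i).1 y) = 0 at this
      rw [map_eq_zero] at this
      exact this
    intro x hx
    have := LinearMap.congr_fun hg ⟨x, hx⟩
    exact this
  have h4 := Submodule.finrank_mono h3
  rw [finrank_fintype_fun_eq_card] at h1
  omega

/-- forms whose dimension is larger than twice the Witt index -/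
theorem Fo.of_dim (hF : Fm σ ε J) {r : ℕ} (hr : ∀ Y, Sing σ J Y → finrank k Y ≤ r)
    (hn : 2 * r < Fintype.card n) : Fo σ ε J := by
  by_cases hcc : ∃ c, c ≠ 0 ∧ c + ε * σ c = 0
  · exact Fo.of_cc hF hcc
  push Not at hcc
  have hc0 : ∀ c, c + ε * σ c = 0 → c = 0 := fun c hc => by
    by_contra h
    exact hcc c h hc
  have sup_sing : ∀ {X : Submodule k (n → k)}, Sing σ J X → ∀ {v : n → k}, hf σ J v v = 0 →
      (∀ x ∈ X, hf σ J x v = 0) → Sing σ J (X ⊔ Submodule.span k {v}) := by
    intro X hX v hv h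
    unfold Sing
    rw [ort_sup_left, ort_sup_right, ort_sup_right, ort_span_left, ort_span_right]
    refine ⟨⟨hX, h⟩, fun x hx => hF.symm0 (h x hx), ?_⟩
    rw [ort_span_left]
    intro y hy
    obtain ⟨a, rfl⟩ := Submodule.mem_span_singleton.1 hy
    rw [hf_smul_right, hv, mul_zero]
  refine ⟨hF, ?_⟩
  intro Z u w hZ hu hw hZu hZw huw
  have huZ : u ∉ Z := fun h => huw (hZw u h)
  have hZ1 : finrank k Z + 1 ≤ r := by
    rw [← finrank_sup_span huZ]
    exact hr _ (sup_sing hZ hu hZu)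
  -- an anisotropic vector orthogonal to `Z`, `u`, `w`
  set T := Z ⊔ Submodule.span k {u} ⊔ Submodule.span k {w} with hT
  obtain ⟨v, hvT, hv⟩ : ∃ v ∈ perp σ J T, hf σ J v v ≠ 0 := by
    by_contra hcon
    push Not at hcon
    have hs : Sing σ J (perp σ J T) := by
      intro x hx y hy
      have h1 := hcon (x + y) ((perp σ J T).add_mem hx hy)
      rw [hf_add_left, hf_add_right, hf_add_right, hcon x hx, hcon y hy, hF.herm x y] at h1
      exact hc0 _ (by linear_combination h1)
    have huT : u ∈ T := (le_sup_right.trans le_sup_left : Submodule.span k {u} ≤ T)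
      (Submodule.mem_span_singleton_self u)
    have hwT : w ∈ T := (le_sup_right : Submodule.span k {w} ≤ T)
      (Submodule.mem_span_singleton_self w)
    have hup : u ∉ perp σ J T := fun h => huw (hF.symm0 (h w hwT))
    have h2 := hr _ (sup_sing hs hu fun x hx => hF.symm0 (hx u huT))
    rw [finrank_sup_span hup] at h2
    have h3 := le_finrank_perp hF T
    have h4 : finrank k T ≤ finrank k Z + 1 + 1 := by
      refine (Submodule.finrank_add_le_finrank_add_finrank _ _).trans ?_
      refine add_le_add ((Submodule.finrank_add_le_finrank_add_finrank _ _).trans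
        (add_le_add le_rfl ?_)) ?_
      · exact (finrank_span_le_card ({u} : Set (n → k))).trans (by simp)
      · exact (finrank_span_le_card ({w} : Set (n → k))).trans (by simp)
    omega
  have hvu : hf σ J u v = 0 := hvT u ((le_sup_right.trans le_sup_left :
    Submodule.span k {u} ≤ T) (Submodule.mem_span_singleton_self u))
  have hvw : hf σ J w v = 0 := hvT w ((le_sup_right : Submodule.span k {w} ≤ T)
    (Submodule.mem_span_singleton_self w))
  have hvZ : ∀ x ∈ Z, hf σ J x v = 0 := fun x hx =>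
    hvT x ((le_sup_left.trans le_sup_left : Z ≤ T) hx)
  obtain ⟨β, hβ⟩ := hF.tv v
  have hβ0 : β ≠ 0 := by
    rintro rfl
    rw [map_zero, mul_zero, add_zero] at hβ
    exact hv hβ
  have ht : σ (σ (-β / hf σ J u w)) = -β / hf σ J u w := hF.inv _
  have hvu' : hf σ J v u = 0 := hF.symm0 hvu
  have hvw' : hf σ J v w = 0 := hF.symm0 hvw
  refine ⟨u + σ (-β / hf σ J u w) • w + v, ?_, fun x hx => ?_, ?_, ?_⟩
  · simp only [hf_add_left, hf_add_right, hf_smul_left, hf_smul_right]
    rw [hu, hw, ht, hvu, hvw, hvu', hvw', hβ, hF.herm u w]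
    have e : -β / hf σ J u w * hf σ J u w = -β := div_mul_cancel₀ _ huw
    have e2 : σ (-β / hf σ J u w) * σ (hf σ J u w) = -σ β := by rw [← map_mul, e, map_neg]
    linear_combination ε * e2 + e
  · rw [hf_add_right, hf_add_right, hf_smul_right, hZu x hx, hZw x hx, hvZ x hx, mul_zero,
      add_zero, add_zero]
  · rw [hf_add_right, hf_add_right, hf_smul_right, hu, ht, hvu, add_zero, zero_add,
      div_mul_cancel₀ _ huw]
    exact neg_ne_zero.2 hβ0
  · rw [hf_add_left, hf_add_left, hf_smul_left, hw, hvw', mul_zero, add_zero, add_zero]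
    exact huw

/-- **the step**: `u ↦ a w`, every vector of `Z` fixed -/
theorem step_to (hF : Fo σ ε J) {Z : Submodule k (n → k)} (hZ : Sing σ J Z) {u w : n → k}
    (hu : hf σ J u u = 0) (hw : hf σ J w w = 0) (hZu : ∀ x ∈ Z, hf σ J x u = 0)
    (hZw : ∀ x ∈ Z, hf σ J x w = 0) (huw : hf σ J u w ≠ 0) :
    ∃ g ∈ EU σ ε J, ∃ a : k, a ≠ 0 ∧ u ᵥ* g.1 = a • w ∧ ∀ y ∈ Z, y ᵥ* g.1 = y := by
  obtain ⟨p, hp, hZp, hup, hpw⟩ := hF.thd Z u w hZ hu hw hZu hZw huw
  have hpu : hf σ J p u ≠ 0 := Fm.symm_ne0 hF.fm hup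
  have h1 : hf σ J p (σ (hf σ J p u)⁻¹ • u) = 1 := by
    rw [hf_smul_right, hF.fm.inv, inv_mul_cancel₀ hpu]
  have h2 : hf σ J p (σ (hf σ J p w)⁻¹ • w) = 1 := by
    rw [hf_smul_right, hF.fm.inv, inv_mul_cancel₀ hpw]
  obtain ⟨g, hg, -, hg2, hg3⟩ := dual_move hF.fm hp (iso_smul hu _) (iso_smul hw _) h1 h2
  have hs0 : σ (hf σ J p u)⁻¹ ≠ 0 := by
    rw [Ne, map_eq_zero]
    exact inv_ne_zero hpu
  have ht0 : σ (hf σ J p w)⁻¹ ≠ 0 := by
    rw [Ne, map_eq_zero]
    exact inv_ne_zero hpw
  refine ⟨g, hg, (σ (hf σ J p u)⁻¹)⁻¹ * σ (hf σ J p w)⁻¹, mul_ne_zero (inv_ne_zero hs0) ht0, ?_,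
    fun y hy => hg3 y (hZp y hy) ?_⟩
  · rw [smul_vecMul] at hg2
    rw [mul_smul, ← hg2, smul_smul, inv_mul_cancel₀ hs0, one_smul]
  · rw [sub_eq_add_neg, ← neg_one_smul k (σ (hf σ J p u)⁻¹ • u), hf_add_right, hf_smul_right,
      hf_smul_right, hf_smul_right, hZu y hy, hZw y hy]
    ring

end Vale.Agent.P092.H370.Fo
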