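import Vale.Agent.P092.H370.Fo3

/-!
P092, Team P, stage 3, block [P3-GEO] (helper370), part 4: pairs of opposite singular spaces (dual
bases), the third point relative to a hyperbolic pair, forms of Witt index `r` (`Wf`).
-/

set_option linter.all false

open Matrix Module Set

namespace Vale.Agent.P092.H370.Fo

open Vale.Agent.P092.H303 (FormGroup)
open Vale.Agent.P092.H714.Cl
open Vale.Agent.P092.H714.Sg (Fm)
open Vale.Agent.P092.H370.Po

variable {n : Type} [Fintype n] [DecidableEq n] {k : Type} [Field k]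
  {σ : k →+* k} {ε : k} {J : Matrix n n k}

theorem hf_sub_right (x y y' : n → k) : hf σ J x (y - y') = hf σ J x y - hf σ J x y' := by
  rw [sub_eq_add_neg, ← neg_one_smul k y', hf_add_right, hf_smul_right, map_neg, map_one]
  ring

theorem hf_sub_left (x x' y : n → k) : hf σ J (x - x') y = hf σ J x y - hf σ J x' y := by
  rw [sub_eq_add_neg, ← neg_one_smul k x', hf_add_left, hf_smul_left]
  ring

/-! ### Dual bases -/

/-- **simultaneous dual move**: `e i` fixed, `f i ↦ f' i`, every vector orthogonal to everything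
fixed -/
theorem dual_trans (hF : Fm σ ε J) {m : ℕ} (e f f' : Fin m → n → k)
    (hee : ∀ i j, hf σ J (e i) (e j) = 0) (hff : ∀ i j, hf σ J (f i) (f j) = 0)
    (hff' : ∀ i j, hf σ J (f' i) (f' j) = 0)
    (h1 : ∀ i j, hf σ J (e i) (f j) = if i = j then 1 else 0)
    (h2 : ∀ i j, hf σ J (e i) (f' j) = if i = j then 1 else 0) :
    ∃ g ∈ EU σ ε J, (∀ i, e i ᵥ* g.1 = e i) ∧ (∀ i, f i ᵥ* g.1 = f' i) ∧
      ∀ x, (∀ i, hf σ J x (e i) = 0) → (∀ i, hf σ J x (f i) = 0) →
        (∀ i, hf σ J x (f' i) = 0) → x ᵥ* g.1 = x := by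
  have key : ∀ s : ℕ, s ≤ m → ∃ g ∈ EU σ ε J, (∀ i, e i ᵥ* g.1 = e i) ∧
      (∀ i : Fin m, i.1 < s → f i ᵥ* g.1 = f' i) ∧
      ∀ x, (∀ i, hf σ J x (e i) = 0) → (∀ i, hf σ J x (f i) = 0) →
        (∀ i, hf σ J x (f' i) = 0) → x ᵥ* g.1 = x := by
    intro s
    induction s with
    | zero =>
      intro _
      exact ⟨1, one_mem _, fun i => vecMul_one' _, fun i hi => absurd hi (Nat.not_lt_zero _),
        fun x _ _ _ => vecMul_one' x⟩
    | succ s ih =>
      intro hs
      obtain ⟨g, hg, a1, a2, a3⟩ := ih (by omega)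
      have hgF := EU_le hF hg
      have iso := mem_formGroup.1 hgF
      set i₀ : Fin m := ⟨s, hs⟩ with hi₀
      have c1 : hf σ J (e i₀) (f i₀ ᵥ* g.1) = 1 := by
        rw [← a1 i₀, iso, h1, if_pos rfl]
      have c2 : hf σ J (e i₀) (f' i₀) = 1 := by rw [h2, if_pos rfl]
      obtain ⟨g', hg', b1, b2, b3⟩ := dual_move hF (hee i₀ i₀)
        (by rw [iso]; exact hff i₀ i₀) (hff' i₀ i₀) c1 c2
      refine ⟨g * g', mul_mem hg hg', fun i => ?_, fun i hi => ?_, fun x hx hx' hx'' => ?_⟩
      · rw [vecMul_mul', a1]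
        refine b3 _ (hee _ _) ?_
        rw [hf_sub_right, h2]
        have : hf σ J (e i) (f i₀ ᵥ* g.1) = if i = i₀ then 1 else 0 := by
          rw [← a1 i, iso, h1]
        rw [this, sub_self]
      · rw [vecMul_mul']
        rcases Nat.lt_succ_iff_lt_or_eq.1 hi with hlt | heq
        · rw [a2 i hlt]
          have hne : i₀ ≠ i := by
            intro h
            rw [← h] at hlt
            exact lt_irrefl _ hlt
          refine b3 _ (hF.symm0 ?_) ?_
          · rw [h2, if_neg hne]
          · rw [hf_sub_right, hff', ← a2 i hlt, iso, hff, sub_self]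
        · have : i = i₀ := Fin.ext heq
          rw [this]
          exact b2
      · rw [vecMul_mul', a3 x hx hx' hx'']
        refine b3 x (hx i₀) ?_
        rw [hf_sub_right, hx'' i₀]
        have : hf σ J x (f i₀ ᵥ* g.1) = 0 := by
          rw [← a3 x hx hx' hx'', iso, hx' i₀]
        rw [this, sub_self]
  obtain ⟨g, hg, a1, a2, a3⟩ := key m le_rfl
  exact ⟨g, hg, a1, fun i => a2 i i.2, a3⟩

/-- dual bases of opposite spaces -/
theorem exists_dual (hF : Fm σ ε J) {X Y : Submodule k (n → k)} {m : ℕ}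
    (hX : finrank k X = m) (hY : finrank k Y = m)
    (h : ∀ y ∈ Y, (∀ x ∈ X, hf σ J x y = 0) → y = 0) (b : Basis (Fin m) k X) :
    ∃ f : Fin m → n → k, (∀ i, f i ∈ Y) ∧
      ∀ i j, hf σ J (b i).1 (f j) = if i = j then 1 else 0 := by
  let φ : Y →ₗ[k] (Fin m → k) :=
    { toFun := fun y i => σ (hf σ J (b i).1 y.1)
      map_add' := fun x y => by
        funext i
        change σ (hf σ J (b i).1 (x.1 + y.1)) = σ (hf σ J (b i).1 x.1) + σ (hf σ J (b i).1 y.1)
        rw [hf_add_right, map_add]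
      map_smul' := fun c x => by
        funext i
        change σ (hf σ J (b i).1 (c • x.1)) = c * σ (hf σ J (b i).1 x.1)
        rw [hf_smul_right, map_mul, hF.inv] }
  have inj : Function.Injective φ := by
    rw [← LinearMap.ker_eq_bot, LinearMap.ker_eq_bot']
    intro y hy
    apply Subtype.ext
    refine h y.1 y.2 fun x hx => ?_
    let g : X →ₗ[k] k :=
      { toFun := fun x => hf σ J x.1 y.1
        map_add' := fun a c => hf_add_left σ J a.1 c.1 y.1
        map_smul' := fun c a => hf_smul_left σ J c a.1 y.1 }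
    have hg : g = 0 := b.ext fun i => by
      have := congrFun hy i
      change σ (hf σ J (b i).1 y.1) = 0 at this
      rw [map_eq_zero] at this
      exact this
    exact LinearMap.congr_fun hg ⟨x, hx⟩
  have sur : Function.Surjective φ :=
    (LinearMap.injective_iff_surjective_of_finrank_eq_finrank
      (by rw [hY, finrank_fin_fun])).1 inj
  choose y hy using fun j : Fin m => sur (Pi.single j 1)
  refine ⟨fun j => (y j).1, fun j => (y j).2, fun i j => ?_⟩
  have := congrFun (hy j) i
  change σ (hf σ J (b i).1 (y j).1) = _ at this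
  have h2 := congrArg σ this
  rw [hF.inv] at h2
  rw [h2]
  by_cases hij : i = j
  · subst hij
    simp
  · rw [Pi.single_eq_of_ne hij, if_neg hij, map_zero]

/-- opposite singular spaces -/
def Opp (σ : k →+* k) (J : Matrix n n k) (X Y : Submodule k (n → k)) : Prop :=
  (∀ y ∈ Y, (∀ x ∈ X, hf σ J x y = 0) → y = 0) ∧ ∀ x ∈ X, (∀ y ∈ Y, hf σ J y x = 0) → x = 0

theorem Opp.symm {X Y : Submodule k (n → k)} (h : Opp σ J X Y) : Opp σ J Y X := ⟨h.2, h.1⟩

theorem Opp.act {g : SpecialLinearGroup n k} (hg : g ∈ FormGroup σ J)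
    {X Y : Submodule k (n → k)} (h : Opp σ J X Y) : Opp σ J (act g X) (act g Y) := by
  have iso := mem_formGroup.1 hg
  have aux : ∀ {X Y : Submodule k (n → k)}, (∀ y ∈ Y, (∀ x ∈ X, hf σ J x y = 0) → y = 0) →
      ∀ y ∈ Po.act g Y, (∀ x ∈ Po.act g X, hf σ J x y = 0) → y = 0 := by
    intro X Y h y hy hx
    obtain ⟨z, hz, rfl⟩ := mem_act.1 hy
    rw [h z hz fun x hx' => ?_, zero_vecMul]
    rw [← iso]
    exact hx _ (vecMul_mem_act hx')
  exact ⟨aux h.1, aux h.2⟩

/-- the span of the values of a basis -/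
theorem span_basis {X : Submodule k (n → k)} {m : ℕ} (b : Basis (Fin m) k X) :
    Submodule.span k (Set.range fun i => (b i).1) = X := by
  have h1 : (Set.range fun i => (b i).1) = X.subtype '' Set.range b := by
    rw [← Set.range_comp]
    rfl
  rw [h1, Submodule.span_image, b.span_eq, Submodule.map_top, Submodule.range_subtype]

/-- a dual family spans -/
theorem span_dual {X Y : Submodule k (n → k)} {m : ℕ} (hY : finrank k Y = m)
    {e f : Fin m → n → k} (hf' : ∀ i, f i ∈ Y)
    (h : ∀ i j, hf σ J (e i) (f j) = if i = j then 1 else 0) :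
    Submodule.span k (Set.range f) = Y := by
  have li : LinearIndependent k f := by
    rw [Fintype.linearIndependent_iff]
    intro c hc i
    have h1 : hf σ J (e i) (∑ j, c j • f j) = 0 := by rw [hc, hf_zero_right]
    have h2 : ∀ s : Finset (Fin m), hf σ J (e i) (∑ j ∈ s, c j • f j) =
        ∑ j ∈ s, σ (c j) * hf σ J (e i) (f j) := by
      intro s
      induction s using Finset.induction_on with
      | empty => rw [Finset.sum_empty, Finset.sum_empty, hf_zero_right]
      | insert a s ha ih =>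
        rw [Finset.sum_insert ha, Finset.sum_insert ha, hf_add_right, hf_smul_right, ih]
    rw [h2] at h1
    simp only [h, mul_ite, mul_one, mul_zero, Finset.sum_ite_eq, Finset.mem_univ, if_true] at h1
    rwa [map_eq_zero] at h1
  refine Submodule.eq_of_le_of_finrank_eq ?_ ?_
  · rw [Submodule.span_le]
    rintro _ ⟨i, rfl⟩
    exact hf' i
  · rw [finrank_span_eq_card li, Fintype.card_fin, hY]

/-- **transitivity on pairs of opposite singular spaces, first member fixed pointwise** -/
theorem trans_opp_fix (hF : Fm σ ε J) {X Y Y' : Submodule k (n → k)} (hX : Sing σ J X)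
    (hY : Sing σ J Y) (hY' : Sing σ J Y') (h1 : Opp σ J X Y) (h2 : Opp σ J X Y')
    (hd : finrank k X = finrank k Y) (hd' : finrank k X = finrank k Y') :
    ∃ g ∈ EU σ ε J, act g Y = Y' ∧ (∀ x ∈ X, x ᵥ* g.1 = x) ∧
      ∀ x, (∀ y ∈ X, hf σ J x y = 0) → (∀ y ∈ Y, hf σ J x y = 0) →
        (∀ y ∈ Y', hf σ J x y = 0) → x ᵥ* g.1 = x := by
  set b := finBasis k X with hb
  obtain ⟨f, hf1, hf2⟩ := exists_dual hF rfl hd.symm h1.1 b
  obtain ⟨f', hf1', hf2'⟩ := exists_dual hF rfl hd'.symm h2.1 b
  obtain ⟨g, hg, a1, a2, a3⟩ := dual_trans hF (fun i => (b i).1) f f'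
    (fun i j => hX _ (b i).2 _ (b j).2) (fun i j => hY _ (hf1 i) _ (hf1 j))
    (fun i j => hY' _ (hf1' i) _ (hf1' j)) hf2 hf2'
  refine ⟨g, hg, ?_, ?_, fun x hx hx' hx'' => a3 x (fun i => hx _ (b i).2)
    (fun i => hx' _ (hf1 i)) fun i => hx'' _ (hf1' i)⟩
  · rw [← span_dual (Y := Y) (X := X) hd.symm hf1 hf2,
      ← span_dual (Y := Y') (X := X) hd'.symm hf1' hf2']
    apply le_antisymm
    · intro z hz
      obtain ⟨y, hy, rfl⟩ := mem_act.1 hz
      clear hz
      induction hy using Submodule.span_induction with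
      | mem x hx =>
        obtain ⟨i, rfl⟩ := hx
        rw [a2]
        exact Submodule.subset_span ⟨i, rfl⟩
      | zero => rw [zero_vecMul]; exact Submodule.zero_mem _
      | add x y _ _ hx hy => rw [add_vecMul]; exact Submodule.add_mem _ hx hy
      | smul c x _ hx => rw [smul_vecMul]; exact Submodule.smul_mem _ _ hx
    · rw [Submodule.span_le]
      rintro _ ⟨i, rfl⟩
      rw [← a2]
      exact vecMul_mem_act (Submodule.subset_span ⟨i, rfl⟩)
  · intro x hx
    rw [← span_basis b] at hx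
    induction hx using Submodule.span_induction with
    | mem x hx => obtain ⟨i, rfl⟩ := hx; exact a1 i
    | zero => rw [zero_vecMul]
    | add x y _ _ hx hy => rw [add_vecMul, hx, hy]
    | smul c x _ hx => rw [smul_vecMul, hx]

/-- **transitivity on pairs of opposite singular spaces** -/
theorem trans_opp (hF : Fo σ ε J) {X Y X' Y' : Submodule k (n → k)} (hX : Sing σ J X)
    (hY : Sing σ J Y) (hX' : Sing σ J X') (hY' : Sing σ J Y') (h : Opp σ J X Y)
    (h' : Opp σ J X' Y') (hXX : finrank k X = finrank k X') (hd : finrank k X = finrank k Y)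
    (hd' : finrank k X' = finrank k Y') :
    ∃ g ∈ EU σ ε J, act g X = X' ∧ act g Y = Y' := by
  obtain ⟨g, hg, h1, -⟩ := trans_sing hF hX hX' hXX
  have hgF := EU_le hF.fm hg
  have h2 : Opp σ J X' (act g Y) := by rw [← h1]; exact h.act hgF
  obtain ⟨g', hg', h3, h4, -⟩ := trans_opp_fix hF.fm hX' (hY.act hgF) hY' h2 h'
    (by rw [finrank_act, ← hXX, hd]) hd'
  exact ⟨g * g', mul_mem hg hg', by rw [act_mul, h1, act_of_fix h4], by rw [act_mul, h3]⟩

end Vale.Agent.P092.H370.Fo
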