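import Vale.Agent.P092.H820.Pn

/-!
P092, TEAM N, block [N-GR] (helper370).
The Grassmannian `Gr k ι j` of `j`-dimensional subspaces of `ι → k` over a local field `k`:
open quotient of the independent `j`-frames, compact, metrizable; incidence is closed and open
(flag projections are open); continuous action of every group acting continuously and linearly.
-/

namespace Vale.Agent.P092.H370

open TopologicalSpace Topology Module
open Vale.Agent.P092.H820
open scoped LinearAlgebra.Projectivization Matrix

section Defs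

variable (k : Type*) [Field k] (ι : Type*) (j : ℕ)

/-- subspaces of dimension `j` of `ι → k` -/
def Gr : Type _ := {W : Submodule k (ι → k) // finrank k W = j}

/-- independent `j`-frames -/
abbrev Frm : Type _ := {A : Fin j → ι → k // LinearIndependent k A}

variable {k ι j}

/-- the span of a frame -/
def sp (A : Frm k ι j) : Gr k ι j :=
  ⟨Submodule.span k (Set.range A.1), by simpa using finrank_span_eq_card A.2⟩

lemma sp_val (A : Frm k ι j) : (sp A).1 = Submodule.span k (Set.range A.1) := rfl

lemma Gr.ext {W W' : Gr k ι j} (h : W.1 = W'.1) : W = W' := Subtype.ext h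

lemma Gr.eq_of_le [Finite ι] {W W' : Gr k ι j} (h : W.1 ≤ W'.1) : W = W' :=
  Gr.ext (Submodule.eq_of_le_of_finrank_eq h (W.2.trans W'.2.symm))

lemma sp_surj [Finite ι] : Function.Surjective (sp (k := k) (ι := ι) (j := j)) := by
  rintro ⟨W, hW⟩
  let b : Basis (Fin j) k W := finBasisOfFinrankEq k W hW
  refine ⟨⟨fun i => (b i : ι → k), ?_⟩, ?_⟩
  · exact b.linearIndependent.map' W.subtype (Submodule.ker_subtype W)
  · apply Gr.ext
    change Submodule.span k (Set.range fun i => (b i : ι → k)) = W
    have : (Set.range fun i => (b i : ι → k)) = W.subtype '' Set.range b := by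
      rw [← Set.range_comp]; rfl
    rw [this, ← Submodule.map_span, b.span_eq, Submodule.map_top, Submodule.range_subtype]

end Defs

section Top

variable {k : Type*} [NontriviallyNormedField k] {ι : Type*} {j i : ℕ}

instance topGr : TopologicalSpace (Gr k ι j) :=
  TopologicalSpace.coinduced (sp (k := k) (ι := ι) (j := j)) inferInstance

lemma sp_quot [Finite ι] : IsQuotientMap (sp (k := k) (ι := ι) (j := j)) := ⟨⟨rfl⟩, sp_surj⟩

lemma sp_continuous : Continuous (sp (k := k) (ι := ι) (j := j)) := continuous_coinduced_rng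

variable [CompleteSpace k] [Fintype ι]

lemma sp_open : IsOpenMap (sp (k := k) (ι := ι) (j := j)) := by
  intro U hU
  rw [← (sp_quot (k := k) (ι := ι) (j := j)).isOpen_preimage, isOpen_iff_mem_nhds]
  rintro A0 ⟨B0, hB0, hsp⟩
  have hex : ∀ i, ∃ c : Fin j → k, ∑ l, c l • A0.1 l = B0.1 i := fun i => by
    have h1 : B0.1 i ∈ (sp A0).1 := by
      rw [← hsp]; exact Submodule.subset_span (Set.mem_range_self i)
    exact (Submodule.mem_span_range_iff_exists_fun k).1 h1
  choose c hc using hex
  let φ : (Fin j → ι → k) → (Fin j → ι → k) := fun A i => ∑ l, c i l • A l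
  have hφ : Continuous φ := by fun_prop
  have hφ0 : φ A0.1 = B0.1 := funext hc
  obtain ⟨V, hV, rfl⟩ := isOpen_induced_iff.1 hU
  have hB0' : φ A0.1 ∈ V := by rw [hφ0]; exact hB0
  have hN : ∀ᶠ A : Frm k ι j in 𝓝 A0, LinearIndependent k (φ A.1) ∧ φ A.1 ∈ V := by
    have hc1 : Continuous fun A : Frm k ι j => φ A.1 := hφ.comp continuous_subtype_val
    have hN1 : {f : Fin j → ι → k | LinearIndependent k f} ∈ 𝓝 (φ A0.1) := by
      refine isOpen_setOfPred_linearIndependent.mem_nhds ?_
      change LinearIndependent k (φ A0.1)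
      rw [hφ0]; exact B0.2
    have h1 := hc1.continuousAt.eventually_mem hN1
    have h2 := hc1.continuousAt.eventually_mem (hV.mem_nhds hB0')
    exact h1.and h2
  filter_upwards [hN] with A hA
  refine ⟨⟨φ A.1, hA.1⟩, hA.2, ?_⟩
  refine Gr.eq_of_le ?_
  rw [sp_val, sp_val, Submodule.span_le]
  rintro _ ⟨i, rfl⟩
  change φ A.1 i ∈ Submodule.span k (Set.range A.1)
  exact Submodule.sum_mem _ fun l _ =>
    Submodule.smul_mem _ _ (Submodule.subset_span (Set.mem_range_self l))

lemma sp_oq : IsOpenQuotientMap (sp (k := k) (ι := ι) (j := j)) :=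
  ⟨sp_surj, sp_continuous, sp_open⟩

/-- `{(x, B) | x ∈ span B}` is closed for vectors `x` and frames `B` -/
lemma mem_closed : IsClosed {p : (ι → k) × Frm k ι j | p.1 ∈ (sp p.2).1} := by
  rw [← isOpen_compl_iff]
  have : {p : (ι → k) × Frm k ι j | p.1 ∈ (sp p.2).1}ᶜ =
      (fun p : (ι → k) × Frm k ι j => (Fin.cons p.1 p.2.1 : Fin (j + 1) → ι → k)) ⁻¹'
        {f | LinearIndependent k f} := by
    ext p
    simp only [Set.mem_compl_iff, Set.mem_ofPred_eq, Set.mem_preimage, linearIndependent_finCons,
      sp_val]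
    exact ⟨fun h => ⟨p.2.2, h⟩, fun h => h.2⟩
  rw [this]
  refine isOpen_setOfPred_linearIndependent.preimage ?_
  refine continuous_pi fun l => ?_
  refine Fin.cases ?_ (fun l => ?_) l
  · simpa using continuous_fst
  · have : Continuous fun a : (ι → k) × Frm k ι j => a.2.1 l :=
      (continuous_apply l).comp (continuous_subtype_val.comp continuous_snd)
    simpa using this

/-- membership of a vector in a subspace is closed -/
lemma memGr_closed : IsClosed {p : (ι → k) × Gr k ι j | p.1 ∈ p.2.1} := by
  have hq : IsOpenQuotientMap (Prod.map (id : (ι → k) → (ι → k)) (sp (k := k) (ι := ι) (j := j))) :=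
    IsOpenQuotientMap.id.prodMap sp_oq
  rw [← hq.isQuotientMap.isClosed_preimage]
  exact mem_closed

/-- inclusion of subspaces is closed -/
lemma le_closed : IsClosed {p : Gr k ι i × Gr k ι j | p.1.1 ≤ p.2.1} := by
  have hq : IsOpenQuotientMap
      (Prod.map (sp (k := k) (ι := ι) (j := i)) (id : Gr k ι j → Gr k ι j)) :=
    sp_oq.prodMap IsOpenQuotientMap.id
  rw [← hq.isQuotientMap.isClosed_preimage]
  have : Prod.map (sp (k := k) (ι := ι) (j := i)) (id : Gr k ι j → Gr k ι j) ⁻¹'
      {p : Gr k ι i × Gr k ι j | p.1.1 ≤ p.2.1} =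
      ⋂ l : Fin i, (fun p : Frm k ι i × Gr k ι j => (p.1.1 l, p.2)) ⁻¹'
        {p : (ι → k) × Gr k ι j | p.1 ∈ p.2.1} := by
    ext p
    simp only [Set.mem_preimage, Prod.map_fst, Prod.map_snd, id_eq, Set.mem_ofPred_eq, sp_val,
      Submodule.span_le, Set.range_subset_iff, Set.mem_iInter, SetLike.mem_coe]
  rw [this]
  refine isClosed_iInter fun l => memGr_closed.preimage ?_
  exact ((continuous_apply l).comp (continuous_subtype_val.comp continuous_fst)).prodMk
    continuous_snd

instance t2Gr : T2Space (Gr k ι j) := by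
  rw [t2_iff_isClosed_diagonal]
  have : Set.diagonal (Gr k ι j) = {p : Gr k ι j × Gr k ι j | p.1.1 ≤ p.2.1} := by
    ext p
    simp only [Set.mem_diagonal_iff, Set.mem_ofPred_eq]
    exact ⟨fun h => h ▸ le_rfl, fun h => Gr.eq_of_le h⟩
  rw [this]
  exact le_closed

instance scGr [SecondCountableTopology k] : SecondCountableTopology (Gr k ι j) :=
  (sp_quot (k := k) (ι := ι) (j := j)).secondCountableTopology sp_open

end Top

end Vale.Agent.P092.H370
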