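import Vale.Agent.P092.H370.Gr

/-!
P092, TEAM N, block [N-GR] (helper370), second file: the Grassmannian is compact (reduced frames:
largest minor), hence metrizable; continuous actions; `SL` is transitive.
-/

namespace Vale.Agent.P092.H370

open TopologicalSpace Topology Module
open Vale.Agent.P092.H820
open scoped LinearAlgebra.Projectivization Matrix

section Red

variable {k : Type*} [NontriviallyNormedField k] {ι : Type*} [Fintype ι] {j : ℕ}

/-- reduced frames with pivots `I` -/
def Red (k : Type*) [NontriviallyNormedField k] {ι : Type*} [Fintype ι] {j : ℕ}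
    (I : Fin j → ι) : Set (Fin j → ι → k) :=
  {B | (∀ r s, B r (I s) = if r = s then 1 else 0) ∧ ∀ r c, ‖B r c‖ ≤ 1}

lemma Red.indep {I : Fin j → ι} {B : Fin j → ι → k} (hB : B ∈ Red k I) :
    LinearIndependent k B := by
  rw [Fintype.linearIndependent_iff]
  intro g hg s
  have h := congrFun hg (I s)
  simp only [Finset.sum_apply, Pi.smul_apply, smul_eq_mul, hB.1, mul_ite, mul_one, mul_zero,
    Pi.zero_apply] at h
  simpa using h

lemma Red.compact [ProperSpace k] (I : Fin j → ι) : IsCompact (Red k I) := by
  have hc : IsClosed (Red k I) := by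
    have h1 : Red k I = (⋂ r, ⋂ s, {B : Fin j → ι → k | B r (I s) = if r = s then 1 else 0}) ∩
        ⋂ r, ⋂ c, {B : Fin j → ι → k | ‖B r c‖ ≤ 1} := by
      ext B
      simp only [Red, Set.mem_ofPred_eq, Set.mem_inter_iff, Set.mem_iInter]
    rw [h1]
    refine IsClosed.inter (isClosed_iInter fun r => isClosed_iInter fun s => ?_)
      (isClosed_iInter fun r => isClosed_iInter fun c => ?_)
    · exact isClosed_eq (by fun_prop) continuous_const
    · exact isClosed_le (by fun_prop) continuous_const
  refine (isCompact_closedBall (0 : Fin j → ι → k) 1).of_isClosed_subset hc ?_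
  intro B hB
  rw [mem_closedBall_zero_iff, pi_norm_le_iff_of_nonneg zero_le_one]
  intro r
  rw [pi_norm_le_iff_of_nonneg zero_le_one]
  exact hB.2 r

/-- some minor of an independent frame is nonzero -/
lemma exists_minor (A : Frm k ι j) :
    ∃ I : Fin j → ι, ((Matrix.of A.1).submatrix id I).det ≠ 0 := by
  classical
  let M : Matrix (Fin j) ι k := Matrix.of A.1
  have hr : M.rank = j := by
    have : LinearIndependent k M.row := A.2
    simpa using this.rank_matrix
  have hf : finrank k (Submodule.span k (Set.range M.col)) = j := by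
    rw [← Matrix.rank_eq_finrank_span_cols]; exact hr
  obtain ⟨f, hfs, -, hfi⟩ := Submodule.exists_fun_fin_finrank_span_eq k (Set.range M.col)
  choose I0 hI0 using hfs
  let I : Fin j → ι := fun s => I0 (Fin.cast hf.symm s)
  refine ⟨I, ?_⟩
  have hi : LinearIndependent k (M.submatrix id I).col := by
    have h2 : (M.submatrix id I).col = f ∘ Fin.cast hf.symm := by
      funext s
      change M.col (I0 (Fin.cast hf.symm s)) = f (Fin.cast hf.symm s)
      exact hI0 _
    rw [h2]
    exact hfi.comp _ (Fin.cast_injective _)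
  have := Matrix.linearIndependent_cols_iff_isUnit.1 hi
  exact ((Matrix.isUnit_iff_isUnit_det _).1 this).ne_zero

/-- every subspace has a reduced frame -/
lemma exists_red (W : Gr k ι j) :
    ∃ I : Fin j → ι, ∃ B : Fin j → ι → k, ∃ hB : B ∈ Red k I, sp ⟨B, Red.indep hB⟩ = W := by
  classical
  obtain ⟨A, rfl⟩ := sp_surj W
  let M : Matrix (Fin j) ι k := Matrix.of A.1
  obtain ⟨I0, hI0⟩ := exists_minor A
  have : Nonempty (Fin j → ι) := ⟨I0⟩
  obtain ⟨I, hI⟩ := Finite.exists_max fun I : Fin j → ι => ‖(M.submatrix id I).det‖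
  have hd : (M.submatrix id I).det ≠ 0 := by
    intro h0
    have := hI I0
    rw [h0, norm_zero] at this
    exact hI0 (norm_eq_zero.1 (le_antisymm this (norm_nonneg _)))
  have hu : IsUnit (M.submatrix id I).det := isUnit_iff_ne_zero.2 hd
  let B : Matrix (Fin j) ι k := (M.submatrix id I)⁻¹ * M
  have hsub : ∀ J : Fin j → ι, B.submatrix id J = (M.submatrix id I)⁻¹ * M.submatrix id J := by
    intro J; ext r s; simp [B, Matrix.mul_apply]
  have hBI : B.submatrix id I = 1 := by rw [hsub, Matrix.nonsing_inv_mul _ hu]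
  have hB1 : ∀ r s, B r (I s) = if r = s then 1 else 0 := by
    intro r s
    have := congrFun (congrFun hBI r) s
    simpa [Matrix.one_apply] using this
  have hB2 : ∀ r c, ‖B r c‖ ≤ 1 := by
    intro r c
    have h1 : B r c = (B.submatrix id (Function.update I r c)).det := by
      have h2 : B.submatrix id (Function.update I r c) =
          (1 : Matrix (Fin j) (Fin j) k).updateCol r (fun i => B i c) := by
        ext a b
        rw [Matrix.updateCol_apply]
        by_cases hb : b = r
        · subst hb; simp
        · simp [hb, hB1, Matrix.one_apply]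
      rw [h2, ← Matrix.cramer_apply, Matrix.cramer_one]; rfl
    rw [h1, hsub, Matrix.det_mul, Matrix.det_nonsing_inv, Ring.inverse_eq_inv', norm_mul, norm_inv]
    rw [inv_mul_le_iff₀ (norm_pos_iff.2 hd), mul_one]
    exact hI _
  have hB : (B : Fin j → ι → k) ∈ Red k I := ⟨hB1, hB2⟩
  refine ⟨I, B, hB, ?_⟩
  refine Gr.eq_of_le ?_
  rw [sp_val, sp_val, Submodule.span_le]
  rintro _ ⟨r, rfl⟩
  have : B r = ∑ l, (M.submatrix id I)⁻¹ r l • A.1 l := by
    funext c
    simp only [B, Matrix.mul_apply, Finset.sum_apply, Pi.smul_apply, smul_eq_mul, M, Matrix.of_apply]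
  change B r ∈ Submodule.span k (Set.range A.1)
  rw [this]
  exact Submodule.sum_mem _ fun l _ =>
    Submodule.smul_mem _ _ (Submodule.subset_span (Set.mem_range_self l))

instance cptGr [ProperSpace k] : CompactSpace (Gr k ι j) := by
  refine ⟨?_⟩
  have hcov : (Set.univ : Set (Gr k ι j)) =
      ⋃ I : Fin j → ι, Set.range fun B : Red k I => sp ⟨B.1, Red.indep B.2⟩ := by
    refine (Set.eq_univ_of_forall fun W => ?_).symm
    obtain ⟨I, B, hB, h⟩ := exists_red W
    exact Set.mem_iUnion.2 ⟨I, ⟨⟨B, hB⟩, h⟩⟩
  rw [hcov]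
  refine isCompact_iUnion fun I => ?_
  have : CompactSpace (Red k I) := isCompact_iff_compactSpace.1 (Red.compact I)
  refine isCompact_range (sp_continuous.comp ?_)
  exact Continuous.subtype_mk continuous_subtype_val _

instance metGr [ProperSpace k] : MetrizableSpace (Gr k ι j) :=
  have : SecondCountableTopology k := secondCountable_of_proper
  inferInstance

end Red

section Act

variable {k : Type*} [Field k] {ι : Type*} {j : ℕ}
  {G : Type*} [Group G] [DistribMulAction G (ι → k)] [SMulCommClass G k (ι → k)]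

instance actGr : MulAction G (Gr k ι j) where
  smul g W := ⟨W.1.map (DistribMulAction.toLinearEquiv k (ι → k) g).toLinearMap, by
    rw [LinearEquiv.finrank_map_eq]; exact W.2⟩
  one_smul W := by
    apply Gr.ext
    change W.1.map _ = W.1
    ext x
    simp
  mul_smul g h W := by
    apply Gr.ext
    change W.1.map _ = (W.1.map _).map _
    ext x
    simp [mul_smul]

lemma smul_val (g : G) (W : Gr k ι j) :
    (g • W).1 = W.1.map (DistribMulAction.toLinearEquiv k (ι → k) g).toLinearMap := rfl

lemma mem_smul (g : G) (W : Gr k ι j) (x : ι → k) : x ∈ (g • W).1 ↔ g⁻¹ • x ∈ W.1 := by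
  rw [smul_val]
  constructor
  · rintro ⟨y, hy, rfl⟩
    change g⁻¹ • (g • y) ∈ W.1
    rwa [inv_smul_smul]
  · intro h
    exact ⟨_, h, smul_inv_smul g x⟩

lemma smul_mem_smul (g : G) (W : Gr k ι j) (x : ι → k) : g • x ∈ (g • W).1 ↔ x ∈ W.1 := by
  rw [mem_smul, inv_smul_smul]

lemma smul_le_smul {i : ℕ} (g : G) (W : Gr k ι j) (Z : Gr k ι i) :
    (g • W).1 ≤ (g • Z).1 ↔ W.1 ≤ Z.1 := by
  constructor
  · intro h x hx
    exact (smul_mem_smul g Z x).1 (h ((smul_mem_smul g W x).2 hx))
  · intro h x hx
    rw [mem_smul] at hx ⊢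
    exact h hx

/-- a frame moved by a group element -/
def actF (g : G) (A : Frm k ι j) : Frm k ι j :=
  ⟨fun l => g • A.1 l, A.2.map' (DistribMulAction.toLinearEquiv k (ι → k) g).toLinearMap
    (LinearEquiv.ker _)⟩

lemma sp_actF (g : G) (A : Frm k ι j) : sp (actF g A) = g • sp A := by
  apply Gr.ext
  rw [smul_val, sp_val, sp_val, Submodule.map_span, ← Set.range_comp]
  rfl

end Act

section ActTop

variable {k : Type*} [NontriviallyNormedField k] [CompleteSpace k] {ι : Type*} [Fintype ι] {j : ℕ}
  {G : Type*} [Group G] [TopologicalSpace G] [DistribMulAction G (ι → k)]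
  [SMulCommClass G k (ι → k)]

instance csGr [ContinuousSMul G (ι → k)] : ContinuousSMul G (Gr k ι j) where
  continuous_smul := by
    have hq : IsOpenQuotientMap
        (Prod.map (id : G → G) (sp (k := k) (ι := ι) (j := j))) :=
      IsOpenQuotientMap.id.prodMap sp_oq
    rw [← hq.continuous_comp_iff]
    have : ((fun p : G × Gr k ι j => p.1 • p.2) ∘ Prod.map id sp) =
        sp ∘ fun p : G × Frm k ι j => actF p.1 p.2 := by
      funext p
      exact (sp_actF p.1 p.2).symm
    rw [this]
    refine sp_continuous.comp (Continuous.subtype_mk ?_ _)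
    refine continuous_pi fun l => ?_
    exact continuous_fst.smul
      ((continuous_apply l).comp (continuous_subtype_val.comp continuous_snd))

end ActTop

end Vale.Agent.P092.H370
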