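import Vale.Agent.P092.H644.Gr3
import Vale.Agent.P092.H714.Cl7

/-!
P092 (helper370), block [P-GEO], part 1: polar geometry, algebra. Singular (= totally isotropic)
subspaces of a hermitian form `hf σ J` (letters of `H714.Cl`: rows, matrices act from the right),
orthogonality, prescribed products, adjacency, transitivity (Witt) of the group `GT` generated by
the transvections on the singular `j`-spaces, extension of singular spaces.
-/

set_option linter.all false

open Matrix Module Set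

namespace Vale.Agent.P092.H370.Po

open Vale.Agent.P092.H303 (FormGroup)
open Vale.Agent.P092.H714.Cl

variable {n : Type} [Fintype n] [DecidableEq n] {k : Type} [Field k]
  {σ : k →+* k} {ε : k} {J : Matrix n n k}

/-- orthogonality of subspaces -/
def Ort (σ : k →+* k) (J : Matrix n n k) (X Y : Submodule k (n → k)) : Prop :=
  ∀ x ∈ X, ∀ y ∈ Y, hf σ J x y = 0

/-- singular (totally isotropic) subspaces -/
def Sing (σ : k →+* k) (J : Matrix n n k) (X : Submodule k (n → k)) : Prop := Ort σ J X X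

theorem Ort.mono {X Y X' Y' : Submodule k (n → k)} (h : Ort σ J X Y) (h1 : X' ≤ X)
    (h2 : Y' ≤ Y) : Ort σ J X' Y' := fun x hx y hy => h x (h1 hx) y (h2 hy)

theorem Sing.mono {X X' : Submodule k (n → k)} (h : Sing σ J X) (h1 : X' ≤ X) : Sing σ J X' :=
  Ort.mono h h1 h1

theorem Ort.symm (hF : Frm σ ε J) {X Y : Submodule k (n → k)} (h : Ort σ J X Y) :
    Ort σ J Y X := fun y hy x hx => hF.symm_zero (h x hx y hy)

theorem ort_comm (hF : Frm σ ε J) {X Y : Submodule k (n → k)} : Ort σ J X Y ↔ Ort σ J Y X :=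
  ⟨fun h => h.symm hF, fun h => h.symm hF⟩

theorem Sing.zero {X : Submodule k (n → k)} (h : Sing σ J X) {x : n → k} (hx : x ∈ X) :
    hf σ J x x = 0 := h x hx x hx

theorem sing_bot : Sing σ J ⊥ := by
  intro x hx y hy
  rw [(Submodule.mem_bot k).1 hx]
  exact hf_zero_left σ J y

theorem ort_sup_left {X X' Y : Submodule k (n → k)} :
    Ort σ J (X ⊔ X') Y ↔ Ort σ J X Y ∧ Ort σ J X' Y := by
  constructor
  · intro h
    exact ⟨h.mono le_sup_left le_rfl, h.mono le_sup_right le_rfl⟩
  · rintro ⟨h1, h2⟩ z hz y hy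
    obtain ⟨a, ha, b, hb, rfl⟩ := Submodule.mem_sup.1 hz
    rw [hf_add_left, h1 a ha y hy, h2 b hb y hy, add_zero]

theorem ort_sup_right {X Y Y' : Submodule k (n → k)} :
    Ort σ J X (Y ⊔ Y') ↔ Ort σ J X Y ∧ Ort σ J X Y' := by
  constructor
  · intro h
    exact ⟨h.mono le_rfl le_sup_left, h.mono le_rfl le_sup_right⟩
  · rintro ⟨h1, h2⟩ x hx y hy
    obtain ⟨a, ha, b, hb, rfl⟩ := Submodule.mem_sup.1 hy
    rw [hf_add_right, h1 x hx a ha, h2 x hx b hb, add_zero]

theorem ort_span_left {v : n → k} {Y : Submodule k (n → k)} :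
    Ort σ J (Submodule.span k {v}) Y ↔ ∀ y ∈ Y, hf σ J v y = 0 := by
  constructor
  · intro h y hy
    exact h v (Submodule.mem_span_singleton_self v) y hy
  · intro h x hx y hy
    obtain ⟨a, rfl⟩ := Submodule.mem_span_singleton.1 hx
    rw [hf_smul_left, h y hy, mul_zero]

theorem ort_span_right {v : n → k} {X : Submodule k (n → k)} :
    Ort σ J X (Submodule.span k {v}) ↔ ∀ x ∈ X, hf σ J x v = 0 := by
  constructor
  · intro h x hx
    exact h x hx v (Submodule.mem_span_singleton_self v)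
  · intro h x hx y hy
    obtain ⟨a, rfl⟩ := Submodule.mem_span_singleton.1 hy
    rw [hf_smul_right, h x hx, mul_zero]

/-- adding a vector to a singular space -/
theorem sing_sup_span (hF : Frm σ ε J) {X : Submodule k (n → k)} (hX : Sing σ J X) {v : n → k}
    (hv : hf σ J v v = 0) (h : ∀ x ∈ X, hf σ J x v = 0) :
    Sing σ J (X ⊔ Submodule.span k {v}) := by
  unfold Sing
  rw [ort_sup_left, ort_sup_right, ort_sup_right, ort_span_left, ort_span_right]
  refine ⟨⟨hX, h⟩, fun x hx => hF.symm_zero (h x hx), ?_⟩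
  rw [ort_span_left]
  intro y hy
  obtain ⟨a, rfl⟩ := Submodule.mem_span_singleton.1 hy
  rw [hf_smul_right, hv, mul_zero]

/-- the orthogonal space (vectors `y` with `h(x, y) = 0` for `x ∈ X`) -/
def perp (σ : k →+* k) (J : Matrix n n k) (X : Submodule k (n → k)) : Submodule k (n → k) where
  carrier := {y | ∀ x ∈ X, hf σ J x y = 0}
  add_mem' := by
    intro a b ha hb x hx
    rw [hf_add_right, ha x hx, hb x hx, add_zero]
  zero_mem' := fun x _ => hf_zero_right σ J x
  smul_mem' := by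
    intro c a ha x hx
    rw [hf_smul_right, ha x hx, mul_zero]

theorem mem_perp {X : Submodule k (n → k)} {y : n → k} :
    y ∈ perp σ J X ↔ ∀ x ∈ X, hf σ J x y = 0 := Iff.rfl

theorem ort_iff_le_perp {X Y : Submodule k (n → k)} : Ort σ J X Y ↔ Y ≤ perp σ J X :=
  ⟨fun h y hy x hx => h x hx y hy, fun h x hx y hy => h hy x hx⟩

theorem perp_anti {X Y : Submodule k (n → k)} (h : X ≤ Y) : perp σ J Y ≤ perp σ J X :=
  fun y hy x hx => hy x (h hx)

/-- **prescribed products** on a subspace -/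
theorem exists_prod (hF : Frm σ ε J) (X : Submodule k (n → k)) (φ : X →ₗ[k] k) :
    ∃ y, ∀ x : X, hf σ J x.1 y = φ x := by
  -- the functionals `h(·, y)` on `X` form a subspace of the dual
  let D : Submodule k (Module.Dual k X) :=
    { carrier := {f | ∃ y, ∀ x : X, hf σ J x.1 y = f x}
      add_mem' := by
        rintro f g ⟨y, hy⟩ ⟨z, hz⟩
        exact ⟨y + z, fun x => by rw [hf_add_right, hy, hz]; rfl⟩
      zero_mem' := ⟨0, fun x => by rw [hf_zero_right]; rfl⟩
      smul_mem' := by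
        rintro c f ⟨y, hy⟩
        exact ⟨σ c • y, fun x => by rw [hf_smul_right, hF.inv, hy]; rfl⟩ }
  have hD : D = ⊤ := by
    by_contra hne
    -- a vector killed by `D`
    have h1 : D.dualCoannihilator ≠ ⊥ := by
      intro h0
      apply hne
      have h2 := Subspace.dualCoannihilator_dualAnnihilator_eq (W := D)
      rw [← h2, h0, Submodule.dualAnnihilator_bot]
    obtain ⟨x, hx, hx0⟩ := Submodule.exists_mem_ne_zero_of_ne_bot h1
    have hx0' : x.1 ≠ 0 := fun h => hx0 (Subtype.ext h)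
    obtain ⟨y, hy⟩ := hF.nondeg x.1 hx0'
    apply hy
    rw [Submodule.mem_dualCoannihilator] at hx
    let f : Module.Dual k X :=
      { toFun := fun x => hf σ J x.1 y
        map_add' := fun a b => hf_add_left σ J a.1 b.1 y
        map_smul' := fun c a => hf_smul_left σ J c a.1 y }
    exact hx f ⟨y, fun _ => rfl⟩
  have : φ ∈ D := by rw [hD]; trivial
  exact this

/-- the same with an isotropic vector, on a singular space -/
theorem exists_iso_prod (hF : Frm σ ε J) {X : Submodule k (n → k)} (hX : Sing σ J X)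
    (φ : X →ₗ[k] k) (hφ : φ ≠ 0) : ∃ z, hf σ J z z = 0 ∧ ∀ x : X, hf σ J x.1 z = φ x := by
  obtain ⟨y, hy⟩ := exists_prod hF X φ
  obtain ⟨u, hu⟩ : ∃ u : X, φ u ≠ 0 := by
    by_contra hc
    push Not at hc
    exact hφ (LinearMap.ext hc)
  obtain ⟨α, hα⟩ := hF.exists_corr (hX.zero u.2) (y := y) (by rw [hy]; exact hu)
  refine ⟨y + α • u.1, hα, fun x => ?_⟩
  rw [hf_add_right, hf_smul_right, hX x.1 x.2 u.1 u.2, mul_zero, add_zero, hy]

/-- a functional with given kernel and value -/
theorem exists_functional {X H : Submodule k (n → k)} (hH : H ≤ X) {u : n → k} (hu : u ∈ X)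
    (hun : u ∉ H) : ∃ φ : X →ₗ[k] k, φ ⟨u, hu⟩ = 1 ∧ ∀ x : X, x.1 ∈ H → φ x = 0 := by
  have h1 : (⟨u, hu⟩ : X) ∉ H.comap X.subtype := fun h => hun h
  obtain ⟨f, hf, hfH⟩ := Submodule.exists_dual_map_eq_bot_of_notMem h1 inferInstance
  refine ⟨(f ⟨u, hu⟩)⁻¹ • f, ?_, fun x hx => ?_⟩
  · change (f ⟨u, hu⟩)⁻¹ * f ⟨u, hu⟩ = 1
    exact inv_mul_cancel₀ hf
  · change (f ⟨u, hu⟩)⁻¹ * f x = 0
    have : f x ∈ (H.comap X.subtype).map f := ⟨x, hx, rfl⟩
    rw [hfH, Submodule.mem_bot] at this
    rw [this, mul_zero]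

end Vale.Agent.P092.H370.Po
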