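import Vale.Agent.P092.H370.Po1

/-!
P092 (helper370), block [P-GEO], part 2: Witt. The group `GT` generated by the transvections is
transitive on the singular subspaces of a given dimension; more precisely two of them are
exchanged by an element of `GT` fixing every vector of the intersection. Hence transitivity on
flags, connectedness, extension of singular subspaces.
-/

set_option linter.all false

open Matrix Module Set

namespace Vale.Agent.P092.H370.Po

open Vale.Agent.P092.H303 (FormGroup)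
open Vale.Agent.P092.H714.Cl

variable {n : Type} [Fintype n] [DecidableEq n] {k : Type} [Field k]
  {σ : k →+* k} {ε : k} {J : Matrix n n k}

/-- image of a subspace, rows -/
def act (g : SpecialLinearGroup n k) (X : Submodule k (n → k)) : Submodule k (n → k) :=
  X.map g.1.vecMulLinear

theorem mem_act {g : SpecialLinearGroup n k} {X : Submodule k (n → k)} {y : n → k} :
    y ∈ act g X ↔ ∃ x ∈ X, x ᵥ* g.1 = y := Submodule.mem_map

theorem vecMul_mem_act {g : SpecialLinearGroup n k} {X : Submodule k (n → k)} {x : n → k}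
    (hx : x ∈ X) : x ᵥ* g.1 ∈ act g X := mem_act.2 ⟨x, hx, rfl⟩

theorem act_mul (g g' : SpecialLinearGroup n k) (X : Submodule k (n → k)) :
    act (g * g') X = act g' (act g X) := by
  ext y
  constructor
  · intro h
    obtain ⟨x, hx, rfl⟩ := mem_act.1 h
    rw [vecMul_mul']
    exact vecMul_mem_act (vecMul_mem_act hx)
  · intro h
    obtain ⟨z, hz, rfl⟩ := mem_act.1 h
    obtain ⟨x, hx, rfl⟩ := mem_act.1 hz
    rw [← vecMul_mul']
    exact vecMul_mem_act hx

theorem act_one (X : Submodule k (n → k)) : act (1 : SpecialLinearGroup n k) X = X := by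
  ext y
  rw [mem_act]
  constructor
  · rintro ⟨x, hx, rfl⟩
    rwa [vecMul_one']
  · intro h
    exact ⟨y, h, vecMul_one' y⟩

theorem act_inv_act (g : SpecialLinearGroup n k) (X : Submodule k (n → k)) :
    act g⁻¹ (act g X) = X := by rw [← act_mul, mul_inv_cancel, act_one]

theorem act_act_inv (g : SpecialLinearGroup n k) (X : Submodule k (n → k)) :
    act g (act g⁻¹ X) = X := by rw [← act_mul, inv_mul_cancel, act_one]

theorem act_mono {g : SpecialLinearGroup n k} {X Y : Submodule k (n → k)} (h : X ≤ Y) :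
    act g X ≤ act g Y := Submodule.map_mono h

theorem act_le {g : SpecialLinearGroup n k} {X Y : Submodule k (n → k)} :
    act g X ≤ act g Y ↔ X ≤ Y := by
  refine ⟨fun h => ?_, act_mono⟩
  have := act_mono (g := g⁻¹) h
  rwa [act_inv_act, act_inv_act] at this

theorem act_inj {g : SpecialLinearGroup n k} {X Y : Submodule k (n → k)}
    (h : act g X = act g Y) : X = Y := by rw [← act_inv_act g X, h, act_inv_act]

theorem act_sup (g : SpecialLinearGroup n k) (X Y : Submodule k (n → k)) :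
    act g (X ⊔ Y) = act g X ⊔ act g Y := Submodule.map_sup _ _ _

theorem act_span (g : SpecialLinearGroup n k) (v : n → k) :
    act g (Submodule.span k {v}) = Submodule.span k {v ᵥ* g.1} := by
  unfold act
  rw [Submodule.map_span, image_singleton]
  rfl

theorem vecMul_inj (g : SpecialLinearGroup n k) :
    Function.Injective fun x : n → k => x ᵥ* g.1 := by
  intro x y h
  have h' : x ᵥ* g.1 = y ᵥ* g.1 := h
  have := congrArg (fun z => z ᵥ* (g⁻¹).1) h'
  simp only [← vecMul_mul', mul_inv_cancel, vecMul_one'] at this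
  exact this

theorem finrank_act (g : SpecialLinearGroup n k) (X : Submodule k (n → k)) :
    finrank k (act g X) = finrank k X := by
  unfold act
  exact (Submodule.equivMapOfInjective _ (vecMul_inj g) X).symm.finrank_eq

theorem Ort.act {g : SpecialLinearGroup n k} (hg : g ∈ FormGroup σ J)
    {X Y : Submodule k (n → k)} (h : Ort σ J X Y) : Ort σ J (act g X) (act g Y) := by
  intro x hx y hy
  obtain ⟨a, ha, rfl⟩ := mem_act.1 hx
  obtain ⟨b, hb, rfl⟩ := mem_act.1 hy
  rw [mem_formGroup.1 hg]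
  exact h a ha b hb

theorem Sing.act {g : SpecialLinearGroup n k} (hg : g ∈ FormGroup σ J)
    {X : Submodule k (n → k)} (h : Sing σ J X) : Sing σ J (act g X) := Ort.act hg h

theorem ort_act {g : SpecialLinearGroup n k} (hg : g ∈ FormGroup σ J)
    {X Y : Submodule k (n → k)} : Ort σ J (Po.act g X) (Po.act g Y) ↔ Ort σ J X Y := by
  refine ⟨fun h => ?_, fun h => h.act hg⟩
  have := h.act (inv_mem hg)
  rwa [act_inv_act, act_inv_act] at this

theorem sing_act {g : SpecialLinearGroup n k} (hg : g ∈ FormGroup σ J)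
    {X : Submodule k (n → k)} : Sing σ J (Po.act g X) ↔ Sing σ J X := ort_act hg

theorem finrank_sup_span {X : Submodule k (n → k)} {v : n → k} (hv : v ∉ X) :
    finrank k ↥(X ⊔ Submodule.span k {v}) = finrank k X + 1 := by
  have hv0 : v ≠ 0 := fun h => hv (by rw [h]; exact X.zero_mem)
  have h1 := Submodule.finrank_sup_add_finrank_inf_eq X (Submodule.span k {v})
  have h2 : X ⊓ Submodule.span k {v} = ⊥ := by
    rw [Submodule.eq_bot_iff]
    rintro x ⟨hx, hx'⟩
    obtain ⟨a, rfl⟩ := Submodule.mem_span_singleton.1 hx'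
    by_contra h
    have ha : a ≠ 0 := fun h' => h (by rw [h', zero_smul])
    apply hv
    have := X.smul_mem a⁻¹ hx
    rwa [smul_smul, inv_mul_cancel₀ ha, one_smul] at this
  rw [h2, finrank_bot, add_zero, finrank_span_singleton hv0] at h1
  exact h1

/-- an element fixing all vectors of `X` -/
theorem act_of_fix {g : SpecialLinearGroup n k} {X : Submodule k (n → k)}
    (h : ∀ x ∈ X, x ᵥ* g.1 = x) : Po.act g X = X := by
  ext y
  rw [mem_act]
  constructor
  · rintro ⟨x, hx, rfl⟩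
    rwa [h x hx]
  · intro hy
    exact ⟨y, hy, h y hy⟩

/-- a functional killing `Z`, nonzero at two given vectors outside `Z` -/
theorem exists_functional₂ {X Z : Submodule k (n → k)} (hZ : Z ≤ X) {u w : n → k} (hu : u ∈ X)
    (hw : w ∈ X) (hu1 : u ∉ Z) (hw1 : w ∉ Z) :
    ∃ φ : X →ₗ[k] k, φ ⟨u, hu⟩ ≠ 0 ∧ φ ⟨w, hw⟩ ≠ 0 ∧ ∀ x : X, x.1 ∈ Z → φ x = 0 := by
  obtain ⟨φ, h1, h2⟩ := exists_functional hZ hu hu1
  obtain ⟨ψ, h3, h4⟩ := exists_functional hZ hw hw1
  by_cases a : φ ⟨w, hw⟩ = 0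
  · by_cases b : ψ ⟨u, hu⟩ = 0
    · refine ⟨φ + ψ, ?_, ?_, fun x hx => ?_⟩
      · rw [LinearMap.add_apply, h1, b, add_zero]; exact one_ne_zero
      · rw [LinearMap.add_apply, h3, a, zero_add]; exact one_ne_zero
      · rw [LinearMap.add_apply, h2 x hx, h4 x hx, add_zero]
    · exact ⟨ψ, b, by rw [h3]; exact one_ne_zero, h4⟩
  · exact ⟨φ, by rw [h1]; exact one_ne_zero, a, h2⟩

/-- **adjacency step**: `u ↦ w` up to a scalar, every vector of `Z` fixed -/
theorem exists_adj (hF : Frm σ ε J) {Z : Submodule k (n → k)} (hZ : Sing σ J Z) {u w : n → k}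
    (hu : hf σ J u u = 0) (hw : hf σ J w w = 0) (huZ : ∀ x ∈ Z, hf σ J x u = 0)
    (hwZ : ∀ x ∈ Z, hf σ J x w = 0) (hu1 : u ∉ Z) (hw1 : w ∉ Z) :
    ∃ g ∈ GT σ ε J, ∃ a : k, a ≠ 0 ∧ u ᵥ* g.1 = a • w ∧ ∀ y ∈ Z, y ᵥ* g.1 = y := by
  by_cases huw : hf σ J u w = 0
  · -- the sum is singular
    have s1 : Sing σ J (Z ⊔ Submodule.span k {u}) := sing_sup_span hF hZ hu huZ
    have s2 : ∀ x ∈ Z ⊔ Submodule.span k {u}, hf σ J x w = 0 := by
      intro x hx
      obtain ⟨a, ha, b, hb, rfl⟩ := Submodule.mem_sup.1 hx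
      obtain ⟨c, rfl⟩ := Submodule.mem_span_singleton.1 hb
      rw [hf_add_left, hf_smul_left, huw, mul_zero, hwZ a ha, add_zero]
    have s3 := sing_sup_span hF s1 hw s2
    set T := Z ⊔ Submodule.span k {u} ⊔ Submodule.span k {w} with hT
    have hZT : Z ≤ T := le_sup_left.trans le_sup_left
    have huT : u ∈ T := (le_sup_right.trans le_sup_left : Submodule.span k {u} ≤ T)
      (Submodule.mem_span_singleton_self u)
    have hwT : w ∈ T := (le_sup_right : Submodule.span k {w} ≤ T)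
      (Submodule.mem_span_singleton_self w)
    obtain ⟨φ, h1, h2, h3⟩ := exists_functional₂ hZT huT hwT hu1 hw1
    obtain ⟨z, hz, hzφ⟩ := exists_iso_prod hF s3 φ (fun h => h1 (by rw [h]; rfl))
    have h4 : hf σ J u z ≠ 0 := by
      have := hzφ ⟨u, huT⟩
      rw [this]; exact h1
    have h5 : hf σ J z w ≠ 0 := by
      apply hF.symm_ne
      have := hzφ ⟨w, hwT⟩
      rw [this]; exact h2
    have h6 : ∀ y ∈ Z, hf σ J y z = 0 := fun y hy => by
      have := hzφ ⟨y, hZT hy⟩
      rw [this]; exact h3 _ hy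
    obtain ⟨g, hg, a, ha, hga, hgf⟩ := trans_step hF hu hz h4
    obtain ⟨g', hg', a', ha', hga', hgf'⟩ := trans_step hF hz hw h5
    refine ⟨g * g', mul_mem hg hg', a * a', mul_ne_zero ha ha', ?_, fun y hy => ?_⟩
    · rw [vecMul_mul', hga, smul_vecMul, hga', smul_smul]
    · rw [vecMul_mul', hgf y (huZ y hy) (h6 y hy), hgf' y (h6 y hy) (hwZ y hy)]
  · obtain ⟨g, hg, a, ha, hga, hgf⟩ := trans_step hF hu hw huw
    exact ⟨g, hg, a, ha, hga, fun y hy => hgf y (huZ y hy) (hwZ y hy)⟩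

/-- moving towards `Y`: a hyperplane `H` of `X` containing `X ⊓ Y` and a vector `y` of `Y`
outside `X`, orthogonal to `H` -/
theorem exists_split {X Y : Submodule k (n → k)} (hX : Sing σ J X)
    (hY : Sing σ J Y) (h : finrank k X = finrank k Y) (hne : X ≠ Y) :
    ∃ (H : Submodule k (n → k)) (u y : n → k), H ≤ X ∧ u ∈ X ∧ u ∉ H ∧
      X = H ⊔ Submodule.span k {u} ∧ y ∈ Y ∧ y ∉ X ∧ X ⊓ Y ≤ H ∧ (∀ x ∈ H, hf σ J x y = 0) ∧
      finrank k ↥(X ⊓ Y) < finrank k ↥((H ⊔ Submodule.span k {y}) ⊓ Y) := by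
  have hXY : ¬ X ≤ Y := fun hle => hne (Submodule.eq_of_le_of_finrank_eq hle h)
  have hYX : ¬ Y ≤ X := fun hle => hne (Submodule.eq_of_le_of_finrank_eq hle h.symm).symm
  obtain ⟨y, hyY, hyX⟩ := SetLike.not_le_iff_exists.1 hYX
  -- a functional on `X` vanishing on `X ⊓ Y` whose kernel is orthogonal to `y`
  obtain ⟨φ, u, hφu, hφ0, hφp⟩ : ∃ (φ : X →ₗ[k] k) (u : X), φ u = 1 ∧
      (∀ x : X, x.1 ∈ Y → φ x = 0) ∧ ∀ x : X, φ x = 0 → hf σ J x.1 y = 0 := by
    by_cases hc : ∀ x : X, hf σ J x.1 y = 0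
    · obtain ⟨u, huX, huY⟩ := SetLike.not_le_iff_exists.1 hXY
      obtain ⟨φ, h1, h2⟩ := exists_functional (inf_le_left : X ⊓ Y ≤ X) huX (fun h => huY h.2)
      exact ⟨φ, ⟨u, huX⟩, h1, fun x hx => h2 x ⟨x.2, hx⟩, fun x _ => hc x⟩
    · push Not at hc
      obtain ⟨u, hu⟩ := hc
      let f : X →ₗ[k] k :=
        { toFun := fun x => (hf σ J u.1 y)⁻¹ * hf σ J x.1 y
          map_add' := fun a b => by
            change _ * hf σ J (a.1 + b.1) y = _
            rw [hf_add_left, mul_add]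
          map_smul' := fun c a => by
            change _ * hf σ J (c • a.1) y = c * (_ * _)
            rw [hf_smul_left]; ring }
      refine ⟨f, u, inv_mul_cancel₀ hu, fun x hx => ?_, fun x hx => ?_⟩
      · change _ * hf σ J x.1 y = 0
        rw [hY x.1 hx y hyY, mul_zero]
      · have hx' : (hf σ J u.1 y)⁻¹ * hf σ J x.1 y = 0 := hx
        exact (mul_eq_zero.1 hx').resolve_left (inv_ne_zero hu)
  set H : Submodule k (n → k) := (LinearMap.ker φ).map X.subtype with hH
  have hHX : H ≤ X := by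
    rintro _ ⟨x, -, rfl⟩
    exact x.2
  have memH : ∀ x : X, x.1 ∈ H ↔ φ x = 0 := by
    intro x
    constructor
    · rintro ⟨x', hx', he⟩
      have : x' = x := Subtype.ext he
      subst this
      exact hx'
    · intro hx
      exact ⟨x, hx, rfl⟩
  have hIH : X ⊓ Y ≤ H := fun x hx => (memH ⟨x, hx.1⟩).2 (hφ0 ⟨x, hx.1⟩ hx.2)
  have hXe : X = H ⊔ Submodule.span k {u.1} := by
    apply le_antisymm
    · intro x hx
      have e : x = (x - φ ⟨x, hx⟩ • u.1) + φ ⟨x, hx⟩ • u.1 := by abel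
      rw [e]
      refine Submodule.add_mem_sup ?_ (Submodule.smul_mem _ _ (Submodule.mem_span_singleton_self _))
      have : (x - φ ⟨x, hx⟩ • u.1) = ((⟨x, hx⟩ : X) - φ ⟨x, hx⟩ • u).1 := rfl
      rw [this, memH, map_sub, map_smul, hφu, smul_eq_mul, mul_one, sub_self]
    · exact sup_le hHX ((Submodule.span_singleton_le_iff_mem _ _).2 u.2)
  have huH : u.1 ∉ H := by
    rw [memH, hφu]; exact one_ne_zero
  refine ⟨H, u.1, y, hHX, u.2, huH, hXe, hyY, hyX, hIH,
    fun x hx => hφp ⟨x, hHX hx⟩ ((memH ⟨x, hHX hx⟩).1 hx), ?_⟩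
  apply Submodule.finrank_lt_finrank_of_lt
  refine lt_of_le_of_ne (fun x hx => ⟨(le_sup_left : H ≤ _) (hIH hx), hx.2⟩) (fun he => hyX ?_)
  have : y ∈ (H ⊔ Submodule.span k {y}) ⊓ Y :=
    ⟨(le_sup_right : Submodule.span k {y} ≤ _) (Submodule.mem_span_singleton_self y), hyY⟩
  rw [← he] at this
  exact this.1

/-- one step of the induction -/
theorem exists_closer (hF : Frm σ ε J) {X Y : Submodule k (n → k)} (hX : Sing σ J X)
    (hY : Sing σ J Y) (h : finrank k X = finrank k Y) (hne : X ≠ Y) :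
    ∃ g ∈ GT σ ε J, (∀ x ∈ X ⊓ Y, x ᵥ* g.1 = x) ∧
      finrank k ↥(X ⊓ Y) < finrank k ↥(act g X ⊓ Y) := by
  obtain ⟨H, u, y, hHX, huX, huH, hXe, hyY, hyX, hIH, hp, hlt⟩ := exists_split hX hY h hne
  obtain ⟨g, hg, a, ha, hga, hgf⟩ := exists_adj hF (hX.mono hHX) (hX.zero huX) (hY.zero hyY)
    (fun x hx => hX x (hHX hx) u huX) hp huH (fun h => hyX (hHX h))
  refine ⟨g, hg, fun x hx => hgf x (hIH hx), ?_⟩
  have e1 : act g X = H ⊔ Submodule.span k {y} := by
    rw [hXe, act_sup, act_of_fix hgf, act_span, hga]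
    congr 1
    exact Submodule.span_singleton_smul_eq (IsUnit.mk0 a ha) y
  rw [e1]
  exact hlt

/-- **Witt**: `GT` is transitive on the singular `j`-spaces; the element may be chosen to fix all
vectors of `X ⊓ Y` -/
theorem trans_sing (hF : Frm σ ε J) {X Y : Submodule k (n → k)} (hX : Sing σ J X)
    (hY : Sing σ J Y) (h : finrank k X = finrank k Y) :
    ∃ g ∈ GT σ ε J, act g X = Y ∧ ∀ x ∈ X ⊓ Y, x ᵥ* g.1 = x := by
  obtain ⟨m, hm⟩ : ∃ m, finrank k Y - finrank k ↥(X ⊓ Y) = m := ⟨_, rfl⟩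
  induction m using Nat.strong_induction_on generalizing X with
  | _ m ih =>
    by_cases hne : X = Y
    · exact ⟨1, one_mem _, by rw [act_one, hne], fun x _ => vecMul_one' x⟩
    · obtain ⟨g, hg, h1, h2⟩ := exists_closer hF hX hY h hne
      have h3 : finrank k ↥(act g X ⊓ Y) ≤ finrank k Y :=
        Submodule.finrank_mono inf_le_right
      obtain ⟨g', hg', h4, h5⟩ := ih _ (by omega) (hX.act (GT_le hF hg))
        ((finrank_act g X).trans h) rfl
      refine ⟨g * g', mul_mem hg hg', by rw [act_mul, h4], fun x hx => ?_⟩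
      rw [vecMul_mul', h1 x hx]
      refine h5 x ⟨?_, hx.2⟩
      have := vecMul_mem_act (g := g) hx.1
      rwa [h1 x hx] at this

/-- subspaces of every smaller dimension -/
theorem exists_sub {Y : Submodule k (n → k)} {j : ℕ} (h : j ≤ finrank k Y) :
    ∃ Z ≤ Y, finrank k Z = j := by
  obtain ⟨f, hf⟩ := exists_linearIndependent_of_le_finrank h
  refine ⟨(Submodule.span k (range f)).map Y.subtype, ?_, ?_⟩
  · rintro _ ⟨x, -, rfl⟩
    exact x.2
  · rw [← (Submodule.equivMapOfInjective _ Y.injective_subtype _).finrank_eq,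
      finrank_span_eq_card hf, Fintype.card_fin]

/-- subspaces of every dimension between two given ones -/
theorem exists_between {X Y : Submodule k (n → k)} (hXY : X ≤ Y) {j : ℕ} (h1 : finrank k X ≤ j)
    (h2 : j ≤ finrank k Y) : ∃ Z, X ≤ Z ∧ Z ≤ Y ∧ finrank k Z = j := by
  obtain ⟨m, rfl⟩ := Nat.exists_eq_add_of_le h1
  induction m with
  | zero => exact ⟨X, le_rfl, hXY, rfl⟩
  | succ m ih =>
    obtain ⟨Z, h3, h4, h5⟩ := ih (by omega) (by omega)
    have h6 : ¬ Y ≤ Z := fun h => by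
      have := Submodule.finrank_mono h
      omega
    obtain ⟨y, hy, hyZ⟩ := SetLike.not_le_iff_exists.1 h6
    refine ⟨Z ⊔ Submodule.span k {y}, h3.trans le_sup_left,
      sup_le h4 ((Submodule.span_singleton_le_iff_mem _ _).2 hy), ?_⟩
    rw [finrank_sup_span hyZ, h5]
    rfl

/-- extension of singular subspaces: if `dim X < dim Y` then `X` lies in a singular space of
dimension `dim X + 1` -/
theorem exists_extend (hF : Frm σ ε J) {X Y : Submodule k (n → k)} (hX : Sing σ J X)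
    (hY : Sing σ J Y) (h : finrank k X < finrank k Y) :
    ∃ v, v ∉ X ∧ hf σ J v v = 0 ∧ ∀ x ∈ X, hf σ J x v = 0 := by
  obtain ⟨Z, hZY, hZ⟩ := exists_sub h.le
  obtain ⟨g, hg, hgX, -⟩ := trans_sing hF hX (hY.mono hZY) hZ.symm
  have h6 : ¬ Y ≤ Z := fun h' => by
    have := Submodule.finrank_mono h'
    omega
  obtain ⟨y, hy, hyZ⟩ := SetLike.not_le_iff_exists.1 h6
  have hgF := GT_le hF hg
  refine ⟨y ᵥ* (g⁻¹).1, fun hc => hyZ ?_, iso_vecMul (inv_mem hgF) (hY.zero hy),
    fun x hx => ?_⟩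
  · rw [← hgX, mem_act]
    exact ⟨_, hc, by rw [← vecMul_mul', inv_mul_cancel, vecMul_one']⟩
  · rw [← mem_formGroup.1 hgF x, ← vecMul_mul', inv_mul_cancel, vecMul_one']
    refine hY _ (hZY ?_) y hy
    rw [← hgX]
    exact vecMul_mem_act hx

/-- the Witt index -/
def WI (σ : k →+* k) (J : Matrix n n k) (r : ℕ) : Prop :=
  (∃ Y, Sing σ J Y ∧ finrank k Y = r) ∧ ∀ Y, Sing σ J Y → finrank k Y ≤ r

/-- every singular space lies in a singular space of dimension `j`, for `j ≤ r` -/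
theorem exists_above (hF : Frm σ ε J) {X Y : Submodule k (n → k)} (hX : Sing σ J X)
    (hY : Sing σ J Y) {j : ℕ} (h1 : finrank k X ≤ j) (h2 : j ≤ finrank k Y) :
    ∃ Z, X ≤ Z ∧ Sing σ J Z ∧ finrank k Z = j := by
  obtain ⟨m, rfl⟩ := Nat.exists_eq_add_of_le h1
  induction m with
  | zero => exact ⟨X, le_rfl, hX, rfl⟩
  | succ m ih =>
    obtain ⟨Z, h3, h4, h5⟩ := ih (by omega) (by omega)
    obtain ⟨v, hv, hvv, hvZ⟩ := exists_extend hF h4 hY (by omega)
    refine ⟨Z ⊔ Submodule.span k {v}, h3.trans le_sup_left, sing_sup_span hF h4 hvv hvZ, ?_⟩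
    rw [finrank_sup_span hv, h5]
    rfl

end Vale.Agent.P092.H370.Po
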