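import Vale.Agent.P092.H370.Sp4b
import Vale.Agent.P092.H514.NoInvRP
import Vale.Agent.P092.H76.PurA

/-!
P092 (helper370), TEAM P, stage 1, row [P-NIS]: the wall elements contract the big cells; no
invariant states on the functions of points / of lines for lattices of `Sp_4(k)` (and of its
quotients).
-/

set_option linter.all false

open Matrix Module Set Topology TopologicalSpace Filter
open scoped LinearAlgebra.Projectivization

namespace Vale.Agent.P092.SP4

open Vale.Agent.P092.H303 (FormGroup)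
open Vale.Agent.P092.H100.Gr (Gr Fr sp mn)
open Vale.Agent.P092.RC (GG YY y0 ct)
open Vale.Agent.P092.H644.Gr3 (p1)

/-! ### abstract data from a contraction -/

section abs

variable {G X : Type*} [Group G] [TopologicalSpace X] [CompactSpace X] [T2Space X] [MulAction G X]
  [ContinuousConstSMul G X]

/-- `c` contracts the compact subsets of `U` to `x0` -/
def Ctr (c : G) (U : Set X) (x0 : X) : Prop :=
  ∀ K ⊆ U, IsCompact K → ∀ V, IsOpen V → x0 ∈ V → ∃ n : ℕ, ∀ x ∈ K, c ^ n • x ∈ V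

theorem exists_data {c : G} {U : Set X} {x0 : X} (hU : IsOpen U) (hx0 : x0 ∈ U)
    (hc : Ctr c U x0) (hu : ∀ V, IsOpen V → x0 ∈ V → ∃ u : G, u • x0 ∈ V ∧ u • x0 ≠ x0)
    (htr : ∀ x : X, ∃ g : G, g • x = x0) :
    ∃ (F : C(X, ℝ)) (a b : G) (T : Finset G), 0 ≤ F ∧
      (∀ x, F (a • x) + F (b • x) ≤ F x) ∧ ∀ x, ∃ g ∈ T, 1 ≤ F (g • x) := by
  classical
  -- the bump
  obtain ⟨K, hK, hx0K, hKU⟩ := exists_compact_subset hU hx0
  obtain ⟨K', hK', hx0K', hK'K⟩ := exists_compact_subset isOpen_interior hx0K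
  obtain ⟨f, hf0, hf1, hf01⟩ := exists_continuous_zero_one_of_isClosed
    (isOpen_interior (s := K)).isClosed_compl hK'.isClosed (by
      rw [Set.disjoint_left]
      intro x hx hx'
      exact hx (hK'K hx'))
  have hfK : ∀ x, f x ≠ 0 → x ∈ K := fun x hx => by
    by_contra hc
    exact hx (hf0 fun h => hc (interior_subset h))
  -- the two contractions
  set V : Set X := interior K' with hV
  have hVo : IsOpen V := isOpen_interior
  have hfV : ∀ x ∈ V, f x = 1 := fun x hx => hf1 (interior_subset hx)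
  obtain ⟨u, huV, hune⟩ := hu V hVo hx0K'
  obtain ⟨A, B, hA, hB, hx0A, hux0B, hAB⟩ := t2_separation hune.symm
  set V' : Set X := V ∩ (fun x => u • x) ⁻¹' V ∩ A ∩ (fun x => u • x) ⁻¹' B with hV'
  have hV'o : IsOpen V' := ((hVo.inter (hVo.preimage (continuous_const_smul u))).inter hA).inter
    (hB.preimage (continuous_const_smul u))
  have hx0V' : x0 ∈ V' := ⟨⟨⟨hx0K', huV⟩, hx0A⟩, hux0B⟩
  obtain ⟨n, hn⟩ := hc K hKU hK V' hV'o hx0V'
  -- the cover
  have hop : ∀ g : G, IsOpen {x : X | 1 / 2 < f (g • x)} := fun g =>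
    isOpen_lt continuous_const (f.continuous.comp (continuous_const_smul g))
  have hcov : (Set.univ : Set X) ⊆ ⋃ g : G, {x : X | 1 / 2 < f (g • x)} := by
    intro x _
    obtain ⟨g, hg⟩ := htr x
    refine mem_iUnion.2 ⟨g, ?_⟩
    change 1 / 2 < f (g • x)
    rw [hg, hfV x0 hx0K']
    norm_num
  obtain ⟨T, hT⟩ := isCompact_univ.elim_finite_subcover _ hop hcov
  have f0 : ∀ x, 0 ≤ f x := fun x => (hf01 x).1
  have f1 : ∀ x, f x ≤ 1 := fun x => (hf01 x).2
  refine ⟨(2 : ℝ) • f, (c ^ n)⁻¹, (u * c ^ n)⁻¹, T, fun x => ?_, fun x => ?_, fun x => ?_⟩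
  · change (0 : ℝ) ≤ 2 * f x
    linarith [f0 x]
  · change 2 * f ((c ^ n)⁻¹ • x) + 2 * f ((u * c ^ n)⁻¹ • x) ≤ 2 * f x
    have h1 : f ((c ^ n)⁻¹ • x) ≠ 0 → x ∈ V' := fun h => by
      have := hn _ (hfK _ h)
      rwa [smul_inv_smul] at this
    have h2 : f ((u * c ^ n)⁻¹ • x) ≠ 0 → ∃ y ∈ V', u • y = x := fun h => by
      refine ⟨_, hn _ (hfK _ h), ?_⟩
      rw [smul_smul, smul_inv_smul]
    by_cases a1 : f ((c ^ n)⁻¹ • x) = 0
    · by_cases a2 : f ((u * c ^ n)⁻¹ • x) = 0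
      · rw [a1, a2]; linarith [f0 x]
      · obtain ⟨y, hy, rfl⟩ := h2 a2
        rw [a1, hfV _ hy.1.1.2]
        linarith [f1 ((u * c ^ n)⁻¹ • u • y)]
    · have hx := h1 a1
      by_cases a2 : f ((u * c ^ n)⁻¹ • x) = 0
      · rw [a2, hfV _ hx.1.1.1]
        linarith [f1 ((c ^ n)⁻¹ • x)]
      · obtain ⟨y, hy, rfl⟩ := h2 a2
        exact absurd hy.2 (Set.disjoint_left.1 hAB hx.1.2)
  · obtain ⟨g, hg, hx⟩ := mem_iUnion₂.1 (hT (mem_univ x))
    have hx' : 1 / 2 < f (g • x) := hx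
    refine ⟨g, hg, ?_⟩
    change (1 : ℝ) ≤ 2 * f (g • x)
    linarith

end abs

/-! ### no invariant state -/

section nis

open Vale.Agent.P092.H514.NI (Covol tr toC no_inv)
open Vale.Agent.P092.H76.Pur (NIS)

/-- A continuous action factors through an open quotient of groups. -/
theorem csmul_of_quot {D E X : Type*} [TopologicalSpace D] [TopologicalSpace E]
    [TopologicalSpace X] [SMul D X] [SMul E X] [ContinuousSMul D X] {ι : D → E}
    (hι : IsOpenQuotientMap ι) (h : ∀ g (x : X), ι g • x = g • x) : ContinuousSMul E X where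
  continuous_smul := by
    have hq : IsOpenQuotientMap (Prod.map ι (id : X → X)) := hι.prodMap IsOpenQuotientMap.id
    rw [← hq.continuous_comp_iff]
    have e : (fun p : E × X => p.1 • p.2) ∘ Prod.map ι id = fun p : D × X => p.1 • p.2 := by
      funext p
      exact h p.1 p.2
    rw [e]
    exact continuous_smul

/-- **No invariant state**, from the data of the big group. -/
theorem nis_of_data {E X : Type*} [Group E] [TopologicalSpace E] [IsTopologicalGroup E]
    [TopologicalSpace X] [CompactSpace X] [MulAction E X] [ContinuousSMul E X]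
    (hd : ∃ (F : C(X, ℝ)) (a b : E) (T : Finset E), 0 ≤ F ∧
      (∀ x, F (a • x) + F (b • x) ≤ F x) ∧ ∀ x, ∃ g ∈ T, 1 ≤ F (g • x))
    {Γ : Subgroup E} (hΓ : Covol Γ) (act : Γ → X → X) (hact : ∀ γ x, act γ x = (γ : E) • x) :
    NIS act := by
  intro φ h0 h1 hinv
  obtain ⟨ν, hν0, hνf, hν⟩ := hΓ
  obtain ⟨F, a, b, T, hF, hab, hT⟩ := hd
  let ψ : C(X, ℝ) →ₗ[ℝ] ℝ :=
    { toFun := fun F => (φ (toC F)).re
      map_add' := fun F G => by
        have : toC (F + G) = toC F + toC G := by ext x; simp [toC]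
        rw [this, map_add, Complex.add_re]
      map_smul' := fun c F => by
        have : toC (c • F) = (c : ℂ) • toC F := by ext x; simp [toC]
        rw [this, map_smul]
        simp }
  have hT' : ∀ x, 1 ≤ ∑ g ∈ T, F ((MonoidHom.id E) g • x) := by
    intro x
    obtain ⟨g, hg, hgx⟩ := hT x
    exact hgx.trans (Finset.single_le_sum (f := fun g : E => F (g • x))
      (fun g _ => hF (g • x)) hg)
  refine no_inv (MonoidHom.id E) continuous_id Γ ν hν0 hνf hν F hF a b hab T hT' ψ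
    (fun F hF => ?_) ?_ fun γ hγ F => ?_
  · let G : C(X, ℝ) := ⟨fun x => Real.sqrt (F x), F.continuous.sqrt⟩
    have e : toC F = star (toC G) * toC G := by
      ext x
      simp only [toC, ContinuousMap.coe_mk, ContinuousMap.mul_apply,
        ContinuousMap.star_apply, Complex.star_def, Complex.conj_ofReal, ← Complex.ofReal_mul, G]
      exact congrArg _ (Real.mul_self_sqrt (hF x)).symm
    change 0 ≤ (φ (toC F)).re
    rw [e]
    exact h0 _
  · have : toC (1 : C(X, ℝ)) = 1 := by ext x; simp [toC]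
    change (φ (toC 1)).re = 1
    rw [this, h1, Complex.one_re]
  · change (φ (toC (tr F ((MonoidHom.id E) γ)))).re = (φ (toC F)).re
    congr 1
    exact (hinv ⟨γ, hγ⟩ (toC (tr F γ)) (toC F) fun x => by
      rw [hact]
      rfl).symm

end nis

/-! ### contraction of the big cells -/

section contract

variable {k : Type} [NontriviallyNormedField k] {j : ℕ}

theorem isOpen_li {ι : Type*} [Fintype ι] : IsOpen {w : Fin j → ι → k | LinearIndependent k w} := by
  have e : {w : Fin j → ι → k | LinearIndependent k w} =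
      ⋃ I : Fin j → ι, {w | mn I w ≠ 0} := by
    ext w
    simp only [mem_setOf_eq, mem_iUnion]
    exact H100.Gr.li_iff
  rw [e]
  exact isOpen_iUnion fun I => isOpen_ne_fun (H100.Gr.mn_cont I) continuous_const

theorem isOpen_sp {ι : Type*} [Fintype ι] {V : Set (Gr k ι j)} (hV : IsOpen V) :
    IsOpen {w : Fin j → ι → k | ∃ h : LinearIndependent k w, (sp ⟨w, h⟩ : Gr k ι j) ∈ V} := by
  have h1 : IsOpen ((sp : Fr k ι j → Gr k ι j) ⁻¹' V) := hV.preimage H100.Gr.sp_cont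
  have h2 := (isOpen_li (k := k) (j := j) (ι := ι)).isOpenMap_subtype_val _ h1
  convert h2 using 1
  ext w
  constructor
  · rintro ⟨h, hw⟩
    exact ⟨⟨w, h⟩, hw, rfl⟩
  · rintro ⟨v, hv, rfl⟩
    exact ⟨v.2, hv⟩

/-- **contraction** by diagonal matrices -/
theorem contract (I : Fin j → Fin 4) (d : k → Fin 4 → k) (hd : Continuous d)
    (h1 : ∀ t b, d t (I b) = 1) (h0 : ∀ i, i ∉ range I → d 0 i = 0)
    {K : Set (Gr k (Fin 4) j)} (hK : IsCompact K)
    (hKI : ∀ v : Fr k (Fin 4) j, sp v ∈ K → mn I v.1 ≠ 0) {V : Set (Gr k (Fin 4) j)}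
    (hV : IsOpen V) (hx : ∀ v : Fr k (Fin 4) j, (∀ b i, i ∉ range I → v.1 b i = 0) → sp v ∈ V) :
    ∃ δ > (0 : ℝ), ∀ t : k, ‖t‖ < δ → ∀ (g : SpecialLinearGroup (Fin 4) k) (c : k), c ≠ 0 →
      (∀ x : Fin 4 → k, g • x = c • (d t * x)) → ∀ L ∈ K, g • L ∈ V := by
  set O : Set (Fin j → Fin 4 → k) :=
    {w | ∃ h : LinearIndependent k w, (sp ⟨w, h⟩ : Gr k (Fin 4) j) ∈ V} with hO
  have hOo : IsOpen O := isOpen_sp hV
  let Ψ : k × Fr k (Fin 4) j → Fin j → Fin 4 → k := fun p b => d p.1 * p.2.1 b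
  have hΨ : Continuous Ψ := by
    refine continuous_pi fun b => ?_
    exact (hd.comp continuous_fst).mul
      ((continuous_apply b).comp (H100.Gr.fr_val_cont.comp continuous_snd))
  have hmn : ∀ p : k × Fr k (Fin 4) j, mn I (Ψ p) = mn I p.2.1 := by
    intro p
    unfold mn
    congr 1
    ext b a
    change d p.1 (I a) * p.2.1 b (I a) = _
    rw [h1, one_mul]
    rfl
  have key : ∃ δ > (0 : ℝ), ∀ t : k, ‖t‖ < δ → ∀ L ∈ K, ∃ v : Fr k (Fin 4) j, sp v = L ∧
      Ψ (t, v) ∈ O := by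
    refine hK.induction_on (p := fun S => ∃ δ > (0 : ℝ), ∀ t : k, ‖t‖ < δ → ∀ L ∈ S,
      ∃ v : Fr k (Fin 4) j, sp v = L ∧ Ψ (t, v) ∈ O) ?_ ?_ ?_ ?_
    · exact ⟨1, one_pos, fun _ _ L hL => absurd hL (notMem_empty L)⟩
    · rintro S T hST ⟨δ, hδ, h⟩
      exact ⟨δ, hδ, fun t ht L hL => h t ht L (hST hL)⟩
    · rintro S T ⟨δ, hδ, h⟩ ⟨δ', hδ', h'⟩
      refine ⟨min δ δ', lt_min hδ hδ', fun t ht L hL => ?_⟩
      rcases hL with hL | hL
      · exact h t (ht.trans_le (min_le_left _ _)) L hL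
      · exact h' t (ht.trans_le (min_le_right _ _)) L hL
    · intro L hL
      obtain ⟨v, rfl⟩ := H100.Gr.sp_surj L
      have h2 : Ψ (0, v) ∈ O := by
        have h3 : LinearIndependent k (Ψ (0, v)) :=
          H100.Gr.li_of_mn (by rw [hmn]; exact hKI v hL)
        refine ⟨h3, hx ⟨Ψ (0, v), h3⟩ fun b i hi => ?_⟩
        change d 0 i * v.1 b i = 0
        rw [h0 i hi, zero_mul]
      have h4 : Ψ ⁻¹' O ∈ 𝓝 ((0 : k), v) := (hOo.preimage hΨ).mem_nhds h2
      obtain ⟨A, hA, B, hB, hAB⟩ := mem_nhds_prod_iff.1 h4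
      obtain ⟨δ, hδ, hδA⟩ := Metric.mem_nhds_iff.1 hA
      refine ⟨sp '' B, mem_nhdsWithin_of_mem_nhds (H100.Gr.sp_open.image_mem_nhds hB), δ, hδ,
        fun t ht L' hL' => ?_⟩
      obtain ⟨v', hv', rfl⟩ := hL'
      exact ⟨v', rfl, hAB ⟨hδA (by simpa using ht), hv'⟩⟩
  obtain ⟨δ, hδ, h⟩ := key
  refine ⟨δ, hδ, fun t ht g c hc hg L hL => ?_⟩
  obtain ⟨v, rfl, h2, h3⟩ := h t ht L hL
  have e : g • sp v = sp ⟨Ψ (t, v), h2⟩ := by
    rw [← H100.Gr.sp_smF]
    refine H100.Gr.eq_of_le ?_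
    change Submodule.span k (range fun b => g • v.1 b) ≤ Submodule.span k (range (Ψ (t, v)))
    rw [Submodule.span_le]
    rintro _ ⟨b, rfl⟩
    change g • v.1 b ∈ _
    rw [hg]
    exact Submodule.smul_mem _ _ (Submodule.subset_span ⟨b, rfl⟩)
  rw [e]
  exact h3

end contract

end Vale.Agent.P092.SP4
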