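import Vale.Agent.P092.H370.Sp4c
import Vale.Agent.P092.SP.Defs

/-!
P092 (helper370), TEAM P, stage 1, row [P-NIS], part 2: `B1 w` contracts the points opposite to
`[e_3]` to `y0`, `B2 w` the lines opposite to `⟨e_2, e_3⟩` to `l0`; no invariant state on the
functions of points / of lines (fields `nis1`, `nis2` of `SP.PB`).
-/

set_option linter.all false

open Matrix Module Set Topology TopologicalSpace Filter
open scoped LinearAlgebra.Projectivization

namespace Vale.Agent.P092.SP4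

open Vale.Agent.P092.H303 (FormGroup)
open Vale.Agent.P092.H100.Gr (Gr Fr sp mn)
open Vale.Agent.P092.RC (GG YY y0 ct)
open Vale.Agent.P092.H644.Gr3 (p1)
open Vale.Agent.P092.SP (B1 B2 l0 mem_l0)

section pw

variable {k : Type} [NontriviallyNormedField k]

theorem b1_mul (w w' : kˣ) : b1 w * b1 w' = b1 (w * w') := by
  apply Subtype.ext
  change (b1 w).1 * (b1 w').1 = _
  unfold b1
  rw [Matrix.diagonal_mul_diagonal]
  congr 1
  funext i
  fin_cases i <;> simp [mul_comm]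

theorem b2_mul (w w' : kˣ) : b2 w * b2 w' = b2 (w * w') := by
  apply Subtype.ext
  change (b2 w).1 * (b2 w').1 = _
  unfold b2
  rw [Matrix.diagonal_mul_diagonal]
  congr 1
  funext i
  fin_cases i <;> simp [mul_comm]

theorem b1_one : b1 (1 : kˣ) = 1 := by
  apply Subtype.ext
  change (b1 1).1 = (1 : Matrix (Fin 4) (Fin 4) k)
  have e : ![(((1 : kˣ)⁻¹ : kˣ) : k), 1, 1, ((1 : kˣ) : k)] = fun _ => 1 := by
    funext i
    fin_cases i <;> simp
  change Matrix.diagonal ![(((1 : kˣ)⁻¹ : kˣ) : k), 1, 1, ((1 : kˣ) : k)] = 1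
  rw [e]
  exact Matrix.diagonal_one

theorem b2_one : b2 (1 : kˣ) = 1 := by
  apply Subtype.ext
  change (b2 1).1 = (1 : Matrix (Fin 4) (Fin 4) k)
  have e : ![(((1 : kˣ)⁻¹ : kˣ) : k), (((1 : kˣ)⁻¹ : kˣ) : k), ((1 : kˣ) : k), ((1 : kˣ) : k)] =
      fun _ => 1 := by
    funext i
    fin_cases i <;> simp
  change Matrix.diagonal ![(((1 : kˣ)⁻¹ : kˣ) : k), (((1 : kˣ)⁻¹ : kˣ) : k), ((1 : kˣ) : k),
    ((1 : kˣ) : k)] = 1
  rw [e]
  exact Matrix.diagonal_one

theorem b1_pow' (w : kˣ) (n : ℕ) : b1 w ^ n = b1 (w ^ n) := by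
  induction n with
  | zero => rw [pow_zero, pow_zero, b1_one]
  | succ n ih => rw [pow_succ, pow_succ, ih, b1_mul]

theorem b2_pow' (w : kˣ) (n : ℕ) : b2 w ^ n = b2 (w ^ n) := by
  induction n with
  | zero => rw [pow_zero, pow_zero, b2_one]
  | succ n ih => rw [pow_succ, pow_succ, ih, b2_mul]

theorem b1_smul (u : kˣ) (x : Fin 4 → k) :
    b1 u • x = ((u⁻¹ : kˣ) : k) • (![1, (u : k), (u : k), (u : k) ^ 2] * x) := by
  have h : ((u⁻¹ : kˣ) : k) * (u : k) = 1 := by rw [← Units.val_mul]; simp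
  change Matrix.mulVec (b1 u).1 x = _
  unfold b1
  funext i
  rw [Matrix.mulVec_diagonal]
  fin_cases i
  · simp
  · change 1 * x 1 = ((u⁻¹ : kˣ) : k) * ((u : k) * x 1)
    rw [← mul_assoc, h]
  · change 1 * x 2 = ((u⁻¹ : kˣ) : k) * ((u : k) * x 2)
    rw [← mul_assoc, h]
  · change (u : k) * x 3 = ((u⁻¹ : kˣ) : k) * ((u : k) ^ 2 * x 3)
    linear_combination (-(u : k) * x 3) * h

theorem b2_smul (u : kˣ) (x : Fin 4 → k) :
    b2 u • x = ((u⁻¹ : kˣ) : k) • (![1, 1, (u : k) ^ 2, (u : k) ^ 2] * x) := by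
  have h : ((u⁻¹ : kˣ) : k) * (u : k) = 1 := by rw [← Units.val_mul]; simp
  change Matrix.mulVec (b2 u).1 x = _
  unfold b2
  funext i
  rw [Matrix.mulVec_diagonal]
  fin_cases i
  · simp
  · simp
  · change (u : k) * x 2 = ((u⁻¹ : kˣ) : k) * ((u : k) ^ 2 * x 2)
    linear_combination (-(u : k) * x 2) * h
  · change (u : k) * x 3 = ((u⁻¹ : kˣ) : k) * ((u : k) ^ 2 * x 3)
    linear_combination (-(u : k) * x 3) * h

end pw

section pts

variable {k : Type} [NontriviallyNormedField k]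

theorem single_ne (i : Fin 4) : (Pi.single i 1 : Fin 4 → k) ≠ 0 := by
  intro h
  have := congrFun h i
  simp at this

/-- the point `[e_3]` -/
noncomputable def y3 : YY k 3 := Projectivization.mk k (Pi.single 3 1) (single_ne 3)

theorem prp_y3 {x : YY k 3} : prp x y3 ↔ x.rep 0 = 0 := by
  have e : x = Projectivization.mk k x.rep x.rep_nonzero := (Projectivization.mk_rep x).symm
  conv_lhs => rw [e]
  unfold y3
  rw [prp_mk, om_eq]
  simp

theorem not_prp_y0 : ¬ prp (y0 : YY k 3) y3 := by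
  unfold y0 y3
  rw [prp_mk, om_eq]
  simp

theorem p1_eq_span (x : YY k 3) : (p1 x).1 = Submodule.span k {x.rep} := by
  change x.submodule = _
  rw [Projectivization.submodule_eq]

variable [ProperSpace k]

/-- **contraction of points** -/
theorem ctr_pt {w : kˣ} (hw : ‖(w : k)‖ < 1) : Ctr (B1 w) {x : YY k 3 | ¬ prp x y3} y0 := by
  intro K hKU hK V hV hy
  have hp : IsOpen (p1 '' V) := H644.Gr3.p1H.isOpenMap V hV
  have hK' : IsCompact (p1 '' K) := hK.image H644.Gr3.p1_cont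
  obtain ⟨δ, hδ, h⟩ := contract (k := k) (j := 1) ![0] (fun t => ![1, t, t, t ^ 2])
    (by
      refine continuous_pi fun i => ?_
      fin_cases i
      · exact continuous_const
      · exact continuous_id
      · exact continuous_id
      · exact continuous_pow 2)
    (fun t b => by fin_cases b; rfl)
    (fun i hi => by
      fin_cases i
      · exact absurd ⟨0, rfl⟩ hi
      · rfl
      · rfl
      · change (0 : k) ^ 2 = 0
        simp)
    hK' (by
      rintro v ⟨x, hx, hv⟩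
      have h1 : v.1 0 ∈ (p1 x).1 := by
        rw [hv]
        exact Submodule.subset_span ⟨0, rfl⟩
      rw [p1_eq_span, Submodule.mem_span_singleton] at h1
      obtain ⟨a, ha⟩ := h1
      have ha0 : a ≠ 0 := by
        intro h0
        rw [h0, zero_smul] at ha
        exact v.2.ne_zero 0 ha.symm
      have h2 : mn ![(0 : Fin 4)] v.1 = v.1 0 0 := by
        unfold mn
        rw [Matrix.det_fin_one]
        rfl
      rw [h2, ← ha]
      have h3 : x.rep 0 ≠ 0 := fun h0 => hKU hx (prp_y3.2 h0)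
      exact mul_ne_zero ha0 h3) hp (by
      intro v hv
      refine ⟨y0, hy, ?_⟩
      refine (H100.Gr.eq_of_le ?_).symm
      change Submodule.span k (range v.1) ≤ (p1 y0).1
      rw [Submodule.span_le]
      rintro _ ⟨b, rfl⟩
      have e : v.1 b = v.1 b 0 • (Pi.single 0 1 : Fin 4 → k) := by
        funext i
        by_cases hi : i = 0
        · subst hi; simp
        · have h0 : i ∉ range ![(0 : Fin 4)] := by
            rintro ⟨b', hb'⟩
            fin_cases b'
            exact hi hb'.symm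
          rw [hv b i h0]
          simp [Pi.single_eq_of_ne hi]
      rw [e]
      unfold y0
      rw [H644.Gr3.p1_mk]
      exact Submodule.smul_mem _ _ (Submodule.mem_span_singleton_self _))
  obtain ⟨n, hn⟩ := exists_pow_lt_of_lt_one hδ hw
  refine ⟨n, fun x hx => ?_⟩
  have h4 := h ((w : k) ^ n) (by rwa [norm_pow]) (b1 w ^ n) (((w ^ n)⁻¹ : kˣ) : k)
    (Units.ne_zero _) (fun x => by
      rw [b1_pow', b1_smul, Units.val_pow_eq_pow_val]) (p1 x) ⟨x, hx, rfl⟩
  rw [← p1_smul'] at h4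
  obtain ⟨z, hz, hzx⟩ := h4
  have h5 : z = b1 w ^ n • x := H644.Gr3.p1_inj hzx
  rw [h5] at hz
  exact hz

end pts

section lns

variable {k : Type} [NontriviallyNormedField k]

theorem mem_sp23 {x : Fin 4 → k} :
    x ∈ Submodule.span k (Set.range ![(Pi.single 2 1 : Fin 4 → k), Pi.single 3 1]) ↔
      x 0 = 0 ∧ x 1 = 0 := by
  constructor
  · intro h
    rw [Submodule.mem_span_range_iff_exists_fun] at h
    obtain ⟨c, rfl⟩ := h
    simp [Fin.sum_univ_two]
  · rintro ⟨h2, h3⟩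
    rw [Submodule.mem_span_range_iff_exists_fun]
    refine ⟨![x 2, x 3], ?_⟩
    ext i
    fin_cases i <;> simp [Fin.sum_univ_two, h2, h3]

/-- the opposite base line `⟨e_2, e_3⟩` -/
noncomputable def l3 : LL k :=
  LL.mk' (Submodule.span k (Set.range ![(Pi.single 2 1 : Fin 4 → k), Pi.single 3 1])) (by
    intro x hx y hy
    obtain ⟨hx2, hx3⟩ := mem_sp23.1 hx
    obtain ⟨hy2, hy3⟩ := mem_sp23.1 hy
    rw [om_eq, hx2, hx3, hy2, hy3]
    ring) (by
    rw [finrank_span_eq_card, Fintype.card_fin]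
    rw [LinearIndependent.pair_iff]
    intro s t h
    have h0 := congrFun h 2
    have h1 := congrFun h 3
    simp at h0 h1
    exact ⟨h0, h1⟩)

theorem mem_l3 {x : Fin 4 → k} : x ∈ (l3 : LL k).1.1 ↔ x 0 = 0 ∧ x 1 = 0 := mem_sp23

theorem oppL_iff {l m : LL k} : OppL l m ↔ ∀ v ∈ l.1.1, v ∈ m.1.1 → v = 0 := by
  constructor
  · intro h v hv hv'
    by_contra h0
    exact h (Projectivization.mk k v h0) ((on_mk h0).2 hv) ((on_mk h0).2 hv')
  · intro h x hx hx'
    exact x.rep_nonzero (h x.rep (on_iff.1 hx) (on_iff.1 hx'))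

theorem oppL_l0 : OppL (l0 : LL k) l3 := by
  rw [oppL_iff]
  intro v h1 h2
  obtain ⟨a, b⟩ := mem_l0.1 h1
  obtain ⟨c, d⟩ := mem_l3.1 h2
  funext i
  fin_cases i
  · exact c
  · exact d
  · exact a
  · exact b

theorem mn_two (v : Fin 2 → Fin 4 → k) :
    mn ![(0 : Fin 4), 1] v = v 0 0 * v 1 1 - v 0 1 * v 1 0 := by
  unfold mn
  rw [Matrix.det_fin_two]
  rfl

/-- a frame of a line opposite to `l3` -/
theorem mn_ne_of_opp {l : LL k} (h : OppL l l3) {v : Fr k (Fin 4) 2} (hv : sp v = l.1) :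
    mn ![(0 : Fin 4), 1] v.1 ≠ 0 := by
  rw [mn_two]
  intro h0
  rw [oppL_iff] at h
  have hmem : ∀ a b : k, a • v.1 0 + b • v.1 1 ∈ l.1.1 := by
    intro a b
    rw [← hv]
    exact Submodule.add_mem _ (Submodule.smul_mem _ _ (Submodule.subset_span ⟨0, rfl⟩))
      (Submodule.smul_mem _ _ (Submodule.subset_span ⟨1, rfl⟩))
  have hli : ∀ a b : k, a • v.1 0 + b • v.1 1 = 0 → a = 0 ∧ b = 0 := by
    intro a b hab
    have := LinearIndependent.pair_iff.1 (by
      have := v.2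
      convert this using 1
      funext i
      fin_cases i <;> rfl : LinearIndependent k ![v.1 0, v.1 1]) a b hab
    exact this
  -- two combinations with vanishing coordinates `0`, `1`
  have k1 := hli _ _ (h _ (hmem (v.1 1 1) (-(v.1 0 1))) (mem_l3.2 ⟨by
    simp only [Pi.add_apply, Pi.smul_apply, smul_eq_mul]
    linear_combination h0, by
    simp only [Pi.add_apply, Pi.smul_apply, smul_eq_mul]
    ring⟩))
  have k2 := hli _ _ (h _ (hmem (v.1 1 0) (-(v.1 0 0))) (mem_l3.2 ⟨by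
    simp only [Pi.add_apply, Pi.smul_apply, smul_eq_mul]
    ring, by
    simp only [Pi.add_apply, Pi.smul_apply, smul_eq_mul]
    linear_combination -h0⟩))
  have z1 : v.1 0 = 0 := h _ (by simpa using hmem 1 0) (mem_l3.2
    ⟨by simpa using k2.2, by simpa using k1.2⟩)
  exact v.2.ne_zero 0 z1

variable [ProperSpace k]

/-- **contraction of lines** -/
theorem ctr_ln {w : kˣ} (hw : ‖(w : k)‖ < 1) : Ctr (B2 w) {l : LL k | OppL l l3} l0 := by
  intro K hKU hK V hV hl0
  obtain ⟨V₀, hV₀, rfl⟩ := isOpen_induced_iff.1 hV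
  have hK' : IsCompact ((fun l : LL k => (l.1 : Gr k (Fin 4) 2)) '' K) := hK.image val_cont
  obtain ⟨δ, hδ, h⟩ := contract (k := k) (j := 2) ![0, 1] (fun t => ![1, 1, t ^ 2, t ^ 2])
    (by
      refine continuous_pi fun i => ?_
      fin_cases i
      · exact continuous_const
      · exact continuous_const
      · exact continuous_pow 2
      · exact continuous_pow 2)
    (fun t b => by fin_cases b <;> rfl)
    (fun i hi => by
      fin_cases i
      · exact absurd ⟨0, rfl⟩ hi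
      · exact absurd ⟨1, rfl⟩ hi
      · change (0 : k) ^ 2 = 0
        simp
      · change (0 : k) ^ 2 = 0
        simp)
    hK' (by
      rintro v ⟨l, hl, hv⟩
      exact mn_ne_of_opp (hKU hl) hv.symm) hV₀ (by
      intro v hv
      have e : sp v = (l0 : LL k).1 := by
        refine H100.Gr.eq_of_le ?_
        change Submodule.span k (range v.1) ≤ (l0 : LL k).1.1
        rw [Submodule.span_le]
        rintro _ ⟨b, rfl⟩
        refine mem_l0.2 ⟨hv b 2 ?_, hv b 3 ?_⟩
        · rintro ⟨b', hb'⟩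
          fin_cases b' <;> simp at hb'
        · rintro ⟨b', hb'⟩
          fin_cases b' <;> simp at hb'
      rw [e]
      exact hl0)
  obtain ⟨n, hn⟩ := exists_pow_lt_of_lt_one hδ hw
  refine ⟨n, fun l hl => ?_⟩
  exact h ((w : k) ^ n) (by rwa [norm_pow]) (b2 w ^ n) (((w ^ n)⁻¹ : kˣ) : k)
    (Units.ne_zero _) (fun x => by
      rw [b2_pow', b2_smul, Units.val_pow_eq_pow_val]) l.1 ⟨l, hl, rfl⟩

end lns

section data

variable {k : Type} [NontriviallyNormedField k]

/-- the lower root element `1 + s E_30` -/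
def lo (s : k) : S4 k := ⟨tps (lg s), tps_mem (lg_mem s)⟩

theorem lo_smul (s : k) (x : Fin 4 → k) :
    (lo s).1 • x = x + (s * x 0) • (Pi.single 3 1 : Fin 4 → k) := by
  change tps (lg s) • x = _
  rw [tps_smul]
  funext i
  fin_cases i <;> simp [lg, Matrix.vecMul, dotProduct, Fin.sum_univ_four] <;> ring

theorem lo_zero : lo (0 : k) = 1 := by
  apply Subtype.ext
  apply Subtype.ext
  change (lg (0 : k)).1ᵀ = 1
  unfold lg
  ext i j
  fin_cases i <;> fin_cases j <;> simp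

theorem lo_cont : Continuous (lo : k → S4 k) := by
  refine Continuous.subtype_mk ?_ _
  refine Continuous.subtype_mk ?_ _
  change Continuous fun s : k => (lg s).1ᵀ
  refine Continuous.matrix_transpose ?_
  unfold lg
  refine continuous_matrix fun i j => ?_
  fin_cases i <;> fin_cases j <;> first | exact continuous_id | exact continuous_const

theorem exists_lo {X : Type*} [TopologicalSpace X] [MulAction (S4 k) X]
    [ContinuousSMul (S4 k) X] {x0 : X} (h : ∀ s : k, s ≠ 0 → lo s • x0 ≠ x0) :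
    ∀ V, IsOpen V → x0 ∈ V → ∃ u : S4 k, u • x0 ∈ V ∧ u • x0 ≠ x0 := by
  intro V hV hx
  have h1 : Continuous fun s : k => lo s • x0 := lo_cont.smul continuous_const
  have h2 : {s : k | lo s • x0 ∈ V} ∈ 𝓝 (0 : k) := by
    refine (hV.preimage h1).mem_nhds ?_
    change lo 0 • x0 ∈ V
    rw [lo_zero, one_smul]
    exact hx
  have h3 : ∀ᶠ s : k in 𝓝[≠] 0, lo s • x0 ∈ V ∧ s ≠ 0 :=
    Filter.Eventually.and (show ∀ᶠ s : k in 𝓝[≠] 0, lo s • x0 ∈ V from
      mem_nhdsWithin_of_mem_nhds h2) self_mem_nhdsWithin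
  obtain ⟨s, hs, hs0⟩ := h3.exists
  exact ⟨lo s, hs, h s hs0⟩

theorem lo_y0 (s : k) (hs : s ≠ 0) : lo s • (y0 : YY k 3) ≠ y0 := by
  intro h
  unfold y0 at h
  rw [smul_YY, Projectivization.smul_mk, Projectivization.mk_eq_mk_iff'] at h
  obtain ⟨a, ha⟩ := h
  rw [lo_smul] at ha
  have := congrFun ha 3
  simp at this
  exact hs this.symm

theorem lo_l0 (s : k) (hs : s ≠ 0) : lo s • (l0 : LL k) ≠ l0 := by
  intro h
  have h1 : (Pi.single 0 1 : Fin 4 → k) ∈ (l0 : LL k).1.1 := mem_l0.2 (by simp)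
  have h2 : (lo s).1 • (Pi.single 0 1 : Fin 4 → k) ∈ (lo s • (l0 : LL k)).1.1 :=
    H100.Gr.smul_mem h1
  rw [h] at h2
  have h3 := (mem_l0.1 h2).2
  rw [lo_smul] at h3
  simp at h3
  exact hs h3

theorem open_pt : IsOpen {x : YY k 3 | ¬ prp x y3} :=
  (prp_closed.preimage (continuous_id.prodMk continuous_const)).isOpen_compl

variable [ProperSpace k]

theorem open_ln : IsOpen {l : LL k | OppL l l3} := by
  have h1 : IsClosed {p : YY k 3 × LL k | on p.1 p.2 ∧ on p.1 l3} :=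
    on_closed.inter (on_closed.preimage (continuous_fst.prodMk continuous_const))
  have h2 : IsClosed (Prod.snd '' {p : YY k 3 × LL k | on p.1 p.2 ∧ on p.1 l3}) :=
    (h1.isCompact.image continuous_snd).isClosed
  convert h2.isOpen_compl using 1
  ext l
  constructor
  · rintro h ⟨⟨x, l'⟩, ⟨h3, h4⟩, rfl⟩
    exact h x h3 h4
  · intro h x hx hx'
    exact h ⟨(x, l), ⟨hx, hx'⟩, rfl⟩

theorem exists_w : ∃ w : kˣ, ‖(w : k)‖ < 1 := by
  obtain ⟨x, hx0, hx1⟩ := NormedField.exists_norm_lt_one k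
  exact ⟨Units.mk0 x (norm_pos_iff.1 hx0), hx1⟩

theorem data_pt : ∃ (F : C(YY k 3, ℝ)) (a b : S4 k) (T : Finset (S4 k)), 0 ≤ F ∧
    (∀ x, F (a • x) + F (b • x) ≤ F x) ∧ ∀ x, ∃ g ∈ T, 1 ≤ F (g • x) := by
  obtain ⟨w, hw⟩ := exists_w (k := k)
  exact exists_data open_pt not_prp_y0 (ctr_pt hw) (exists_lo lo_y0) fun x => trans_pt x y0

theorem data_ln : ∃ (F : C(LL k, ℝ)) (a b : S4 k) (T : Finset (S4 k)), 0 ≤ F ∧
    (∀ x, F (a • x) + F (b • x) ≤ F x) ∧ ∀ x, ∃ g ∈ T, 1 ≤ F (g • x) := by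
  obtain ⟨w, hw⟩ := exists_w (k := k)
  exact exists_data open_ln oppL_l0 (ctr_ln hw) (exists_lo lo_l0) fun x => trans_ln x l0

end data

section final

open Vale.Agent.P092.H514.NI (Covol)
open Vale.Agent.P092.H76.Pur (NIS)

variable {k : Type} [NontriviallyNormedField k] [ProperSpace k]

/-- **[P-NIS]**, `E` any group through which the action factors -/
theorem nis_gen {X : Type*} [TopologicalSpace X] [CompactSpace X] [MulAction (S4 k) X]
    [ContinuousSMul (S4 k) X]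
    (hd : ∃ (F : C(X, ℝ)) (a b : S4 k) (T : Finset (S4 k)), 0 ≤ F ∧
      (∀ x, F (a • x) + F (b • x) ≤ F x) ∧ ∀ x, ∃ g ∈ T, 1 ≤ F (g • x))
    {E : Type*} [Group E] [TopologicalSpace E] [IsTopologicalGroup E] [MulAction E X]
    {ι : S4 k →* E} (hι : IsOpenQuotientMap ι) (h : ∀ g (x : X), ι g • x = g • x)
    {Γ : Subgroup E} (hΓ : Covol Γ) (q : Γ → S4 k) (hq : ∀ γ, ι (q γ) = γ) :
    NIS fun (γ : Γ) (x : X) => q γ • x := by
  classical
  haveI : ContinuousSMul E X := csmul_of_quot hι h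
  obtain ⟨F, a, b, T, hF, hab, hT⟩ := hd
  refine nis_of_data ⟨F, ι a, ι b, T.image ι, hF, fun x => ?_, fun x => ?_⟩ hΓ _ fun γ x => ?_
  · rw [h, h]
    exact hab x
  · obtain ⟨g, hg, hgx⟩ := hT x
    exact ⟨ι g, Finset.mem_image_of_mem ι hg, by rw [h]; exact hgx⟩
  · rw [← hq γ, h]

/-- the literal form: `q` any section of `ι` over `Γ` -/
theorem nis_pt {E : Type*} [Group E] [TopologicalSpace E] [IsTopologicalGroup E]
    [MulAction E (YY k 3)] {ι : S4 k →* E} (hι : IsOpenQuotientMap ι)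
    (h : ∀ g (x : YY k 3), ι g • x = g • x) {Γ : Subgroup E} (hΓ : Covol Γ) (q : Γ → S4 k)
    (hq : ∀ γ, ι (q γ) = γ) : NIS fun (γ : Γ) (x : YY k 3) => q γ • x :=
  nis_gen data_pt hι h hΓ q hq

theorem nis_ln {E : Type*} [Group E] [TopologicalSpace E] [IsTopologicalGroup E]
    [MulAction E (LL k)] {ι : S4 k →* E} (hι : IsOpenQuotientMap ι)
    (h : ∀ g (x : LL k), ι g • x = g • x) {Γ : Subgroup E} (hΓ : Covol Γ) (q : Γ → S4 k)
    (hq : ∀ γ, ι (q γ) = γ) : NIS fun (γ : Γ) (x : LL k) => q γ • x :=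
  nis_gen data_ln hι h hΓ q hq

/-- `E = Sp_4(k)`: field `nis1` of `SP.PB` for `q = Subtype.val` -/
theorem nis1_S4 {Γ : Subgroup (S4 k)} (hΓ : Covol Γ) :
    NIS fun (γ : Γ) (x : YY k 3) => (γ : S4 k) • x :=
  nis_pt (ι := MonoidHom.id (S4 k)) IsOpenQuotientMap.id (fun _ _ => rfl) hΓ Subtype.val
    fun _ => rfl

/-- `E = Sp_4(k)`: field `nis2` of `SP.PB` for `q = Subtype.val` -/
theorem nis2_S4 {Γ : Subgroup (S4 k)} (hΓ : Covol Γ) :
    NIS fun (γ : Γ) (x : LL k) => (γ : S4 k) • x :=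
  nis_ln (ι := MonoidHom.id (S4 k)) IsOpenQuotientMap.id (fun _ _ => rfl) hΓ Subtype.val
    fun _ => rfl

/-- the action of a quotient by a subgroup acting trivially -/
theorem nis_quo {X : Type*} [TopologicalSpace X] [CompactSpace X] [MulAction (S4 k) X]
    [ContinuousSMul (S4 k) X]
    (hd : ∃ (F : C(X, ℝ)) (a b : S4 k) (T : Finset (S4 k)), 0 ≤ F ∧
      (∀ x, F (a • x) + F (b • x) ≤ F x) ∧ ∀ x, ∃ g ∈ T, 1 ≤ F (g • x))
    (Z : Subgroup (S4 k)) [Z.Normal] (hZ : ∀ z ∈ Z, ∀ x : X, z • x = x)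
    {Γ : Subgroup (S4 k ⧸ Z)} (hΓ : Covol Γ) (q : Γ → S4 k)
    (hq : ∀ γ, QuotientGroup.mk' Z (q γ) = γ) : NIS fun (γ : Γ) (x : X) => q γ • x := by
  letI : MulAction (S4 k ⧸ Z) X := MulAction.compHom X
    (QuotientGroup.lift Z (MulAction.toPermHom (S4 k) X) fun z hz => Equiv.ext fun x => hZ z hz x)
  exact nis_gen hd (ι := QuotientGroup.mk' Z) ⟨QuotientGroup.mk'_surjective Z,
    QuotientGroup.continuous_mk, QuotientGroup.isOpenMap_coe⟩ (fun g x => rfl) hΓ q hq

/-- central elements act trivially on points and lines -/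
theorem nis_pt_quo (Z : Subgroup (S4 k)) [Z.Normal] (hZ : ∀ z ∈ Z, ∀ x : YY k 3, z • x = x)
    {Γ : Subgroup (S4 k ⧸ Z)} (hΓ : Covol Γ) (q : Γ → S4 k)
    (hq : ∀ γ, QuotientGroup.mk' Z (q γ) = γ) : NIS fun (γ : Γ) (x : YY k 3) => q γ • x :=
  nis_quo data_pt Z hZ hΓ q hq

theorem nis_ln_quo (Z : Subgroup (S4 k)) [Z.Normal] (hZ : ∀ z ∈ Z, ∀ x : LL k, z • x = x)
    {Γ : Subgroup (S4 k ⧸ Z)} (hΓ : Covol Γ) (q : Γ → S4 k)
    (hq : ∀ γ, QuotientGroup.mk' Z (q γ) = γ) : NIS fun (γ : Γ) (x : LL k) => q γ • x :=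
  nis_quo data_ln Z hZ hΓ q hq

end final

end Vale.Agent.P092.SP4
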